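import Vale.Agent.P110.Basic

/-! A Fejer smoothed square wave. -/

namespace Vale.Agent.P110
open Finset MeasureTheory

namespace Square

lemma fejer (y : ℝ) (J : ℕ) :
    Complex.normSq (∑ a ∈ range J, e (a * y)) =
      2 * (∑ j ∈ range J, ((J : ℂ) - j) * e (j * y)).re - J := by
  induction J with
  | zero => simp
  | succ J ih =>
    have h1 : ∑ a ∈ range (J + 1), e (a * y) = 1 + e y * ∑ a ∈ range J, e (a * y) := by
      rw [Finset.sum_range_succ', Finset.mul_sum, add_comm]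
      simp only [Nat.cast_zero, zero_mul, e_zero, add_right_inj]
      refine Finset.sum_congr rfl fun a _ => ?_
      rw [← e_add]; congr 1; push_cast; ring
    have h2 : ∑ j ∈ range (J + 1), (((J + 1 : ℕ) : ℂ) - j) * e (j * y) =
        ∑ j ∈ range J, ((J : ℂ) - j) * e (j * y) + ∑ a ∈ range (J + 1), e (a * y) := by
      have : ∑ j ∈ range J, ((J : ℂ) - j) * e (j * y) =
          ∑ j ∈ range (J + 1), ((J : ℂ) - j) * e (j * y) := by
        rw [Finset.sum_range_succ]; simp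
      rw [this, ← Finset.sum_add_distrib]
      refine Finset.sum_congr rfl fun a _ => ?_
      push_cast; ring
    have h3 : Complex.normSq (e y) = 1 := by
      rw [Complex.normSq_eq_norm_sq, norm_e]; norm_num
    rw [h2, h1, Complex.normSq_add, map_mul, h3, ih]
    simp only [map_one, Complex.add_re, Complex.one_re, one_mul, Complex.conj_re]
    push_cast; ring

/-- Coefficients of the antiderivative of the Fejer kernel. -/
noncomputable def b (J j : ℕ) : ℂ := (1 - (j : ℂ) / J) / (((2 * Real.pi * j : ℝ) : ℂ) * Complex.I)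

/-- The antiderivative of the Fejer kernel. -/
noncomputable def H (J : ℕ) (x : ℝ) : ℝ := x + 2 * (∑ j ∈ range J, b J j * e (j * x)).re

lemma H_mono (J : ℕ) (hJ : 0 < J) : Monotone (H J) := by
  have hJ' : (0 : ℝ) < J := by exact_mod_cast hJ
  refine monotone_of_hasDerivAt_nonneg
    (f' := fun x => Complex.normSq (∑ a ∈ range J, e (a * x)) / J) (fun x => ?_)
    (fun x => div_nonneg (Complex.normSq_nonneg _) hJ'.le)
  have h1 : HasDerivAt (fun x : ℝ => ∑ j ∈ range J, b J j * e (j * x))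
      (∑ j ∈ range J, b J j * (((2 * Real.pi * j : ℝ) : ℂ) * Complex.I * e (j * x))) x := by
    refine HasDerivAt.fun_sum fun j _ => HasDerivAt.const_mul _ (HasDerivAt.e_comp ?_)
    simpa using (hasDerivAt_id x).const_mul (j : ℝ)
  have h2 := (hasDerivAt_id x).add ((Complex.reCLM.hasFDerivAt.comp_hasDerivAt x h1).const_mul 2)
  have h3 : ∑ j ∈ range J, b J j * (((2 * Real.pi * j : ℝ) : ℂ) * Complex.I * e (j * x)) =
      (((J : ℝ)⁻¹ : ℝ) : ℂ) * (∑ j ∈ range J, ((J : ℂ) - j) * e (j * x)) - 1 := by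
    obtain ⟨K, rfl⟩ := Nat.exists_eq_succ_of_ne_zero hJ.ne'
    have hK : ((K.succ : ℕ) : ℂ) ≠ 0 := by exact_mod_cast hJ.ne'
    rw [Finset.mul_sum, Finset.sum_range_succ', Finset.sum_range_succ']
    have h4 : ∀ j : ℕ, b K.succ (j + 1) *
        (((2 * Real.pi * (j + 1 : ℕ) : ℝ) : ℂ) * Complex.I * e ((j + 1 : ℕ) * x)) =
        ((((K.succ : ℕ) : ℝ)⁻¹ : ℝ) : ℂ) *
          ((((K.succ : ℕ) : ℂ) - (j + 1 : ℕ)) * e ((j + 1 : ℕ) * x)) := by
      intro j
      have h5 : (((2 * Real.pi * (j + 1 : ℕ) : ℝ) : ℂ) * Complex.I) ≠ 0 := by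
        refine mul_ne_zero ?_ Complex.I_ne_zero
        have := Real.pi_pos
        exact_mod_cast (by positivity : (2 * Real.pi * (j + 1 : ℕ) : ℝ) ≠ 0)
      rw [b, ← mul_assoc, div_mul_cancel₀ _ h5, Complex.ofReal_inv, Complex.ofReal_natCast]
      field_simp
    simp only [h4]
    rw [Complex.ofReal_inv, Complex.ofReal_natCast]
    simp only [b, Nat.cast_zero, mul_zero, zero_mul, e_zero, sub_zero, mul_one,
      Complex.ofReal_zero, inv_mul_cancel₀ hK]
    ring
  refine HasDerivAt.congr_deriv h2 ?_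
  rw [fejer, h3]
  simp only [Complex.reCLM_apply, Complex.sub_re, Complex.one_re, Complex.re_ofReal_mul]
  generalize (∑ j ∈ range J, ((J : ℂ) - j) * e (j * x)).re = A
  field_simp
  ring

lemma e_half (j : ℕ) (x : ℝ) : e (j * (x - 1 / 2)) = (-1) ^ j * e (j * x) := by
  have h1 : e (-(1 / 2)) = -1 := by
    unfold e
    have : (((2 * Real.pi * -(1 / 2) : ℝ) : ℂ) * Complex.I) = -(Real.pi * Complex.I) := by
      push_cast; ring
    rw [this, Complex.exp_neg, Complex.exp_pi_mul_I]; norm_num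
  rw [← h1, ← e_nat_mul, ← e_add]; congr 1; ring

lemma H_one (J : ℕ) (x : ℝ) : H J (x - 1) = H J x - 1 := by
  have : ∀ j : ℕ, e (j * (x - 1)) = e (j * x) := by
    intro j
    have := e_sub_int (j * x) j
    rw [← this]; congr 1; push_cast; ring
  simp only [H, this]; ring

lemma odd_sum (K : ℕ) :
    ∑ j ∈ range (2 * K), (1 : ℝ) / (j : ℝ) ^ 2 - Real.pi ^ 2 / 24 ≤
      ∑ j ∈ range (2 * K), (if Even j then 0 else (1 : ℝ) / (j : ℝ) ^ 2) := by
  have h1 : ∑ j ∈ range (2 * K), (if Even j then 0 else (1 : ℝ) / (j : ℝ) ^ 2) =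
      ∑ j ∈ range (2 * K), (1 : ℝ) / (j : ℝ) ^ 2 -
        (1 / 4) * ∑ j ∈ range K, (1 : ℝ) / (j : ℝ) ^ 2 := by
    induction K with
    | zero => simp
    | succ K ih =>
      rw [show 2 * (K + 1) = 2 * K + 1 + 1 by ring]
      simp only [Finset.sum_range_succ, ih]
      rw [if_pos (by simp), if_neg (by simp)]
      push_cast
      rcases Nat.eq_zero_or_pos K with rfl | hK
      · simp
      · have : (K : ℝ) ≠ 0 := by exact_mod_cast hK.ne'
        field_simp
        ring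
  have h2 := sum_le_hasSum (range K) (fun j _ => by positivity) hasSum_zeta_two
  rw [h1]
  linarith

end Square

open Square in
theorem exists_square (δ : ℝ) (hδ : 0 < δ) : ∃ (J : ℕ) (c : ℕ → ℂ), (∀ j, Even j → c j = 0) ∧
    (∀ x : ℝ, |2 * (∑ j ∈ range J, c j * e (j * x)).re| ≤ 1) ∧
    1 - δ ≤ 2 * ∑ j ∈ range J, ‖c j‖ ^ 2 := by
  wlog hδ1 : δ ≤ 1 generalizing δ
  · obtain ⟨J, c, h1, h2, h3⟩ := this 1 one_pos le_rfl
    exact ⟨J, c, h1, h2, by linarith⟩
  have hpi := Real.pi_pos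
  obtain ⟨K, hK⟩ : ∃ K : ℕ, Real.pi ^ 2 / 6 - Real.pi ^ 2 * δ / 16 ≤
      ∑ j ∈ range (2 * K), (1 : ℝ) / (j : ℝ) ^ 2 := by
    have h1 := hasSum_zeta_two.tendsto_sum_nat
    have h2 := h1.eventually (eventually_ge_nhds
      (b := Real.pi ^ 2 / 6 - Real.pi ^ 2 * δ / 16) (by
        have : 0 < Real.pi ^ 2 * δ / 16 := by positivity
        linarith))
    obtain ⟨K, hK⟩ := Filter.eventually_atTop.1 h2
    exact ⟨K, hK _ (by omega)⟩
  obtain ⟨J, hJ⟩ := exists_nat_gt (8 * K / δ + 2 * K)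
  have hKδ : 0 ≤ 8 * (K : ℝ) / δ := by positivity
  have hJ0 : (0 : ℝ) < J := by have : (0 : ℝ) ≤ K := by positivity
                               linarith
  have hKJ : 2 * K ≤ J := by
    have : ((2 * K : ℕ) : ℝ) ≤ J := by push_cast; linarith
    exact_mod_cast this
  refine ⟨J, fun j => 2 * (1 - (-1) ^ j) * b J j, fun j hj => by simp [hj.neg_one_pow],
    fun x => ?_, ?_⟩
  · have hm := H_mono J (by exact_mod_cast hJ0)
    have h1 : H J (x - 1 / 2) ≤ H J x := hm (by linarith)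
    have h2 : H J (x - 1) ≤ H J (x - 1 / 2) := hm (by linarith)
    rw [H_one] at h2
    have h3 : 2 * (∑ j ∈ range J, 2 * (1 - (-1) ^ j) * b J j * e (j * x)).re =
        2 * (H J x - H J (x - 1 / 2)) - 1 := by
      have h4 : ∑ j ∈ range J, 2 * (1 - (-1) ^ j) * b J j * e (j * x) =
          ((2 : ℝ) : ℂ) * (∑ j ∈ range J, b J j * e (j * x) -
            ∑ j ∈ range J, b J j * e (j * (x - 1 / 2))) := by
        rw [← Finset.sum_sub_distrib, Finset.mul_sum]
        refine Finset.sum_congr rfl fun j _ => ?_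
        rw [e_half]; push_cast; ring
      rw [h4, Complex.re_ofReal_mul, Complex.sub_re, H, H]
      ring
    rw [h3, abs_le]
    constructor <;> linarith
  · have h1 : ∀ j ∈ range (2 * K), 4 / Real.pi ^ 2 * (1 - δ / 2) *
        (if Even j then 0 else (1 : ℝ) / (j : ℝ) ^ 2) ≤
        ‖2 * (1 - (-1) ^ j) * b J j‖ ^ 2 := by
      intro j hj
      split_ifs with h
      · rw [mul_zero]; positivity
      have hodd := Nat.not_even_iff_odd.1 h
      have hj0 : (0 : ℝ) < j := by exact_mod_cast hodd.pos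
      have hj1 : (j : ℝ) ≤ 2 * K := by exact_mod_cast (Finset.mem_range.1 hj).le
      have h2 : (1 - (j : ℂ) / J) = ((1 - (j : ℝ) / J : ℝ) : ℂ) := by push_cast; rfl
      rw [hodd.neg_one_pow, b, h2]
      simp only [norm_mul, norm_div, Complex.norm_real, Complex.norm_I, mul_one,
        Real.norm_eq_abs, mul_pow, div_pow, sq_abs]
      have h3 : (j : ℝ) / J ≤ δ / 4 := by
        rw [div_le_iff₀ hJ0]
        have : 8 * (K : ℝ) / δ * δ = 8 * K := by field_simp
        nlinarith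
      have h4 : 1 - δ / 2 ≤ (1 - (j : ℝ) / J) ^ 2 := by nlinarith [sq_nonneg ((j : ℝ) / J)]
      have h5 : ‖(2 : ℂ)‖ ^ 2 * ‖(1 : ℂ) - -1‖ ^ 2 = 16 := by norm_num
      rw [h5]
      calc 4 / Real.pi ^ 2 * (1 - δ / 2) * (1 / (j : ℝ) ^ 2)
          ≤ 4 / Real.pi ^ 2 * (1 - (j : ℝ) / J) ^ 2 * (1 / (j : ℝ) ^ 2) := by gcongr
        _ = _ := by field_simp; ring
    have h2 := Finset.sum_le_sum h1
    rw [← Finset.mul_sum] at h2
    have h3 := Finset.sum_le_sum_of_subset_of_nonneg (Finset.range_mono hKJ)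
      (f := fun j => ‖2 * (1 - (-1) ^ j) * b J j‖ ^ 2) (fun _ _ _ => by positivity)
    have h4 := odd_sum K
    have h5 : 4 / Real.pi ^ 2 * (1 - δ / 2) * (Real.pi ^ 2 / 8 - Real.pi ^ 2 * δ / 16) ≤
        4 / Real.pi ^ 2 * (1 - δ / 2) *
          ∑ j ∈ range (2 * K), (if Even j then 0 else (1 : ℝ) / (j : ℝ) ^ 2) :=
      mul_le_mul_of_nonneg_left (by linarith) (mul_nonneg (by positivity) (by linarith))
    have h6 : 4 / Real.pi ^ 2 * (1 - δ / 2) * (Real.pi ^ 2 / 8 - Real.pi ^ 2 * δ / 16) =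
        (1 - δ / 2) ^ 2 / 2 := by field_simp; ring
    nlinarith [sq_nonneg δ]

end Vale.Agent.P110
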