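import Vale.Agent.P110.Basic
import Vale.Agent.P110.Square

/-! A bounded trigonometric polynomial on the two-torus with non-proportional frequencies. -/

namespace Vale.Agent.P110
open Finset MeasureTheory

namespace Trig

/-- Fourier coefficients of the second order approximation of `exp (i x cos θ)`. -/
noncomputable def gh (x : ℝ) : Fin 5 → ℂ :=
  ![((-x ^ 2 / 8 : ℝ) : ℂ), Complex.I * ((x / 2 : ℝ) : ℂ), ((1 - x ^ 2 / 4 : ℝ) : ℂ),
    Complex.I * ((x / 2 : ℝ) : ℂ), ((-x ^ 2 / 8 : ℝ) : ℂ)]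

/-- The digit attached to an index. -/
def dg (r : Fin 5) : ℤ := (r : ℕ) - 2

lemma gh_ne (x : ℝ) (h0 : 0 < x) (h1 : x ≤ 1) (r : Fin 5) : gh x r ≠ 0 := by
  have h2 : (-x ^ 2 / 8 : ℝ) ≠ 0 := by
    have : 0 < x ^ 2 := by positivity
    linarith
  have h3 : (x / 2 : ℝ) ≠ 0 := by positivity
  have h4 : (1 - x ^ 2 / 4 : ℝ) ≠ 0 := by nlinarith
  have h5 := Complex.ofReal_ne_zero.2 h2
  have h6 := mul_ne_zero Complex.I_ne_zero (Complex.ofReal_ne_zero.2 h3)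
  have h7 := Complex.ofReal_ne_zero.2 h4
  fin_cases r
  exacts [h5, h6, h7, h6, h5]

lemma gh_sq (x : ℝ) : 1 ≤ ∑ r, ‖gh x r‖ ^ 2 := by
  simp only [gh, Fin.sum_univ_succ, Fin.sum_univ_zero, Matrix.cons_val_zero, Matrix.cons_val_succ,
    norm_mul, Complex.norm_I, Complex.norm_real, Real.norm_eq_abs, one_mul, sq_abs]
  nlinarith [sq_nonneg (x ^ 2)]

lemma gh_two (x : ℝ) : gh x 2 = ((1 - x ^ 2 / 4 : ℝ) : ℂ) := rfl

lemma gh_sum (x θ : ℝ) : ∑ r, gh x r * e (dg r * θ) =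
    1 + (x * Real.cos (2 * Real.pi * θ) : ℝ) * Complex.I +
      ((x * Real.cos (2 * Real.pi * θ) : ℝ) * Complex.I) ^ 2 / 2 := by
  have hE : e θ * e (-θ) = 1 := e_mul_e_neg θ
  have hc : ((Real.cos (2 * Real.pi * θ) : ℝ) : ℂ) = (e θ + e (-θ)) / 2 := by
    rw [← conj_e, Complex.add_conj, e_re]; push_cast; ring
  have e0 : e ((dg 0 : ℤ) * θ) = e (-θ) * e (-θ) := by
    rw [← e_add]; congr 1; simp [dg]; ring
  have e1 : e ((dg 1 : ℤ) * θ) = e (-θ) := by congr 1; simp [dg]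
  have e2 : e ((dg 2 : ℤ) * θ) = 1 := by simp [dg]
  have e3 : e ((dg 3 : ℤ) * θ) = e θ := by congr 1; simp [dg]
  have e4 : e ((dg 4 : ℤ) * θ) = e θ * e θ := by
    rw [← e_add]; congr 1; simp [dg]; ring
  rw [Fin.sum_univ_five, e0, e1, e2, e3, e4, Complex.ofReal_mul, hc]
  simp only [gh, Matrix.cons_val_zero, Matrix.cons_val_one, Matrix.cons_val]
  push_cast
  have hI := Complex.I_mul_I
  linear_combination (-(x : ℂ) ^ 2 * (e θ + e (-θ)) ^ 2 / 8) * hI + ((x : ℂ) ^ 2 / 4) * hE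

lemma gh_approx (x θ : ℝ) (h0 : 0 ≤ x) (h1 : x ≤ 1) :
    ‖∑ r, gh x r * e (dg r * θ) - e (x * Real.cos (2 * Real.pi * θ) / (2 * Real.pi))‖ ≤ x ^ 3 := by
  set u := x * Real.cos (2 * Real.pi * θ) with hu
  have hu1 : |u| ≤ x := by
    rw [hu, abs_mul, abs_of_nonneg h0]
    exact mul_le_of_le_one_right h0 (Real.abs_cos_le_one _)
  have h2 : e (u / (2 * Real.pi)) = Complex.exp (u * Complex.I) := by
    unfold e
    congr 3
    have := Real.pi_pos
    field_simp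
  have h3 : ‖(u : ℂ) * Complex.I‖ = |u| := by simp
  have h4 := Complex.exp_bound (x := u * Complex.I) (by rw [h3]; linarith) (n := 3) (by norm_num)
  rw [gh_sum, h2, norm_sub_rev]
  simp only [Finset.sum_range_succ, Finset.sum_range_zero, h3] at h4
  norm_num [Nat.factorial] at h4
  refine h4.trans ?_
  have h5 : |u| ^ 3 ≤ x ^ 3 := pow_le_pow_left₀ (abs_nonneg _) hu1 3
  have h6 : 0 ≤ |u| ^ 3 := by positivity
  linarith

lemma prod_approx {ι : Type} (s : Finset ι) (a : ι → ℂ) (t : ι → ℝ) (η : ℝ) (hη : 0 ≤ η)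
    (h : ∀ i, ‖a i - e (t i)‖ ≤ η) :
    ‖∏ i ∈ s, a i - e (∑ i ∈ s, t i)‖ ≤ (1 + η) ^ s.card - 1 := by
  classical
  induction s using Finset.induction_on with
  | empty => simp
  | insert i s hi ih =>
    rw [Finset.prod_insert hi, Finset.sum_insert hi, Finset.card_insert_of_notMem hi, e_add]
    set P := ∏ i ∈ s, a i
    set Q := e (∑ i ∈ s, t i)
    have hQ : ‖Q‖ = 1 := norm_e _
    have h1 : a i * P - e (t i) * Q =
        (a i - e (t i)) * (P - Q) + (a i - e (t i)) * Q + e (t i) * (P - Q) := by ring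
    rw [h1]
    refine (norm_add₃_le).trans ?_
    simp only [norm_mul, hQ, norm_e, mul_one, one_mul]
    have h2 := mul_le_mul (h i) ih (norm_nonneg _) hη
    have h3 := h i
    rw [pow_succ]
    nlinarith

lemma digits_zero (B : ℤ) : ∀ (d : ℕ) (a : Fin d → ℤ), (∀ i, |a i| < B) →
    ∑ i, a i * B ^ (i : ℕ) = 0 → ∀ i, a i = 0 := by
  intro d
  induction d with
  | zero => intro a _ _ i; exact i.elim0
  | succ d ih =>
    intro a ha h
    have hB : 0 < B := (abs_nonneg _).trans_lt (ha 0)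
    rw [Fin.sum_univ_succ] at h
    simp only [Fin.val_zero, pow_zero, mul_one, Fin.val_succ, pow_succ, ← mul_assoc,
      ← Finset.sum_mul] at h
    have h0 : a 0 = 0 := Int.eq_zero_of_abs_lt_dvd
      ⟨-∑ i : Fin d, a i.succ * B ^ (i : ℕ), by linarith⟩ (ha 0)
    rw [h0, zero_add] at h
    have h1 := ih (fun i => a i.succ) (fun i => ha _) ((mul_eq_zero.1 h).resolve_right hB.ne')
    intro i
    exact Fin.cases h0 h1 i

lemma params (J : ℕ) (ε : ℝ) (hε : 0 < ε) : ∃ (γ : ℝ) (d : ℕ), 0 < γ ∧ J * γ ≤ 1 ∧ γ ≤ 1 ∧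
    (1 + (J * γ) ^ 3) ^ d - 1 ≤ ε ∧ (1 - γ ^ 2 / 4) ^ d ≤ ε := by
  obtain ⟨K, hK⟩ := exists_nat_gt (4 / ε)
  obtain ⟨n, hn⟩ := exists_nat_gt (1 + J + K * J ^ 3 + 2 * K * J ^ 3 / ε : ℝ)
  have h1 : (0 : ℝ) ≤ K * J ^ 3 := by positivity
  have h2 : (0 : ℝ) ≤ 2 * K * J ^ 3 / ε := by positivity
  have h3 : (0 : ℝ) ≤ J := by positivity
  have hn0 : (0 : ℝ) < n := by linarith
  refine ⟨1 / n, K * n ^ 2, by positivity, ?_, ?_, ?_, ?_⟩
  · rw [mul_one_div, div_le_one hn0]; linarith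
  · rw [div_le_one hn0]; linarith
  · have h4 : (1 + ((J : ℝ) * (1 / n)) ^ 3) ^ (K * n ^ 2) ≤ Real.exp (K * J ^ 3 / n) := by
      have h5 : (K : ℝ) * J ^ 3 / n = ((K * n ^ 2 : ℕ) : ℝ) * ((J : ℝ) * (1 / n)) ^ 3 := by
        push_cast; field_simp
      rw [h5, Real.exp_nat_mul]
      refine pow_le_pow_left₀ (by positivity) ?_ _
      rw [add_comm]; exact Real.add_one_le_exp _
    have h6 : (0 : ℝ) ≤ K * J ^ 3 / n := by positivity
    have h7 := Real.abs_exp_sub_one_le (x := K * J ^ 3 / n) (by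
      rw [abs_of_nonneg h6, div_le_one hn0]; linarith)
    rw [abs_of_nonneg h6] at h7
    have h8 : 2 * ((K : ℝ) * J ^ 3 / n) ≤ ε := by
      rw [← mul_div_assoc, div_le_iff₀ hn0]
      have : 2 * (K : ℝ) * J ^ 3 / ε * ε = 2 * K * J ^ 3 := by field_simp
      nlinarith
    linarith [le_abs_self (Real.exp (K * J ^ 3 / n) - 1)]
  · have h4 : (1 - (1 / (n : ℝ)) ^ 2 / 4) ^ (K * n ^ 2) ≤ Real.exp (-(K / 4)) := by
      have h5 : -((K : ℝ) / 4) = ((K * n ^ 2 : ℕ) : ℝ) * (-((1 / (n : ℝ)) ^ 2 / 4)) := by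
        push_cast; field_simp
      rw [h5, Real.exp_nat_mul]
      have h6 : (1 / (n : ℝ)) ^ 2 ≤ 1 := by
        refine pow_le_one₀ (by positivity) ?_
        rw [div_le_one hn0]; linarith
      refine pow_le_pow_left₀ (by linarith) ?_ _
      exact Real.one_sub_le_exp_neg _
    refine h4.trans ?_
    have h7 := Real.add_one_le_exp ((K : ℝ) / 4)
    rw [Real.exp_neg, inv_le_comm₀ (Real.exp_pos _) hε]
    have : ε⁻¹ = 4 / ε / 4 := by field_simp
    linarith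

lemma sum_sub {J d : ℕ} {M : Type} [AddCommGroup M] (c : ℕ → ℂ)
    (F : Fin J → (Fin d → Fin 5) → M) (hF : ∀ (j : Fin J) m, c j = 0 → F j m = 0)
    [Fintype {p : Fin J × (Fin d → Fin 5) // c p.1 ≠ 0 ∧ p.2 ≠ fun _ => 2}] :
    ∑ s : {p : Fin J × (Fin d → Fin 5) // c p.1 ≠ 0 ∧ p.2 ≠ fun _ => 2}, F s.1.1 s.1.2 =
      ∑ j, (∑ m, F j m - F j fun _ => 2) := by
  classical
  rw [← Finset.sum_subtype (Finset.univ.filter fun p : Fin J × (Fin d → Fin 5) =>
    c p.1 ≠ 0 ∧ p.2 ≠ fun _ => 2) (by simp) (fun p => F p.1 p.2), Finset.sum_filter,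
    Fintype.sum_prod_type]
  refine Finset.sum_congr rfl fun j _ => ?_
  rw [← Finset.sum_erase_eq_sub (Finset.mem_univ _), ← Finset.filter_ne', Finset.sum_filter]
  refine Finset.sum_congr rfl fun m _ => ?_
  by_cases h : c j = 0
  · simp [hF j m h]
  · simp [h]

end Trig

open Trig in
theorem exists_trig (δ : ℝ) (hδ : 0 < δ) : ∃ (S : Type) (_ : Fintype S) (_ : DecidableEq S)
    (j : S → ℕ) (μ : S → ℤ) (c : S → ℂ), (∀ m, 0 < j m) ∧ (∀ m, c m ≠ 0) ∧
    (∀ m n, m ≠ n → (j m : ℤ) * μ n ≠ (j n : ℤ) * μ m) ∧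
    (∀ x y : ℝ, |2 * (∑ m, c m * e (j m * x + μ m * y)).re| ≤ 1 + δ) ∧
    1 - δ ≤ 2 * ∑ m, ‖c m‖ ^ 2 := by
  classical
  obtain ⟨J, c, hev, hsup, hL⟩ := exists_square (δ / 2) (by positivity)
  set C := ∑ j ∈ range J, ‖c j‖ with hC
  set L := ∑ j ∈ range J, ‖c j‖ ^ 2 with hL'
  have hC0 : 0 ≤ C := Finset.sum_nonneg fun _ _ => norm_nonneg _
  have hL0 : 0 ≤ L := Finset.sum_nonneg fun _ _ => by positivity
  obtain ⟨ε, hε, hε1, hεC, hεL⟩ : ∃ ε : ℝ, 0 < ε ∧ ε ≤ 1 ∧ 4 * C * ε ≤ δ ∧ 4 * L * ε ≤ δ := by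
    refine ⟨δ / (4 * C + 4 * L + δ), by positivity, ?_, ?_, ?_⟩
    · rw [div_le_one (by positivity)]; linarith
    · rw [← mul_div_assoc, div_le_iff₀ (by positivity)]; nlinarith
    · rw [← mul_div_assoc, div_le_iff₀ (by positivity)]; nlinarith
  obtain ⟨γ, d, hγ, hJγ, hγ1, hA, hB⟩ := params J ε hε
  have hodd : ∀ j : ℕ, c j ≠ 0 → Odd j := fun j h =>
    Nat.not_even_iff_odd.1 fun h' => h (hev j h')
  have hx1 : ∀ j : Fin J, ((j : ℕ) : ℝ) * γ ≤ J * γ := fun j =>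
    mul_le_mul_of_nonneg_right (by exact_mod_cast j.isLt.le) hγ.le
  have hzero : ∀ j : Fin J, c j ≠ 0 → ‖∏ _i : Fin d, gh (((j : ℕ) : ℝ) * γ) 2‖ ≤ ε := by
    intro j hj
    have h1 : (1 : ℝ) ≤ (j : ℕ) := by exact_mod_cast (hodd j hj).pos
    have h2 : γ ≤ ((j : ℕ) : ℝ) * γ := by nlinarith
    have h3 := (hx1 j).trans hJγ
    rw [Finset.prod_const, Finset.card_univ, Fintype.card_fin, norm_pow, gh_two,
      Complex.norm_real, Real.norm_eq_abs, abs_of_nonneg (by nlinarith)]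
    exact (pow_le_pow_left₀ (by nlinarith) (by nlinarith) d).trans hB
  let B : ℤ := 4 * J + 1
  refine ⟨{p : Fin J × (Fin d → Fin 5) // c p.1 ≠ 0 ∧ p.2 ≠ fun _ => 2}, inferInstance,
    inferInstance, fun s => s.1.1, fun s => ∑ i, dg (s.1.2 i) * B ^ (i : ℕ),
    fun s => c s.1.1 * ∏ i, gh (((s.1.1 : ℕ) : ℝ) * γ) (s.1.2 i),
    fun s => (hodd _ s.2.1).pos, fun s => ?_, ?_, fun x y => ?_, ?_⟩
  · refine mul_ne_zero s.2.1 (Finset.prod_ne_zero_iff.2 fun i _ => gh_ne _ ?_ ?_ _)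
    · have : (0 : ℝ) < (s.1.1 : ℕ) := by exact_mod_cast (hodd _ s.2.1).pos
      positivity
    · exact (hx1 _).trans hJγ
  · rintro ⟨⟨j, m⟩, hj, hm⟩ ⟨⟨j', m'⟩, hj', hm'⟩ hne heq
    apply hne
    simp only at heq hj hm hj' hm'
    have hdg : ∀ r, -2 ≤ dg r ∧ dg r ≤ 2 := by decide
    have h1 := digits_zero B d (fun i => (j : ℕ) * dg (m' i) - (j' : ℕ) * dg (m i)) (fun i => by
      have h2 : ((j : ℕ) : ℤ) < J := by exact_mod_cast j.isLt
      have h3 : ((j' : ℕ) : ℤ) < J := by exact_mod_cast j'.isLt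
      have h4 : (0 : ℤ) ≤ (j : ℕ) := by positivity
      have h5 : (0 : ℤ) ≤ (j' : ℕ) := by positivity
      have h6 := hdg (m i)
      have h7 := hdg (m' i)
      rw [abs_lt]
      simp only [B]
      constructor <;> nlinarith) (by
      simp only [sub_mul, Finset.sum_sub_distrib, mul_assoc, ← Finset.mul_sum]
      rw [heq, sub_self])
    obtain ⟨i, hi⟩ := Function.ne_iff.1 hm
    obtain ⟨a, ha⟩ := hodd _ hj
    obtain ⟨a', ha'⟩ := hodd _ hj'
    have hjj : (j : ℕ) = j' := by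
      have h2 := h1 i
      simp only [ha, ha'] at h2 ⊢
      generalize m i = r at h2 hi
      generalize m' i = r' at h2
      fin_cases r <;> fin_cases r' <;> simp [dg] at h2 hi ⊢ <;> omega
    have hjj' : j = j' := Fin.ext hjj
    subst hjj'
    have hmm : m = m' := by
      funext k
      have h2 := h1 k
      have h3 : ((j : ℕ) : ℤ) ≠ 0 := by omega
      simp only [← mul_sub] at h2
      have h4 := (mul_eq_zero.1 h2).resolve_left h3
      simp only [dg] at h4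
      exact Fin.ext (by omega)
    subst hmm
    rfl
  · let X : ℝ := ∑ i : Fin d, γ * Real.cos (2 * Real.pi * ((B : ℝ) ^ (i : ℕ) * y)) / (2 * Real.pi)
    let G : Fin J → ℂ := fun j =>
      ∏ i : Fin d, ∑ r, gh (((j : ℕ) : ℝ) * γ) r * e (dg r * ((B : ℝ) ^ (i : ℕ) * y))
    have hG : ∀ j : Fin J, ‖G j - e ((j : ℕ) * X)‖ ≤ ε := by
      intro j
      have h1 := prod_approx (Finset.univ : Finset (Fin d))
        (fun i => ∑ r, gh (((j : ℕ) : ℝ) * γ) r * e (dg r * ((B : ℝ) ^ (i : ℕ) * y)))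
        (fun i => ((j : ℕ) : ℝ) * γ * Real.cos (2 * Real.pi * ((B : ℝ) ^ (i : ℕ) * y)) /
          (2 * Real.pi)) ((J * γ) ^ 3) (by positivity) (fun i =>
          (gh_approx _ _ (by positivity) ((hx1 j).trans hJγ)).trans
            (pow_le_pow_left₀ (by positivity) (hx1 j) 3))
      rw [Finset.card_univ, Fintype.card_fin] at h1
      have h2 : ((j : ℕ) : ℝ) * X = ∑ i : Fin d, ((j : ℕ) : ℝ) * γ *
          Real.cos (2 * Real.pi * ((B : ℝ) ^ (i : ℕ) * y)) / (2 * Real.pi) := by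
        simp only [X, Finset.mul_sum]
        exact Finset.sum_congr rfl fun i _ => by ring
      rw [h2]
      exact h1.trans hA
    have he : ∀ (m : Fin d → Fin 5), e (((∑ i, dg (m i) * B ^ (i : ℕ) : ℤ) : ℝ) * y) =
        ∏ i, e (dg (m i) * ((B : ℝ) ^ (i : ℕ) * y)) := by
      intro m
      have h1 := prod_approx (Finset.univ : Finset (Fin d))
        (fun i => e (dg (m i) * ((B : ℝ) ^ (i : ℕ) * y)))
        (fun i => dg (m i) * ((B : ℝ) ^ (i : ℕ) * y)) 0 le_rfl (fun i => by simp)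
      simp only [add_zero, one_pow, sub_self, norm_le_zero_iff, sub_eq_zero] at h1
      rw [h1]
      congr 1
      push_cast
      rw [Finset.sum_mul]
      exact Finset.sum_congr rfl fun i _ => by ring
    rw [sum_sub c (fun j m => c j * (∏ i, gh (((j : ℕ) : ℝ) * γ) (m i)) *
      e ((j : ℕ) * x + ((∑ i, dg (m i) * B ^ (i : ℕ) : ℤ) : ℝ) * y)) (fun j m h => by simp [h])]
    have h1 : ∀ j : Fin J, (∑ m : Fin d → Fin 5, c j * (∏ i, gh (((j : ℕ) : ℝ) * γ) (m i)) *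
        e ((j : ℕ) * x + ((∑ i, dg (m i) * B ^ (i : ℕ) : ℤ) : ℝ) * y)) =
        c j * e ((j : ℕ) * x) * G j := by
      intro j
      simp only [G]
      rw [Fintype.prod_sum, Finset.mul_sum]
      refine Finset.sum_congr rfl fun m _ => ?_
      rw [e_add, he, Finset.prod_mul_distrib]
      ring
    simp only [h1]
    have h2 := hsup (x + X)
    rw [Finset.sum_range] at h2
    set T := ∑ j : Fin J, (c j * e ((j : ℕ) * x) * G j - c j *
      (∏ _i : Fin d, gh (((j : ℕ) : ℝ) * γ) 2) *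
        e ((j : ℕ) * x + ((∑ i : Fin d, dg 2 * B ^ (i : ℕ) : ℤ) : ℝ) * y)) with hT
    set T0 := ∑ j : Fin J, c j * e ((j : ℕ) * (x + X)) with hT0
    have h3 : ‖T - T0‖ ≤ 2 * C * ε := by
      rw [hT, hT0, ← Finset.sum_sub_distrib, hC, Finset.sum_range, Finset.mul_sum, Finset.sum_mul]
      refine (norm_sum_le _ _).trans (Finset.sum_le_sum fun j _ => ?_)
      by_cases hj : c j = 0
      · simp [hj]
      rw [mul_add, e_add _ ((j : ℕ) * X)]
      set E := e ((j : ℕ) * x + ((∑ i : Fin d, dg 2 * B ^ (i : ℕ) : ℤ) : ℝ) * y) with hE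
      set P := ∏ _i : Fin d, gh (((j : ℕ) : ℝ) * γ) 2 with hP
      have h4 : c j * e ((j : ℕ) * x) * G j - c j * P * E -
          c j * (e ((j : ℕ) * x) * e ((j : ℕ) * X)) =
          c j * (e ((j : ℕ) * x) * (G j - e ((j : ℕ) * X)) - P * E) := by ring
      rw [h4, norm_mul]
      have h5 : ‖e ((j : ℕ) * x) * (G j - e ((j : ℕ) * X)) - P * E‖ ≤ ε + ε := by
        refine (norm_sub_le _ _).trans (add_le_add ?_ ?_)
        · rw [norm_mul, norm_e, one_mul]; exact hG j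
        · rw [norm_mul, hE, norm_e, mul_one]; exact hzero j hj
      nlinarith [norm_nonneg (c j)]
    have h4 := (Complex.abs_re_le_norm (T - T0)).trans h3
    rw [Complex.sub_re, abs_le] at h4
    rw [abs_le] at h2 ⊢
    constructor <;> linarith
  · rw [sum_sub c (fun j m => ‖c j * (∏ i, gh (((j : ℕ) : ℝ) * γ) (m i))‖ ^ 2)
      (fun j m h => by simp [h])]
    have h1 : ∑ j : Fin J, ‖c j‖ ^ 2 * (1 - ε) ≤ ∑ j : Fin J,
        ((∑ m : Fin d → Fin 5, ‖c j * (∏ i, gh (((j : ℕ) : ℝ) * γ) (m i))‖ ^ 2) -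
          ‖c j * (∏ _i : Fin d, gh (((j : ℕ) : ℝ) * γ) 2)‖ ^ 2) := by
      refine Finset.sum_le_sum fun j _ => ?_
      by_cases hj : c j = 0
      · simp [hj]
      have h2 : (∑ m : Fin d → Fin 5, ‖c j * (∏ i, gh (((j : ℕ) : ℝ) * γ) (m i))‖ ^ 2) =
          ‖c j‖ ^ 2 * ∏ _i : Fin d, ∑ r, ‖gh (((j : ℕ) : ℝ) * γ) r‖ ^ 2 := by
        rw [Fintype.prod_sum, Finset.mul_sum]
        refine Finset.sum_congr rfl fun m _ => ?_
        rw [norm_mul, mul_pow, norm_prod, Finset.prod_pow]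
      have h3 : 1 ≤ ∏ _i : Fin d, ∑ r, ‖gh (((j : ℕ) : ℝ) * γ) r‖ ^ 2 := by
        rw [Finset.prod_const]
        exact one_le_pow₀ (gh_sq _)
      have h4 := hzero j hj
      have h5 : ‖∏ _i : Fin d, gh (((j : ℕ) : ℝ) * γ) 2‖ ^ 2 ≤ ε := by
        nlinarith [norm_nonneg (∏ _i : Fin d, gh (((j : ℕ) : ℝ) * γ) 2)]
      rw [h2, norm_mul, mul_pow, ← mul_sub]
      exact mul_le_mul_of_nonneg_left (by linarith) (by positivity)
    rw [← Finset.sum_mul, ← Finset.sum_range (fun j => ‖c j‖ ^ 2), ← hL'] at h1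
    nlinarith

end Vale.Agent.P110
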