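import Mathlib

/-! Counting lemmas in `ZMod R` for the random types. -/

namespace Vale.Agent.P110.Types
open Finset

section
variable {R : ℕ} [NeZero R]

lemma card_abs_mem (T : Finset ℕ) :
    (univ.filter (fun y : ZMod R => y.valMinAbs.natAbs ∈ T)).card ≤ 2 * T.card := by
  refine card_le_mul_card_image_of_maps_to (f := fun y : ZMod R => y.valMinAbs.natAbs)
    (fun y hy => (mem_filter.mp hy).2) 2 ?_
  intro u _
  have : (filter (fun y : ZMod R => y.valMinAbs.natAbs = u)
      (univ.filter (fun y : ZMod R => y.valMinAbs.natAbs ∈ T))) ⊆ {((u : ℤ) : ZMod R),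
        ((-(u : ℤ) : ℤ) : ZMod R)} := by
    intro y hy
    have h := (mem_filter.mp hy).2
    rw [mem_insert, mem_singleton]
    rcases Int.natAbs_eq_iff.mp h with h1 | h1
    · left; rw [← h1, ZMod.coe_valMinAbs]
    · right; rw [← h1, ZMod.coe_valMinAbs]
  exact (card_le_card this).trans card_le_two

lemma natAbs_le (y : ZMod R) : y.valMinAbs.natAbs ≤ R / 2 := ZMod.natAbs_valMinAbs_le y

/-- the label of the run containing `y` -/
def lab (W : ℕ) (y : ZMod R) : Fin (R + 1) :=
  ⟨y.valMinAbs.natAbs / W, by
    have := natAbs_le y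
    have := Nat.div_le_self y.valMinAbs.natAbs W
    omega⟩

lemma card_lab (W : ℕ) (hW : 0 < W) (i : Fin (R + 1)) :
    (univ.filter (fun y : ZMod R => lab W y = i)).card ≤ 2 * W := by
  have h := card_abs_mem (R := R) (Ico (i * W) (i * W + W))
  rw [Nat.card_Ico, Nat.add_sub_cancel_left] at h
  refine (card_le_card ?_).trans h
  intro y hy
  have h1 : y.valMinAbs.natAbs / W = i := congrArg Fin.val (mem_filter.mp hy).2
  refine mem_filter.mpr ⟨mem_univ _, mem_Ico.mpr ?_⟩
  rw [← h1]
  exact ⟨Nat.div_mul_le_self _ _, Nat.lt_div_mul_add hW⟩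

/-- good residues: far from `R / 2` and from the ends of the runs -/
def Good (W J : ℕ) (y : ZMod R) : Prop :=
  2 * (y.valMinAbs.natAbs + J) < R ∧ J ≤ y.valMinAbs.natAbs % W ∧ y.valMinAbs.natAbs % W + J < W

instance (W J : ℕ) : DecidablePred (Good (R := R) W J) := fun y => by
  unfold Good; infer_instance

lemma card_bad (W J : ℕ) (hW : 0 < W) :
    (univ.filter (fun y : ZMod R => ¬ Good W J y)).card
      ≤ 2 * ((J + 1) + (R / W + 1) * (2 * J)) := by
  set T₁ : Finset ℕ := Icc (R / 2 - J) (R / 2) with hT₁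
  set T₂ : Finset ℕ := (range (R / W + 1) ×ˢ (range J ∪ Ico (W - J) W)).image
    (fun q => q.1 * W + q.2) with hT₂
  have h := card_abs_mem (R := R) (T₁ ∪ T₂)
  have c1 : T₁.card ≤ J + 1 := by rw [hT₁, Nat.card_Icc]; omega
  have c2 : T₂.card ≤ (R / W + 1) * (2 * J) := by
    refine card_image_le.trans ?_
    rw [card_product, card_range]
    refine Nat.mul_le_mul_left _ ((card_union_le _ _).trans ?_)
    rw [card_range, Nat.card_Ico]; omega
  have c3 := card_union_le T₁ T₂
  refine le_trans (card_le_card ?_) (h.trans (by omega))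
  intro y hy
  have hb := (mem_filter.mp hy).2
  refine mem_filter.mpr ⟨mem_univ _, ?_⟩
  have hle := natAbs_le y
  set u := y.valMinAbs.natAbs with hu
  rw [mem_union]
  by_cases h1 : 2 * (u + J) < R
  · right
    refine mem_image.mpr ⟨(u / W, u % W), ?_, Nat.div_add_mod' u W⟩
    have hm := Nat.mod_lt u hW
    refine mem_product.mpr ⟨mem_range.mpr ?_, ?_⟩
    · have : u / W ≤ R / W := Nat.div_le_div_right (by omega)
      simp only; omega
    · simp only [mem_union, mem_range, mem_Ico]
      unfold Good at hb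
      rw [← hu] at hb
      omega
  · left
    rw [hT₁, mem_Icc]; omega

lemma lab_neg (W : ℕ) (y : ZMod R) : lab W (-y) = lab W y := by
  apply Fin.ext
  simp only [lab, ZMod.natAbs_valMinAbs_neg]

lemma lab_add (W J : ℕ) (y : ZMod R) (hy : Good W J y) (a : ℤ) (ha : |a| ≤ J) :
    lab W (y + (a : ZMod R)) = lab W y := by
  obtain ⟨h1, h2, h3⟩ := hy
  have ha' := abs_le.mp ha
  have hv : (y + (a : ZMod R)).valMinAbs = y.valMinAbs + a := by
    rw [ZMod.valMinAbs_spec]
    refine ⟨by push_cast; rfl, ?_⟩
    constructor <;> omega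
  apply Fin.ext
  simp only [lab, hv]
  set u := y.valMinAbs.natAbs with hu
  have hW : 0 < W := by omega
  have h4 := Nat.div_add_mod' u W
  apply Nat.div_eq_of_lt_le
  · omega
  · rw [add_mul, one_mul]; omega

variable {S : Type}

/-- the linear form attached to `m` -/
def form (j μ : S → ℤ) (w : ZMod R × ZMod R) (m : S) : ZMod R := j m * w.1 + μ m * w.2

omit [NeZero R] in
lemma unit_of_coprime {a : ℤ} (h : IsCoprime a (R : ℤ)) : IsUnit (a : ZMod R) := by
  obtain ⟨u, v, huv⟩ := h
  have : (u : ZMod R) * a = 1 := by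
    have := congrArg (Int.cast : ℤ → ZMod R) huv
    simpa using this
  exact IsUnit.of_mul_eq_one_right _ this

omit [NeZero R] in
lemma form_inj (j μ : S → ℤ) (m n : S) (h : IsCoprime (j m * μ n - j n * μ m) (R : ℤ))
    (w w' : ZMod R × ZMod R) (h1 : form j μ w m = form j μ w' m)
    (h2 : form j μ w n = form j μ w' n) : w = w' := by
  have hu := unit_of_coprime h
  unfold form at h1 h2
  refine Prod.ext (hu.mul_left_cancel ?_) (hu.mul_left_cancel ?_)
  · push_cast
    linear_combination (μ n : ZMod R) * h1 - (μ m : ZMod R) * h2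
  · push_cast
    linear_combination (j m : ZMod R) * h2 - (j n : ZMod R) * h1

lemma card_fiber (j μ : S → ℤ) (m : S) (h : IsCoprime (j m) (R : ℤ)) (y : ZMod R) :
    (univ.filter (fun w : ZMod R × ZMod R => form j μ w m = y)).card ≤ R := by
  have hu := unit_of_coprime h
  refine le_trans (card_le_card_of_injOn (t := univ) (fun w => w.2) (by simp) ?_)
    (by rw [card_univ, ZMod.card])
  intro w hw w' hw' h2
  have e1 := (mem_filter.mp hw).2
  have e2 := (mem_filter.mp hw').2
  unfold form at e1 e2
  simp only at h2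
  refine Prod.ext (hu.mul_left_cancel ?_) h2
  linear_combination e1 - e2 - (μ m : ZMod R) * h2

lemma card_preimage (j μ : S → ℤ) (m : S) (h : IsCoprime (j m) (R : ℤ)) (B : Finset (ZMod R)) :
    (univ.filter (fun w : ZMod R × ZMod R => form j μ w m ∈ B)).card ≤ R * B.card := by
  refine card_le_mul_card_image_of_maps_to (f := fun w => form j μ w m)
    (fun w hw => (mem_filter.mp hw).2) R ?_
  intro y _
  exact (card_le_card (filter_subset_filter _ (filter_subset _ _))).trans (card_fiber j μ m h y)

lemma card_line_lab (W : ℕ) (hW : 0 < W) (j μ : S → ℤ) (m n : S)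
    (h : IsCoprime (j m * μ n - j n * μ m) (R : ℤ)) (y : ZMod R) (i : Fin (R + 1)) :
    (univ.filter (fun w : ZMod R × ZMod R => form j μ w m = y ∧ lab W (form j μ w n) = i)).card
      ≤ 2 * W := by
  refine le_trans (card_le_card_of_injOn (fun w => form j μ w n) ?_ ?_) (card_lab (R := R) W hW i)
  · intro w hw
    have := (mem_filter.mp hw).2
    simpa using this.2
  · intro w hw w' hw' h2
    exact form_inj j μ m n h w w' ((mem_filter.mp hw).2.1.trans (mem_filter.mp hw').2.1.symm) h2

lemma card_coincide (W : ℕ) (hW : 0 < W) (j μ : S → ℤ) (m n : S)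
    (h : IsCoprime (j m * μ n - j n * μ m) (R : ℤ)) :
    (univ.filter (fun w : ZMod R × ZMod R => lab W (form j μ w m) = lab W (form j μ w n))).card
      ≤ 2 * W * R := by
  have := card_le_mul_card_image_of_maps_to (f := fun w => form j μ w m)
    (s := univ.filter (fun w : ZMod R × ZMod R => lab W (form j μ w m) = lab W (form j μ w n)))
    (t := univ) (fun w _ => mem_univ _) (2 * W) (by
      intro y _
      refine le_trans (card_le_card ?_) (card_line_lab W hW j μ m n h y (lab W y))
      intro w hw
      have h1 := mem_filter.mp hw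
      have h2 := (mem_filter.mp h1.1).2
      refine mem_filter.mpr ⟨mem_univ _, h1.2, ?_⟩
      rw [← h2, h1.2])
  rwa [card_univ, ZMod.card] at this

variable [Fintype S] [DecidableEq S]

/-- the generic points -/
def gen (W J : ℕ) (j μ : S → ℤ) : Finset (ZMod R × ZMod R) :=
  univ.filter (fun w => (∀ m, Good W J (form j μ w m)) ∧
    ∀ m n, lab W (form j μ w m) = lab W (form j μ w n) → m = n)

lemma card_gen (W J : ℕ) (hW : 0 < W) (j μ : S → ℤ) (h1 : ∀ m, IsCoprime (j m) (R : ℤ))
    (h2 : ∀ m n, m ≠ n → IsCoprime (j m * μ n - j n * μ m) (R : ℤ)) :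
    R * R ≤ (gen (R := R) W J j μ).card
      + Fintype.card S * (R * (2 * ((J + 1) + (R / W + 1) * (2 * J))))
      + Fintype.card S * (Fintype.card S * (2 * W * R)) := by
  set B₁ : Finset (ZMod R × ZMod R) := univ.biUnion fun m => univ.filter
    (fun w => form j μ w m ∈ univ.filter (fun y : ZMod R => ¬ Good W J y)) with hB₁
  set B₂ : Finset (ZMod R × ZMod R) := univ.biUnion fun m => (univ.erase m).biUnion fun n =>
    univ.filter (fun w => lab W (form j μ w m) = lab W (form j μ w n)) with hB₂
  have c1 : B₁.card ≤ Fintype.card S * (R * (2 * ((J + 1) + (R / W + 1) * (2 * J)))) := by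
    refine card_biUnion_le_card_mul _ _ _ fun m _ => ?_
    exact (card_preimage j μ m (h1 m) _).trans (Nat.mul_le_mul_left _ (card_bad W J hW))
  have c2 : B₂.card ≤ Fintype.card S * (Fintype.card S * (2 * W * R)) := by
    refine card_biUnion_le_card_mul _ _ _ fun m _ => ?_
    refine (card_biUnion_le_card_mul _ _ (2 * W * R) fun n hn => ?_).trans
      (Nat.mul_le_mul_right _ (card_le_univ _))
    exact card_coincide W hW j μ m n (h2 m n (ne_of_mem_erase hn).symm)
  have c3 : (univ : Finset (ZMod R × ZMod R)) ⊆ gen W J j μ ∪ B₁ ∪ B₂ := by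
    intro w _
    by_contra hcon
    simp only [hB₁, hB₂, gen, mem_union, mem_filter, mem_univ, true_and, mem_biUnion,
      mem_erase, and_true, not_or, not_exists, not_not, not_and] at hcon
    refine hcon.1.1 hcon.1.2 fun m n hmn => ?_
    by_contra hne
    exact hcon.2 m n (Ne.symm hne) hmn
  have c4 := card_le_card c3
  rw [card_univ, Fintype.card_prod, ZMod.card] at c4
  have c5 := card_union_le (gen (R := R) W J j μ ∪ B₁) B₂
  have c6 := card_union_le (gen (R := R) W J j μ) B₁
  omega

lemma card_cross (W : ℕ) (hW : 0 < W) (j μ : S → ℤ)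
    (h2 : ∀ m n, m ≠ n → IsCoprime (j m * μ n - j n * μ m) (R : ℤ))
    (G : Finset (ZMod R × ZMod R)) (m : S) :
    ((G ×ˢ G).filter (fun q => form j μ q.1 m = form j μ q.2 m ∧ ∃ n n', n ≠ m ∧ n' ≠ m ∧
      lab W (form j μ q.1 n) = lab W (form j μ q.2 n'))).card
      ≤ Fintype.card S * (Fintype.card S * (2 * W)) * (R * R) := by
  have := card_le_mul_card_image_of_maps_to (f := fun q : (ZMod R × ZMod R) × (ZMod R × ZMod R) => q.1)
    (s := (G ×ˢ G).filter (fun q => form j μ q.1 m = form j μ q.2 m ∧ ∃ n n', n ≠ m ∧ n' ≠ m ∧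
      lab W (form j μ q.1 n) = lab W (form j μ q.2 n')))
    (t := univ) (fun w _ => mem_univ _) (Fintype.card S * (Fintype.card S * (2 * W))) (by
      intro w _
      set B : Finset (ZMod R × ZMod R) := univ.biUnion fun n => (univ.erase m).biUnion fun n' =>
        univ.filter (fun w' => form j μ w' m = form j μ w m ∧
          lab W (form j μ w' n') = lab W (form j μ w n)) with hB
      have c1 : B.card ≤ Fintype.card S * (Fintype.card S * (2 * W)) := by
        refine card_biUnion_le_card_mul _ _ _ fun n _ => ?_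
        refine (card_biUnion_le_card_mul _ _ (2 * W) fun n' hn' => ?_).trans
          (Nat.mul_le_mul_right _ (card_le_univ _))
        exact card_line_lab W hW j μ m n' (h2 m n' (ne_of_mem_erase hn').symm) _ _
      refine le_trans (card_le_card_of_injOn (fun q => q.2) ?_ ?_) c1
      · intro q hq
        have h3 := mem_filter.mp hq
        obtain ⟨h4, n, n', -, hn', h5⟩ := (mem_filter.mp h3.1).2
        have h6 : q.1 = w := h3.2
        simp only [hB, coe_biUnion, coe_univ, Set.mem_univ, Set.iUnion_true, coe_erase,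
          Set.mem_iUnion, coe_filter, mem_univ, true_and, Set.mem_ofPred_eq]
        refine ⟨n, n', by simpa using hn', ?_, ?_⟩
        · rw [← h6, h4]
        · rw [← h6, h5]
      · intro q hq q' hq' h
        exact Prod.ext ((mem_filter.mp hq).2.trans (mem_filter.mp hq').2.symm) h)
  rwa [card_univ, Fintype.card_prod, ZMod.card] at this

end

end Vale.Agent.P110.Types
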