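import Mathlib

/-! A second moment argument for a random assignment of types. -/

namespace Vale.Agent.P110.Types
open Finset

section
variable {ι S : Type} [Fintype ι] [DecidableEq ι] [Fintype S] [DecidableEq S]

/-- the weight of an assignment -/
noncomputable def wt (p : S → ℝ) (τ : ι → S) : ℝ := ∏ i, p (τ i)

lemma sum_wt_ind (p : S → ℝ) (hsum : ∑ m, p m = 1) {A : Type} [Fintype A] (r : A → ι)
    (hr : Function.Injective r) (t : A → S) :
    ∑ τ : ι → S, wt p τ * (if ∀ a, τ (r a) = t a then 1 else 0) = ∏ a, p (t a) := by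
  classical
  let f : ι → S → ℝ := fun i m => p m * (if ∀ a, r a = i → m = t a then 1 else 0)
  have h1 : ∀ τ : ι → S, wt p τ * (if ∀ a, τ (r a) = t a then 1 else 0) = ∏ i, f i (τ i) := by
    intro τ
    simp only [f, prod_mul_distrib, wt]
    congr 1
    rw [prod_ite_zero]
    simp only [mem_univ, true_imp_iff, prod_const_one]
    congr 1
    apply propext
    constructor
    · intro h i a ha; rw [← ha]; exact h a
    · intro h a; exact h (r a) a rfl
  simp_rw [h1]
  rw [← Fintype.piFinset_univ, ← prod_univ_sum]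
  have h2 : ∀ i, i ∉ univ.image r → ∑ m, f i m = 1 := by
    intro i hi
    rw [← hsum]
    refine sum_congr rfl fun m _ => ?_
    simp only [f]
    rw [if_pos, mul_one]
    intro a ha
    exact absurd (mem_image.mpr ⟨a, mem_univ _, ha⟩) hi
  rw [← prod_subset (subset_univ (univ.image r)) (fun i _ hi => h2 i hi),
    prod_image (fun a _ b _ h => hr h)]
  refine prod_congr rfl fun a _ => ?_
  rw [sum_eq_single (t a)]
  · simp only [f]
    rw [if_pos, mul_one]
    intro a' ha'
    rw [hr ha']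
  · intro m _ hm
    simp only [f]
    rw [if_neg, mul_zero]
    intro h
    exact hm (h a rfl)
  · simp

lemma sum_wt (p : S → ℝ) (hsum : ∑ m, p m = 1) : ∑ τ : ι → S, wt p τ = 1 := by
  have := sum_wt_ind (ι := ι) p hsum (A := Empty) (fun a => a.elim) (fun a => a.elim)
    (fun a => a.elim)
  simpa using this

omit [DecidableEq ι] [Fintype S] [DecidableEq S] in
lemma wt_nonneg (p : S → ℝ) (hp : ∀ m, 0 ≤ p m) (τ : ι → S) : 0 ≤ wt p τ :=
  prod_nonneg fun _ _ => hp _

lemma exists_ge_mean (p : S → ℝ) (hp : ∀ m, 0 ≤ p m) (hsum : ∑ m, p m = 1)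
    (Φ : (ι → S) → ℝ) (c : ℝ) (hc : c ≤ ∑ τ, wt p τ * Φ τ) : ∃ τ, c ≤ Φ τ := by
  by_contra h
  push Not at h
  have h1 : ∃ τ : ι → S, wt p τ ≠ 0 := by
    by_contra h2
    push Not at h2
    have := sum_wt (ι := ι) p hsum
    simp [h2] at this
  obtain ⟨τ₀, hτ₀⟩ := h1
  have : ∑ τ, wt p τ * Φ τ < ∑ τ : ι → S, wt p τ * c := by
    refine sum_lt_sum (fun τ _ => mul_le_mul_of_nonneg_left (h τ).le (wt_nonneg p hp τ))
      ⟨τ₀, mem_univ _, ?_⟩
    exact mul_lt_mul_of_pos_left (h τ₀) (lt_of_le_of_ne (wt_nonneg p hp τ₀) hτ₀.symm)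
  rw [← sum_mul, sum_wt p hsum, one_mul] at this
  linarith

end

lemma ite_mul_ite_one (a b : Prop) [Decidable a] [Decidable b] [Decidable (a ∧ b)] :
    (if a then (1 : ℝ) else 0) * (if b then 1 else 0) = if a ∧ b then 1 else 0 := by
  by_cases ha : a <;> by_cases hb : b <;> simp [ha, hb]

lemma trim {W V S : Type} [DecidableEq W] [Fintype V] [DecidableEq V] [Fintype S]
    (E : Finset W) (L : W → S → V) (ν : S → ℕ) (ex : S → V → ℝ) (hex0 : ∀ m y, 0 ≤ ex m y)
    (hex : ∀ m y, ((E.filter (fun w => L w m = y)).card : ℝ) - ν m ≤ ex m y) :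
    ∃ Ω ⊆ E, (∀ m y, (Ω.filter (fun w => L w m = y)).card ≤ ν m) ∧
      (E.card : ℝ) - ∑ m, ∑ y, ex m y ≤ Ω.card := by
  classical
  have h1 : ∀ m y, ∃ D ⊆ E.filter (fun w => L w m = y),
      D.card = (E.filter (fun w => L w m = y)).card - ν m :=
    fun m y => exists_subset_card_eq (Nat.sub_le _ _)
  choose D hDs hDc using h1
  refine ⟨E \ (univ.biUnion fun m => univ.biUnion fun y => D m y), sdiff_subset, ?_, ?_⟩
  · intro m y
    have : (E \ (univ.biUnion fun m => univ.biUnion fun y => D m y)).filter (fun w => L w m = y)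
        ⊆ E.filter (fun w => L w m = y) \ D m y := by
      intro w hw
      simp only [mem_filter, mem_sdiff, mem_biUnion, mem_univ, true_and, not_exists] at hw ⊢
      exact ⟨⟨hw.1.1, hw.2⟩, hw.1.2 m y⟩
    refine (card_le_card this).trans ?_
    rw [card_sdiff_of_subset (hDs m y), hDc]
    omega
  · have h2 := le_card_sdiff (univ.biUnion fun m => univ.biUnion fun y => D m y) E
    have h3 : (univ.biUnion fun m => univ.biUnion fun y => D m y).card
        ≤ ∑ m, ∑ y, (D m y).card :=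
      card_biUnion_le.trans (sum_le_sum fun m _ => card_biUnion_le)
    have h4 : ((∑ m, ∑ y, (D m y).card : ℕ) : ℝ) ≤ ∑ m, ∑ y, ex m y := by
      push_cast
      refine sum_le_sum fun m _ => sum_le_sum fun y _ => ?_
      rw [hDc]
      rcases le_total (ν m) (E.filter (fun w => L w m = y)).card with h | h
      · rw [Nat.cast_sub h]; exact hex m y
      · rw [Nat.sub_eq_zero_of_le h]; simpa using hex0 m y
    have h5 : E.card ≤ (E \ (univ.biUnion fun m => univ.biUnion fun y => D m y)).card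
        + ∑ m, ∑ y, (D m y).card := by omega
    have h6 : (E.card : ℝ) ≤ (E \ (univ.biUnion fun m => univ.biUnion fun y => D m y)).card
        + ((∑ m, ∑ y, (D m y).card : ℕ) : ℝ) := by exact_mod_cast h5
    linarith

theorem random_types {W V ι S : Type} [DecidableEq W] [Fintype V] [DecidableEq V]
    [Fintype ι] [DecidableEq ι] [Fintype S] [DecidableEq S]
    (p : S → ℝ) (hp : ∀ m, 0 ≤ p m) (hsum : ∑ m, p m = 1) (idx : W → S → ι) (L : W → S → V)
    (G : Finset W) (hG : ∀ w ∈ G, Function.Injective (idx w)) (R : ℝ)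
    (hfib : ∀ m y, ((G.filter (fun w => L w m = y)).card : ℝ) ≤ R) (X : ℝ)
    (hX : ∀ m, (((G ×ˢ G).filter (fun q => L q.1 m = L q.2 m ∧
      ∃ n n', n ≠ m ∧ n' ≠ m ∧ idx q.1 n = idx q.2 n')).card : ℝ) ≤ X)
    (ν : S → ℕ) (g : ℝ) (hg : 0 < g) (hν : ∀ m, R * (∏ n ∈ univ.erase m, p n) + g ≤ ν m) :
    ∃ (τ : ι → S) (Ω : Finset W), Ω ⊆ G ∧ (∀ w ∈ Ω, ∀ m, τ (idx w m) = m) ∧
      (∀ m y, (Ω.filter (fun w => L w m = y)).card ≤ ν m) ∧
      G.card * (∏ n, p n) - Fintype.card S * X / g ≤ Ω.card := by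
  classical
  set π : S → ℝ := fun m => ∏ n ∈ univ.erase m, p n with hπ
  have hπ0 : ∀ m, 0 ≤ π m := fun m => prod_nonneg fun n _ => hp n
  have hπsub : ∀ m, ∏ a : {n // n ≠ m}, p a.1 = π m := by
    intro m
    simp only [hπ]
    exact (prod_subtype (univ.erase m) (by simp) p).symm
  set Z : (ι → S) → S → W → ℝ := fun τ m w =>
    if ∀ a : {n // n ≠ m}, τ (idx w a.1) = a.1 then 1 else 0 with hZ
  have hZ01 : ∀ τ m w, 0 ≤ Z τ m w ∧ Z τ m w ≤ 1 := by
    intro τ m w; simp only [hZ]; split_ifs <;> norm_num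
  have EZ : ∀ m, ∀ w ∈ G, ∑ τ, wt p τ * Z τ m w = π m := by
    intro m w hw
    rw [← hπsub]
    exact sum_wt_ind p hsum (fun a : {n // n ≠ m} => idx w a.1)
      (fun a b h => Subtype.ext (hG w hw h)) (fun a => a.1)
  have EZZ : ∀ m, ∀ w ∈ G, ∀ w' ∈ G, ∑ τ, wt p τ * ((Z τ m w - π m) * (Z τ m w' - π m)) ≤
      if ∃ n n', n ≠ m ∧ n' ≠ m ∧ idx w n = idx w' n' then 1 else 0 := by
    intro m w hw w' hw'
    have e1 : ∑ τ, wt p τ * ((Z τ m w - π m) * (Z τ m w' - π m))
        = ∑ τ, wt p τ * (Z τ m w * Z τ m w') - π m * π m := by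
      have : ∀ τ, wt p τ * ((Z τ m w - π m) * (Z τ m w' - π m))
          = wt p τ * (Z τ m w * Z τ m w') - π m * (wt p τ * Z τ m w)
            - π m * (wt p τ * Z τ m w') + π m * π m * wt p τ := by intro τ; ring
      simp_rw [this]
      rw [sum_add_distrib, sum_sub_distrib, sum_sub_distrib, ← mul_sum, ← mul_sum, ← mul_sum,
        EZ m w hw, EZ m w' hw', sum_wt p hsum]
      ring
    rw [e1]
    split_ifs with h
    · have : ∑ τ, wt p τ * (Z τ m w * Z τ m w') ≤ ∑ τ : ι → S, wt p τ := by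
        refine sum_le_sum fun τ _ => mul_le_of_le_one_right (wt_nonneg p hp τ) ?_
        exact mul_le_one₀ (hZ01 _ _ _).2 (hZ01 _ _ _).1 (hZ01 _ _ _).2
      rw [sum_wt p hsum] at this
      nlinarith [hπ0 m]
    · push Not at h
      have hinj : Function.Injective (Sum.elim (fun a : {n // n ≠ m} => idx w a.1)
          (fun a : {n // n ≠ m} => idx w' a.1)) := by
        rintro (a | a) (b | b) hab
        · exact congrArg Sum.inl (Subtype.ext (hG w hw hab))
        · exact absurd hab (h _ _ a.2 b.2)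
        · exact absurd hab.symm (h _ _ b.2 a.2)
        · exact congrArg Sum.inr (Subtype.ext (hG w' hw' hab))
      have := sum_wt_ind p hsum _ hinj (Sum.elim (fun a => a.1) (fun a => a.1))
      rw [Fintype.prod_sum_type] at this
      simp only [Sum.elim_inl, Sum.elim_inr, hπsub, Sum.forall] at this
      rw [← this]
      refine le_of_eq (sub_eq_zero.mpr (sum_congr rfl fun τ _ => ?_))
      simp only [hZ]
      congr 1
      exact ite_mul_ite_one _ _
  set dev : (ι → S) → S → V → ℝ := fun τ m y =>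
    ∑ w ∈ G.filter (fun w => L w m = y), (Z τ m w - π m) with hdev
  have Edev : ∀ m, ∑ τ, wt p τ * ∑ y, dev τ m y ^ 2 ≤ X := by
    intro m
    refine le_trans ?_ (hX m)
    have e1 : ∀ τ, ∑ y, dev τ m y ^ 2 = ∑ q ∈ (G ×ˢ G).filter (fun q => L q.1 m = L q.2 m),
        (Z τ m q.1 - π m) * (Z τ m q.2 - π m) := by
      intro τ
      rw [← sum_fiberwise _ (fun q : W × W => L q.1 m)]
      refine sum_congr rfl fun y _ => ?_
      simp only [hdev]
      rw [sq, sum_mul_sum, ← sum_product']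
      refine sum_congr ?_ fun _ _ => rfl
      ext q
      simp only [mem_product, mem_filter]
      constructor
      · rintro ⟨⟨a, b⟩, c, d⟩; exact ⟨⟨⟨a, c⟩, b.trans d.symm⟩, b⟩
      · rintro ⟨⟨⟨a, c⟩, b⟩, d⟩; exact ⟨⟨a, d⟩, c, b.symm.trans d⟩
    simp_rw [e1, mul_sum]
    rw [sum_comm, ← filter_filter, card_filter]
    push_cast
    refine sum_le_sum fun q hq => ?_
    have hq' := mem_product.mp (mem_filter.mp hq).1
    exact EZZ m q.1 hq'.1 q.2 hq'.2
  set Ω₁ : (ι → S) → Finset W := fun τ => G.filter (fun w => ∀ m, τ (idx w m) = m) with hΩ₁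
  have EΩ : ∑ τ, wt p τ * (Ω₁ τ).card = G.card * ∏ n, p n := by
    simp only [hΩ₁, card_filter]
    push_cast
    simp_rw [mul_sum]
    rw [sum_comm, ← nsmul_eq_mul, ← sum_const]
    refine sum_congr rfl fun w hw => ?_
    exact sum_wt_ind p hsum (idx w) (hG w hw) (fun a => a)
  obtain ⟨τ, hτ⟩ := exists_ge_mean (ι := ι) p hp hsum
    (fun τ => (Ω₁ τ).card - ∑ m, ∑ y, dev τ m y ^ 2 / g)
    (G.card * (∏ n, p n) - Fintype.card S * X / g) (by
      simp_rw [mul_sub]
      rw [sum_sub_distrib, EΩ]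
      refine sub_le_sub_left ?_ _
      have e1 : ∑ τ, wt p τ * ∑ m, ∑ y, dev τ m y ^ 2 / g
          = (∑ m, ∑ τ, wt p τ * ∑ y, dev τ m y ^ 2) / g := by
        rw [sum_comm, sum_div]
        refine sum_congr rfl fun τ _ => ?_
        rw [← mul_sum, mul_div_assoc, sum_div]
        congr 1
        exact sum_congr rfl fun m _ => by rw [sum_div]
      rw [e1]
      refine div_le_div_of_nonneg_right ?_ hg.le
      refine (sum_le_sum fun m _ => Edev m).trans ?_
      rw [sum_const, card_univ, nsmul_eq_mul])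
  obtain ⟨Ω, hΩs, hΩf, hΩc⟩ := trim (Ω₁ τ) L ν (fun m y => dev τ m y ^ 2 / g)
    (fun m y => by positivity) (by
      intro m y
      have h1 : (((Ω₁ τ).filter (fun w => L w m = y)).card : ℝ)
          ≤ ∑ w ∈ G.filter (fun w => L w m = y), Z τ m w := by
        rw [card_eq_sum_ones]
        push_cast
        have hs : (Ω₁ τ).filter (fun w => L w m = y) ⊆ G.filter (fun w => L w m = y) :=
          filter_subset_filter _ (filter_subset _ _)
        refine le_trans (le_of_eq ?_)
          (sum_le_sum_of_subset_of_nonneg hs fun w _ _ => (hZ01 τ m w).1)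
        refine sum_congr rfl fun w hw => ?_
        have := (mem_filter.mp (mem_filter.mp hw).1).2
        simp only [hZ]
        exact (if_pos fun a : {n // n ≠ m} => this a.1).symm
      have h2 : ∑ w ∈ G.filter (fun w => L w m = y), Z τ m w
          = dev τ m y + (G.filter (fun w => L w m = y)).card * π m := by
        simp only [hdev]
        rw [sum_sub_distrib, sum_const, nsmul_eq_mul]; ring
      have h3 : (G.filter (fun w => L w m = y)).card * π m ≤ R * π m :=
        mul_le_mul_of_nonneg_right (hfib m y) (hπ0 m)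
      have h4 := hν m
      have h5 : (((Ω₁ τ).filter (fun w => L w m = y)).card : ℝ) - ν m ≤ dev τ m y - g := by
        simp only [hπ] at h3 h2
        linarith
      refine h5.trans ?_
      rw [le_div_iff₀ hg]
      nlinarith [sq_nonneg (dev τ m y - g)])
  refine ⟨τ, Ω, hΩs.trans (filter_subset _ _), fun w hw => (mem_filter.mp (hΩs hw)).2, hΩf, ?_⟩
  exact hτ.trans hΩc

end Vale.Agent.P110.Types
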