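import Vale.Agent.P110.Basic
import Vale.Agent.P110.TypesProb
import Vale.Agent.P110.TypesCount

/-! Existence of a symmetric type function with a nearly perfect fractional tiling. -/

namespace Vale.Agent.P110
open Finset MeasureTheory

namespace Types

lemma zmod_types {S : Type} [Fintype S] [DecidableEq S] (j μ : S → ℤ) (p : S → ℝ)
    (hp : ∀ m, 0 < p m) (hsum : ∑ m, p m = 1) (J : ℕ) (η : ℝ) (hη : 0 < η) :
    ∃ R₀ : ℕ, ∀ (R : ℕ) [NeZero R], R₀ ≤ R → (∀ m, IsCoprime (j m) (R : ℤ)) →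
      (∀ m n, m ≠ n → IsCoprime (j m * μ n - j n * μ m) (R : ℤ)) →
      ∃ (typ : ZMod R → S) (Ω : Finset (ZMod R × ZMod R)), (∀ y, typ (-y) = typ y) ∧
        (∀ w ∈ Ω, ∀ m, ∀ a : ℤ, |a| ≤ J → typ (form j μ w m + (a : ZMod R)) = m) ∧
        (∀ w ∈ Ω, ∀ m, 2 * ((form j μ w m).valMinAbs.natAbs + J) < R) ∧
        (∀ m y, ((Ω.filter (fun w => form j μ w m = y)).card : ℝ)
          ≤ (1 + η) * R * (∏ n, p n) / p m) ∧
        (1 - η) * (R : ℝ) ^ 2 * ∏ n, p n ≤ Ω.card ∧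
        (Ω.card : ℝ) ≤ (R : ℝ) ^ 2 * ∏ n, p n := by
  set s : ℝ := (Fintype.card S : ℝ) with hs
  have hs0 : 0 ≤ s := Nat.cast_nonneg _
  set π : ℝ := ∏ n, p n with hπ
  have hπ0 : 0 < π := prod_pos fun n _ => hp n
  have hp1 : ∀ m, p m ≤ 1 := fun m => by
    rw [← hsum]; exact single_le_sum (fun n _ => (hp n).le) (mem_univ m)
  have hπm : ∀ m, ∏ n ∈ univ.erase m, p n = π / p m := by
    intro m
    rw [eq_div_iff (hp m).ne', hπ, prod_erase_mul _ _ (mem_univ m)]
  have hπle : ∀ m, π ≤ π / p m := fun m => by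
    rw [le_div_iff₀ (hp m)]; exact mul_le_of_le_one_right hπ0.le (hp1 m)
  set W : ℕ := ⌈12 * s * J / η⌉₊ + 1 with hW
  have hW0 : 0 < W := by omega
  have hWr : (0 : ℝ) < W := by exact_mod_cast hW0
  have hW1 : 12 * s * J ≤ η * W := by
    have h1 := Nat.le_ceil (12 * s * J / η)
    have h2 : (W : ℝ) = ⌈12 * s * J / η⌉₊ + 1 := by rw [hW]; push_cast; ring
    rw [div_le_iff₀ hη] at h1
    rw [h2]; nlinarith
  set C₁ : ℝ := s * (2 * (J + 1) + 4 * J) + 2 * s ^ 2 * W with hC₁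
  set C₂ : ℝ := 4 * s ^ 3 * W / (η * π) with hC₂
  refine ⟨⌈max (3 * (C₁ * π + C₂) / (2 * η * π)) (2 / (η * π))⌉₊, fun R _ hR h1 h2 => ?_⟩
  have hR' : max (3 * (C₁ * π + C₂) / (2 * η * π)) (2 / (η * π)) ≤ R :=
    (Nat.le_ceil _).trans (by exact_mod_cast hR)
  have hR1 : 3 * (C₁ * π + C₂) ≤ R * (2 * η * π) :=
    (div_le_iff₀ (by positivity)).mp ((le_max_left _ _).trans hR')
  have hR2 : 2 ≤ R * (η * π) :=
    (div_le_iff₀ (by positivity)).mp ((le_max_right _ _).trans hR')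
  have hRpos : (1 : ℝ) ≤ R := by exact_mod_cast Nat.pos_of_ne_zero (NeZero.ne R)
  set ν : S → ℕ := fun m => ⌊(1 + η) * R * π / p m⌋₊ with hν
  obtain ⟨τ, Ω, hΩG, hΩτ, hΩf, hΩc⟩ := random_types p (fun m => (hp m).le) hsum
    (fun w m => lab W (form j μ w m)) (form (R := R) j μ) (gen W J j μ)
    (fun w hw m n h => (mem_filter.mp hw).2.2 m n h) R
    (fun m y => by
      exact_mod_cast (card_le_card (filter_subset_filter _ (subset_univ _))).trans
        (card_fiber j μ m (h1 m) y))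
    (s * (s * (2 * W)) * (R * R))
    (fun m => by rw [hs]; exact_mod_cast card_cross W hW0 j μ h2 (gen W J j μ) m)
    ν (η * R * π / 2) (by positivity)
    (fun m => by
      rw [hπm]
      have a1 := Nat.lt_floor_add_one ((1 + η) * R * π / p m)
      have a2 : (1 + η) * R * π / p m = R * (π / p m) + η * R * (π / p m) := by ring
      have a3 : η * R * π ≤ η * R * (π / p m) :=
        mul_le_mul_of_nonneg_left (hπle m) (by positivity)
      simp only [hν]
      nlinarith)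
  have hG : (R : ℝ) ^ 2 * (1 - η / 3) - R * C₁ ≤ (gen (R := R) W J j μ).card := by
    have a1 := card_gen (R := R) W J hW0 j μ h1 h2
    have a2 : ((R * R : ℕ) : ℝ) ≤ ((gen (R := R) W J j μ).card
      + Fintype.card S * (R * (2 * ((J + 1) + (R / W + 1) * (2 * J))))
      + Fintype.card S * (Fintype.card S * (2 * W * R)) : ℕ) := by exact_mod_cast a1
    push_cast at a2
    rw [← hs] at a2
    have a3 : ((R / W : ℕ) : ℝ) ≤ R / W := Nat.cast_div_le
    have a4 : s * (R * (4 * J)) * ((R / W : ℕ) : ℝ) ≤ s * (R * (4 * J)) * (R / W) :=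
      mul_le_mul_of_nonneg_left a3 (by positivity)
    have a5 : s * (R * (4 * J)) * (R / W) ≤ R ^ 2 * (η / 3) := by
      rw [← mul_div_assoc, div_le_iff₀ hWr]
      have : (0 : ℝ) ≤ R ^ 2 := by positivity
      nlinarith
    rw [hC₁]
    nlinarith
  have hlow : (1 - η) * (R : ℝ) ^ 2 * π ≤ Ω.card := by
    refine le_trans ?_ hΩc
    rw [← hs, ← hπ]
    have a1 : s * (s * (s * (2 * W)) * (R * R)) / (η * R * π / 2) = C₂ * R := by
      rw [hC₂]; field_simp; ring
    rw [a1]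
    have a2 := mul_le_mul_of_nonneg_right hG hπ0.le
    have a3 := mul_le_mul_of_nonneg_left hR1 (by positivity : (0 : ℝ) ≤ R)
    nlinarith
  obtain ⟨Ω', hΩ's, hΩ'1, hΩ'2⟩ : ∃ Ω' ⊆ Ω, (1 - η) * (R : ℝ) ^ 2 * π ≤ Ω'.card ∧
      (Ω'.card : ℝ) ≤ (R : ℝ) ^ 2 * π := by
    rcases le_total (Ω.card : ℝ) ((R : ℝ) ^ 2 * π) with h | h
    · exact ⟨Ω, subset_rfl, hlow, h⟩
    · have a1 : ⌊(R : ℝ) ^ 2 * π⌋₊ ≤ Ω.card := Nat.floor_le_of_le h
      obtain ⟨Ω', b1, b2⟩ := exists_subset_card_eq a1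
      refine ⟨Ω', b1, ?_, ?_⟩
      · rw [b2]
        have a2 := Nat.lt_floor_add_one ((R : ℝ) ^ 2 * π)
        have a3 := mul_le_mul hRpos hR2 (by norm_num) (by positivity)
        nlinarith
      · rw [b2]; exact Nat.floor_le (by positivity)
  have hgood : ∀ w ∈ Ω', ∀ m, Good W J (form j μ w m) :=
    fun w hw m => (mem_filter.mp (hΩG (hΩ's hw))).2.1 m
  refine ⟨fun y => τ (lab W y), Ω', fun y => by simp only [lab_neg], ?_, fun w hw m => (hgood w hw m).1,
    ?_, hΩ'1, hΩ'2⟩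
  · intro w hw m a ha
    simp only
    rw [lab_add W J _ (hgood w hw m) a ha]
    exact hΩτ w (hΩ's hw) m
  · intro m y
    have a1 : (Ω'.filter (fun w => form j μ w m = y)).card ≤ ν m :=
      (card_le_card (filter_subset_filter _ hΩ's)).trans (hΩf m y)
    have a2 : (ν m : ℝ) ≤ (1 + η) * R * π / p m := Nat.floor_le (by have := hp m; positivity)
    exact le_trans (by exact_mod_cast a1) a2

end Types

open _root_.Vale.Agent.P110.Types

theorem exists_types {S : Type} [Fintype S] [DecidableEq S] (j μ : S → ℤ) (p : S → ℝ)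
    (hp : ∀ m, 0 < p m) (hsum : ∑ m, p m = 1) (J : ℕ) (η : ℝ) (hη : 0 < η) :
    ∃ R₀ : ℕ, ∀ R : ℕ, R₀ ≤ R → (∀ m, IsCoprime (j m) (R : ℤ)) →
      (∀ m n, m ≠ n → IsCoprime (j m * μ n - j n * μ m) (R : ℤ)) →
      ∃ (Ω : Finset (ℤ × ℤ)) (x : ℤ × ℤ → S → ℤ),
        (∀ w ∈ Ω, ∀ m, (R : ℤ) ∣ j m * w.1 + μ m * w.2 - x w m) ∧
        (∀ w ∈ Ω, ∀ m, 2 * (|x w m| + J) < R) ∧
        (∀ w ∈ Ω, ∀ w' ∈ Ω, ∀ m n, m ≠ n → ∀ z : ℤ,
          (J : ℤ) < |x w m - x w' n - R * z| ∧ (J : ℤ) < |x w m + x w' n - R * z|) ∧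
        (∀ m, ∀ y : ℤ, ((Ω.filter (fun w => x w m = y)).card : ℝ)
          ≤ (1 + η) * R * (∏ n, p n) / p m) ∧
        (1 - η) * (R : ℝ) ^ 2 * ∏ n, p n ≤ Ω.card ∧
        (Ω.card : ℝ) ≤ (R : ℝ) ^ 2 * ∏ n, p n := by
  obtain ⟨R₀, hR₀⟩ := zmod_types j μ p hp hsum J η hη
  refine ⟨R₀ + 1, fun R hR h1 h2 => ?_⟩
  have : NeZero R := ⟨by omega⟩
  obtain ⟨typ, Ω, hneg, htyp, hwrap, hfib, hlow, hup⟩ := hR₀ R (by omega) h1 h2
  set lift : ZMod R × ZMod R → ℤ × ℤ := fun w => (w.1.valMinAbs, w.2.valMinAbs) with hlift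
  have hinj : Function.Injective lift := by
    intro w w' h
    simp only [hlift, Prod.mk.injEq, ZMod.valMinAbs_inj] at h
    exact Prod.ext h.1 h.2
  set x : ℤ × ℤ → S → ℤ := fun w m => ((j m * w.1 + μ m * w.2 : ℤ) : ZMod R).valMinAbs with hx
  have hxl : ∀ w m, x (lift w) m = (form j μ w m).valMinAbs := by
    intro w m
    simp only [hx, hlift, form]
    push_cast
    rfl
  have hcast : ∀ w m, ((x (lift w) m : ℤ) : ZMod R) = form j μ w m := by
    intro w m; rw [hxl, ZMod.coe_valMinAbs]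
  refine ⟨Ω.image lift, x, ?_, ?_, ?_, ?_, ?_, ?_⟩
  · intro w _ m
    rw [← ZMod.intCast_zmod_eq_zero_iff_dvd]
    simp only [hx]
    rw [Int.cast_sub, ZMod.coe_valMinAbs, sub_self]
  · intro w hw m
    obtain ⟨v, hv, rfl⟩ := mem_image.mp hw
    have := hwrap v hv m
    rw [hxl, Int.abs_eq_natAbs]
    exact_mod_cast this
  · intro w hw w' hw' m n hmn z
    obtain ⟨v, hv, rfl⟩ := mem_image.mp hw
    obtain ⟨v', hv', rfl⟩ := mem_image.mp hw'
    have h0 : typ (form j μ v' n) = n := by simpa using htyp v' hv' n 0 (by simp)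
    constructor
    · by_contra hcon
      push Not at hcon
      have := htyp v hv m (-(x (lift v) m - x (lift v') n - R * z)) (by rwa [abs_neg])
      push_cast at this
      rw [hcast, hcast, ZMod.natCast_self] at this
      have e1 : form j μ v m + -(form j μ v m - form j μ v' n - 0 * (z : ZMod R))
          = form j μ v' n := by ring
      rw [e1, h0] at this
      exact hmn this.symm
    · by_contra hcon
      push Not at hcon
      have := htyp v hv m (-(x (lift v) m + x (lift v') n - R * z)) (by rwa [abs_neg])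
      push_cast at this
      rw [hcast, hcast, ZMod.natCast_self] at this
      have e1 : form j μ v m + -(form j μ v m + form j μ v' n - 0 * (z : ZMod R))
          = -form j μ v' n := by ring
      rw [e1, hneg, h0] at this
      exact hmn this.symm
  · intro m y
    refine le_trans ?_ (hfib m (y : ZMod R))
    rw [filter_image, card_image_of_injective _ hinj]
    refine Nat.cast_le.mpr (card_le_card ?_)
    intro w hw
    have := mem_filter.mp hw
    refine mem_filter.mpr ⟨this.1, ?_⟩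
    rw [← this.2, hcast]
  · rwa [card_image_of_injective _ hinj]
  · rwa [card_image_of_injective _ hinj]

end Vale.Agent.P110
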