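import Vale.Agent.P110.ArcsB
import Vale.Agent.P110.Trig
import Vale.Agent.P110.Types

/-! The arc system. -/

namespace Vale.Agent.P110

open Finset MeasureTheory

namespace Arcs

lemma exists_R (Δ : ℕ) (hΔ : 0 < Δ) (T : ℝ) (hT : 1 ≤ T) :
    ∃ t : ℕ, ((Δ * t + 1 : ℕ) : ℝ) ≤ T ∧ T - Δ ≤ ((Δ * t + 1 : ℕ) : ℝ) := by
  have h0 : (0 : ℝ) < Δ := by exact_mod_cast hΔ
  refine ⟨⌊(T - 1) / Δ⌋₊, ?_, ?_⟩
  · have := Nat.floor_le (show 0 ≤ (T - 1) / Δ from div_nonneg (by linarith) h0.le)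
    rw [le_div_iff₀ h0] at this
    push_cast
    linarith
  · have := (Nat.lt_floor_add_one ((T - 1) / Δ)).le
    rw [div_le_iff₀ h0] at this
    push_cast
    linarith

lemma coprime_of_dvd {a : ℤ} {Δ t : ℕ} (h : a ∣ (Δ : ℤ)) : IsCoprime a ((Δ * t + 1 : ℕ) : ℤ) := by
  obtain ⟨c, hc⟩ := h
  refine ⟨-(c * t), 1, ?_⟩
  push_cast
  rw [hc]; ring

lemma coprime_P {a : ℤ} {Δ P : ℕ} (h : a ∣ (Δ : ℤ)) (hP : Nat.Coprime P Δ) :
    IsCoprime a (P : ℤ) :=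
  (Nat.isCoprime_iff_coprime.2 hP.symm).of_isCoprime_of_dvd_left h

set_option maxHeartbeats 1200000 in
theorem exists_arcs_small (δ : ℝ) (hδ : 0 < δ) (hδ1 : δ ≤ 1 / 2) : ∃ (G : ℕ) (Bk C : Type)
    (_ : Fintype Bk)
    (_ : Fintype C) (_ : DecidableEq Bk) (blk : C → Bk) (X : C → ℤ) (j : C → ℕ) (α : C → ℂ)
    (lam : ℝ), 0 < G ∧ 0 < lam ∧ (∀ c, 0 < j c) ∧ (∀ c, ‖α c‖ ^ 2 = j c / (G * lam)) ∧
    (∀ c c', c ≠ c' → ∀ z : ℤ, (j c + j c' : ℤ) ≤ 2 * |X c - X c' - G * z|) ∧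
    (∀ c c', ∀ z : ℤ, (j c + j c' : ℤ) ≤ 2 * |X c + X c' - G * z|) ∧
    (1 - δ) * G ≤ 2 * ∑ c, (j c : ℝ) ∧ Fintype.card Bk * lam ≤ 1 + δ ∧
    ∀ (b : Bk) (θ : ℝ) (k : ℤ),
      |2 * (∑ c ∈ univ.filter (fun c => blk c = b),
        α c * e (j c * θ + k * (X c / G))).re| ≤ 1 + δ := by
  obtain ⟨S, _, _, j, μ, c, hj, hc, hdet, htrig, hb⟩ := exists_trig (δ / 10) (by positivity)
  obtain ⟨β, hβ⟩ : ∃ β : S → ℝ, β = fun m => ‖c m‖ ^ 2 := ⟨_, rfl⟩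
  have hβ0 : ∀ m, 0 < β m := fun m => by rw [hβ]; exact pow_pos (norm_pos_iff.2 (hc m)) 2
  obtain ⟨b, hbdef⟩ : ∃ b : ℝ, b = ∑ m, β m := ⟨_, rfl⟩
  have hb1 : 1 - δ / 10 ≤ 2 * b := by rw [hbdef, hβ]; exact hb
  have hb0 : 0 < b := by linarith
  obtain ⟨p, hp⟩ : ∃ p : S → ℝ, p = fun m => β m / b := ⟨_, rfl⟩
  have hp0 : ∀ m, 0 < p m := fun m => by rw [hp]; exact div_pos (hβ0 m) hb0
  have hp1 : ∑ m, p m = 1 := by
    rw [hp, ← sum_div, ← hbdef, div_self hb0.ne']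
  obtain ⟨π₀, hπ⟩ : ∃ π₀ : ℝ, π₀ = ∏ m, p m := ⟨_, rfl⟩
  have hπ0 : 0 < π₀ := by rw [hπ]; exact prod_pos (fun m _ => hp0 m)
  obtain ⟨σ, hσ⟩ : ∃ σ : ℝ, σ = ∑ m, ‖c m‖ := ⟨_, rfl⟩
  have hσ0 : 0 ≤ σ := by rw [hσ]; exact sum_nonneg (fun m _ => norm_nonneg _)
  obtain ⟨η, hη0, hη1, hη2⟩ : ∃ η : ℝ, 0 < η ∧ η ≤ δ / 10 ∧ 4 * η * σ ≤ δ / 10 := by
    refine ⟨δ / 10 / (1 + 4 * σ), by positivity, div_le_self (by positivity) (by linarith), ?_⟩
    have : 4 * (δ / 10 / (1 + 4 * σ)) * σ = δ / 10 * (4 * σ / (1 + 4 * σ)) := by ring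
    rw [this]
    exact mul_le_of_le_one_right (by positivity) ((div_le_one (by positivity)).2 (by linarith))
  have hη3 : η ≤ 1 / 20 := by linarith
  obtain ⟨Δ, hΔ0, hΔ2, hΔj, hΔd⟩ : ∃ Δ : ℕ, 0 < Δ ∧ (2 : ℤ) ∣ Δ ∧ (∀ m, (j m : ℤ) ∣ Δ) ∧
      ∀ m n, m ≠ n → (j m : ℤ) * μ n - j n * μ m ∣ Δ := by
    refine ⟨2 * (∏ m, j m) * ∏ z ∈ (univ : Finset S).offDiag,
      ((j z.1 : ℤ) * μ z.2 - j z.2 * μ z.1).natAbs, ?_, ?_, ?_, ?_⟩
    · refine mul_pos (mul_pos two_pos (prod_pos (fun m _ => hj m))) (prod_pos (fun z hz => ?_))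
      exact Int.natAbs_pos.2 (sub_ne_zero.2 (hdet _ _ (mem_offDiag.1 hz).2.2))
    · exact Int.natCast_dvd_natCast.2 ((dvd_mul_right 2 _).mul_right _)
    · intro m
      exact Int.natCast_dvd_natCast.2 (((dvd_prod_of_mem j (mem_univ m)).mul_left 2).mul_right _)
    · intro m n hmn
      rw [← Int.natAbs_dvd]
      apply Int.natCast_dvd_natCast.2
      apply Dvd.dvd.mul_left
      exact dvd_prod_of_mem (fun z : S × S => ((j z.1 : ℤ) * μ z.2 - j z.2 * μ z.1).natAbs)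
        (show (m, n) ∈ (univ : Finset S).offDiag from mem_offDiag.2 ⟨mem_univ _, mem_univ _, hmn⟩)
  obtain ⟨R₀, hR₀⟩ := exists_types (fun m => (j m : ℤ)) μ p hp0 hp1 (univ.sup j) η hη0
  obtain ⟨ρ, hρ⟩ : ∃ ρ : S → ℝ, ρ = fun m => j m / β m := ⟨_, rfl⟩
  have hρ0 : ∀ m, 0 < ρ m := fun m => by
    rw [hρ]; exact div_pos (by exact_mod_cast hj m) (hβ0 m)
  have hΔR : (0 : ℝ) < Δ := by exact_mod_cast hΔ0
  obtain ⟨κ, hκ, P, hPΔ, hPP, hPκ⟩ := exists_moduli ρ hρ0 Δ hΔ0 η hη0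
    (∑ m, 1 / (η * ρ m) + 4 * π₀ * b * (R₀ + Δ + 1) + 2 * b * π₀ * Δ / η)
  have k0 : 0 ≤ ∑ m, 1 / (η * ρ m) := sum_nonneg (fun m _ => by have := hρ0 m; positivity)
  have k1 : 0 < 4 * π₀ * b * (R₀ + Δ + 1) := by positivity
  have k2 : 0 ≤ 2 * b * π₀ * Δ / η := by positivity
  have hκ0 : 0 < κ := by linarith
  have hκ1 : ∀ m, 1 ≤ η * (κ * ρ m) := by
    intro m
    have a1 : 1 / (η * ρ m) ≤ ∑ m, 1 / (η * ρ m) :=
      single_le_sum (f := fun m => 1 / (η * ρ m)) (fun m _ => by have := hρ0 m; positivity)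
        (mem_univ m)
    have a2 : 1 / (η * ρ m) ≤ κ := by linarith
    rw [div_le_iff₀ (mul_pos hη0 (hρ0 m))] at a2
    linarith
  have hκ2 : 2 * b * π₀ * Δ ≤ η * κ := by
    have : 2 * b * π₀ * Δ / η ≤ κ := by linarith
    rw [div_le_iff₀ hη0] at this
    linarith
  obtain ⟨T, hT⟩ : ∃ T : ℝ, T = (1 - 3 * η) * κ / (2 * π₀ * b) := ⟨_, rfl⟩
  have hT0 : T * (2 * π₀ * b) = (1 - 3 * η) * κ := by rw [hT]; field_simp
  have hT1 : R₀ + Δ + 1 ≤ T := by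
    rw [hT, le_div_iff₀ (by positivity)]
    nlinarith
  obtain ⟨t, ht1, ht2⟩ := exists_R Δ hΔ0 T (by
    have : (0 : ℝ) ≤ R₀ := by positivity
    linarith)
  obtain ⟨Ω, x, hdiv, hwrap, hsep, hfib, hΩ1, hΩ2⟩ := hR₀ (Δ * t + 1)
    (by have : (R₀ : ℝ) ≤ ((Δ * t + 1 : ℕ) : ℝ) := by linarith
        exact_mod_cast this)
    (fun m => coprime_of_dvd (hΔj m)) (fun m n hmn => coprime_of_dvd (hΔd m n hmn))
  obtain ⟨R, hR⟩ : ∃ R : ℕ, R = Δ * t + 1 := ⟨_, rfl⟩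
  rw [← hR] at ht1 ht2 hdiv hwrap hsep hfib hΩ1 hΩ2
  rw [← hπ] at hfib hΩ1 hΩ2
  have hR0 : 0 < R := by omega
  have hRR : (0 : ℝ) < R := by exact_mod_cast hR0
  have hRup : R * (2 * π₀ * b) ≤ (1 - 3 * η) * κ := by
    rw [← hT0]; exact mul_le_mul_of_nonneg_right ht1 (by positivity)
  have hRlow : (1 - 4 * η) * κ ≤ R * (2 * π₀ * b) := by
    have := mul_le_mul_of_nonneg_right ht2 (show 0 ≤ 2 * π₀ * b by positivity)
    nlinarith
  have hP1 : ∀ m, (1 - η) * (κ * ρ m) ≤ P m := fun m => by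
    have := (abs_le.1 (hPκ m)).1; linarith
  have hP2 : ∀ m, (P m : ℝ) ≤ (1 + η) * (κ * ρ m) := fun m => by
    have := (abs_le.1 (hPκ m)).2; linarith
  have hP0R : ∀ m, (0 : ℝ) < P m := fun m =>
    lt_of_lt_of_le (mul_pos (by linarith) (mul_pos hκ0 (hρ0 m))) (hP1 m)
  have hP0 : ∀ m, 0 < P m := fun m => by exact_mod_cast hP0R m
  have hcolex : ∀ m, ∃ col : Ω → ℕ, (∀ w, 2 * (col w + 1) < P m) ∧
      ∀ w w', w ≠ w' → col w = col w' → (j m : ℤ) ≤ |x w m - x w' m| := by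
    intro m
    obtain ⟨col, h1, h2⟩ := exists_colouring (B := Ω) (fun w => x w m)
      ⌊(1 + η) * R * π₀ / p m⌋₊ (j m) (hj m) (by
        intro y
        apply Nat.le_floor
        refine le_trans ?_ (hfib m y)
        apply Nat.cast_le.2
        apply card_le_card_of_injOn Subtype.val
        · intro w hw
          exact mem_coe.2 (mem_filter.2 ⟨w.2, (mem_filter.1 (mem_coe.1 hw)).2⟩)
        · exact Subtype.val_injective.injOn)
    refine ⟨col, fun w => ?_, h2⟩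
    have a1 : ((col w + 1 : ℕ) : ℝ) ≤ j m * (⌊(1 + η) * R * π₀ / p m⌋₊ : ℝ) := by
      exact_mod_cast h1 w
    have a2 : (⌊(1 + η) * R * π₀ / p m⌋₊ : ℝ) ≤ (1 + η) * R * π₀ / p m :=
      Nat.floor_le (by have := hp0 m; positivity)
    have a3 : 2 * (j m * ((1 + η) * R * π₀ / p m)) = (1 + η) * ρ m * (R * (2 * π₀ * b)) := by
      rw [hp, hρ]
      have := hβ0 m
      field_simp
    have a4 : (1 + η) * ρ m * (R * (2 * π₀ * b)) ≤ (1 + η) * ρ m * ((1 - 3 * η) * κ) :=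
      mul_le_mul_of_nonneg_left hRup (by have := hρ0 m; positivity)
    have a5 := mul_le_mul_of_nonneg_left a2 (show (0 : ℝ) ≤ j m by positivity)
    have a6 : 0 < κ * ρ m := mul_pos hκ0 (hρ0 m)
    have a7 : (1 + η) * ρ m * ((1 - 3 * η) * κ) =
        (1 - 2 * η) * (κ * ρ m) - 3 * η ^ 2 * (κ * ρ m) := by ring
    have a8 : 0 < 3 * η ^ 2 * (κ * ρ m) := by positivity
    have a9 : ((2 * (col w + 1) : ℕ) : ℝ) < P m := by
      have := hP1 m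
      have := hκ1 m
      push_cast at a1 ⊢
      linarith
    exact_mod_cast a9
  choose col hcol1 hcol2 using hcolex
  obtain ⟨X, α, h1, h2, h3, h4⟩ := arcs_core j μ c P R (univ.sup j) κ (2 * η) (1 + δ / 10) Ω x col
    hc (fun m => le_sup (f := j) (mem_univ m)) hP0 hPP (fun n => coprime_P hΔ2 (hPΔ n))
    (fun m => coprime_P (hΔj m) (hPΔ m))
    (fun m n hmn => coprime_P (hΔd n m hmn.symm) (hPΔ n)) hR0 hκ0 hdiv hwrap hsep hcol1 hcol2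
    htrig (by
      intro m
      have a0 := hP0R m
      have a1 : κ * j m / (‖c m‖ ^ 2 * P m) - 1 = (κ * ρ m - P m) / P m := by
        have := hβ0 m
        rw [hρ]
        rw [hβ] at this ⊢
        field_simp
      rw [a1, abs_div, abs_of_pos a0, div_le_iff₀ a0, abs_sub_comm]
      refine (hPκ m).trans ?_
      have a2 := hP1 m
      have a3 : 0 < κ * ρ m := mul_pos hκ0 (hρ0 m)
      have a4 : κ * ρ m ≤ 2 * P m := by nlinarith
      nlinarith)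
  have hL0 : 0 < ∏ n, P n := prod_pos (fun n _ => hP0 n)
  refine ⟨(∏ n, P n) * R, Ω, Ω × (Σ m : S, Fin (cof P m)), inferInstance, inferInstance,
    inferInstance, fun a => a.1, X, fun a => j a.2.1, α, 1 / (κ * R), mul_pos hL0 hR0,
    by positivity, fun a => hj _, h1, h2, h3, ?_, ?_, ?_⟩
  · obtain ⟨L, hL⟩ : ∃ L : ℝ, L = ((∏ n, P n : ℕ) : ℝ) := ⟨_, rfl⟩
    have hLR : 0 < L := by rw [hL]; exact_mod_cast hL0
    have a1 : ∑ a : Ω × (Σ m : S, Fin (cof P m)), (j a.2.1 : ℝ) =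
        Ω.card * ∑ m, (cof P m : ℝ) * j m := by
      rw [Fintype.sum_prod_type]
      simp [Fintype.sum_sigma]
    have a2 : L * b ≤ (1 + η) * κ * ∑ m, (cof P m : ℝ) * j m := by
      rw [hbdef, mul_sum, mul_sum]
      apply sum_le_sum
      intro m _
      have c1 : L = P m * cof P m := by rw [hL, ← mul_cof P m]; push_cast; rfl
      have c2 : (P m : ℝ) * β m ≤ (1 + η) * κ * j m := by
        have := mul_le_mul_of_nonneg_right (hP2 m) (hβ0 m).le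
        have c3 : (1 + η) * (κ * ρ m) * β m = (1 + η) * κ * j m := by
          rw [hρ]; have := hβ0 m; field_simp
        linarith
      have := mul_le_mul_of_nonneg_right c2 (show (0 : ℝ) ≤ cof P m by positivity)
      rw [c1]
      linarith
    rw [a1, Nat.cast_mul, ← hL]
    obtain ⟨Z, hZ⟩ : ∃ Z : ℝ, Z = ∑ m, (cof P m : ℝ) * j m := ⟨_, rfl⟩
    rw [← hZ] at a2 ⊢
    have hZ0 : 0 ≤ Z := by rw [hZ]; exact sum_nonneg (fun m _ => by positivity)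
    have a3 : (1 - η) * (R : ℝ) ^ 2 * π₀ * Z ≤ Ω.card * Z := mul_le_mul_of_nonneg_right hΩ1 hZ0
    have a4 : (1 - η) * (R : ℝ) ^ 2 * π₀ * (L * b) ≤
        (1 - η) * (R : ℝ) ^ 2 * π₀ * ((1 + η) * κ * Z) :=
      mul_le_mul_of_nonneg_left a2 (by have : 0 ≤ 1 - η := by linarith
                                       positivity)
    have a5 : (1 - η) * (L * R) * ((1 - 4 * η) * κ) ≤ (1 - η) * (L * R) * (R * (2 * π₀ * b)) :=
      mul_le_mul_of_nonneg_left hRlow (by have : 0 ≤ 1 - η := by linarith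
                                          positivity)
    have a6 : (1 - δ) * (1 + η) ≤ (1 - η) * (1 - 4 * η) := by nlinarith
    have a7 := mul_le_mul_of_nonneg_right a6 (show 0 ≤ L * R * κ by positivity)
    have a8 := mul_le_mul_of_nonneg_left a3 (show 0 ≤ 2 * ((1 + η) * κ) by positivity)
    have a9 : ((1 + η) * κ) * ((1 - δ) * (L * R)) ≤ ((1 + η) * κ) * (2 * (Ω.card * Z)) := by
      linarith
    exact le_of_mul_le_mul_left a9 (by positivity)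
  · rw [Fintype.card_coe, mul_one_div, div_le_iff₀ (by positivity)]
    refine hΩ2.trans ?_
    have a1 : (R : ℝ) * π₀ * (2 * b) ≤ κ := by nlinarith
    have a2 : (R : ℝ) * π₀ * (1 - δ / 10) ≤ R * π₀ * (2 * b) :=
      mul_le_mul_of_nonneg_left hb1 (by positivity)
    have a3 : (1 : ℝ) ≤ (1 + δ) * (1 - δ / 10) := by nlinarith
    have a4 := mul_le_mul_of_nonneg_left a3 (show (0 : ℝ) ≤ R * π₀ by positivity)
    have a5 : (R : ℝ) * π₀ ≤ (1 + δ) * κ := by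
      have := mul_le_mul_of_nonneg_left (a2.trans a1) (show 0 ≤ 1 + δ by linarith)
      linarith
    have a6 := mul_le_mul_of_nonneg_left a5 hRR.le
    linarith
  · intro w θ k
    refine (h4 w θ k).trans ?_
    rw [← hσ]
    linarith

end Arcs

theorem exists_arcs (δ : ℝ) (hδ : 0 < δ) : ∃ (G : ℕ) (Bk C : Type) (_ : Fintype Bk)
    (_ : Fintype C) (_ : DecidableEq Bk) (blk : C → Bk) (X : C → ℤ) (j : C → ℕ) (α : C → ℂ)
    (lam : ℝ), 0 < G ∧ 0 < lam ∧ (∀ c, 0 < j c) ∧ (∀ c, ‖α c‖ ^ 2 = j c / (G * lam)) ∧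
    (∀ c c', c ≠ c' → ∀ z : ℤ, (j c + j c' : ℤ) ≤ 2 * |X c - X c' - G * z|) ∧
    (∀ c c', ∀ z : ℤ, (j c + j c' : ℤ) ≤ 2 * |X c + X c' - G * z|) ∧
    (1 - δ) * G ≤ 2 * ∑ c, (j c : ℝ) ∧ Fintype.card Bk * lam ≤ 1 + δ ∧
    ∀ (b : Bk) (θ : ℝ) (k : ℤ),
      |2 * (∑ c ∈ univ.filter (fun c => blk c = b),
        α c * e (j c * θ + k * (X c / G))).re| ≤ 1 + δ := by
  obtain ⟨G, Bk, C, i1, i2, i3, blk, X, j, α, lam, h1, h2, h3, h4, h5, h6, h7, h8, h9⟩ :=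
    Arcs.exists_arcs_small (min δ (1 / 2)) (lt_min hδ (by norm_num)) (min_le_right _ _)
  have hm : min δ (1 / 2) ≤ δ := min_le_left _ _
  refine ⟨G, Bk, C, i1, i2, i3, blk, X, j, α, lam, h1, h2, h3, h4, h5, h6, ?_, by linarith,
    fun b θ k => (h9 b θ k).trans (by linarith)⟩
  refine le_trans (mul_le_mul_of_nonneg_right (by linarith) (by positivity)) h7

end Vale.Agent.P110
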