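import Vale.Agent.P110.Basic

/-! Algebraic lemmas for the arc system. -/

namespace Vale.Agent.P110.Arcs

open Finset

variable {S : Type} [Fintype S] [DecidableEq S]

/-- The product of the other moduli. -/
def cof (P : S → ℕ) (m : S) : ℕ := ∏ n ∈ univ.erase m, P n

lemma mul_cof (P : S → ℕ) (m : S) : P m * cof P m = ∏ n, P n :=
  mul_prod_erase univ P (mem_univ m)

lemma crt (P : S → ℕ) (hP : ∀ m n, m ≠ n → Nat.Coprime (P m) (P n)) (j : S → ℤ)
    (hj : ∀ m, IsCoprime (j m) (P m : ℤ)) (a : S → ℤ) :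
    ∃ U : ℤ, ∀ m, (P m : ℤ) ∣ j m * U - a m := by
  have h1 : ∀ m, IsCoprime (j m * (cof P m : ℤ)) (P m : ℤ) := by
    intro m
    apply (hj m).mul_left
    unfold cof
    push_cast
    apply IsCoprime.prod_left
    intro n hn
    exact Nat.isCoprime_iff_coprime.2 (hP n m (mem_erase.1 hn).1)
  choose u v huv using h1
  refine ⟨∑ n, (cof P n : ℤ) * u n * a n, fun m => ?_⟩
  rw [← add_sum_erase univ _ (mem_univ m), mul_add]
  have h2 : (P m : ℤ) ∣ j m * ∑ n ∈ univ.erase m, (cof P n : ℤ) * u n * a n := by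
    apply Dvd.dvd.mul_left
    apply dvd_sum
    intro n hn
    apply Dvd.dvd.mul_right
    apply Dvd.dvd.mul_right
    exact_mod_cast dvd_prod_of_mem P (mem_erase.2 ⟨(mem_erase.1 hn).1.symm, mem_univ m⟩)
  have h3 : (P m : ℤ) ∣ j m * ((cof P m : ℤ) * u m * a m) - a m :=
    ⟨-(v m * a m), by linear_combination a m * huv m⟩
  rw [add_sub_right_comm]
  exact dvd_add h3 h2

lemma chirp (P : S → ℕ) (hP0 : ∀ m, 0 < P m) (hP : ∀ m n, m ≠ n → Nat.Coprime (P m) (P n))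
    (d : S → S → ℤ) (hd0 : ∀ m, d m m = 0) (h2 : ∀ n, IsCoprime 2 (P n : ℤ))
    (hd : ∀ m n, m ≠ n → IsCoprime (d m n) (P n : ℤ)) (m : S) :
    ∃ A : ℤ, IsCoprime (2 * A) (cof P m : ℤ) ∧
      (A : ℝ) / (cof P m : ℝ) = ∑ n, (d m n : ℝ) / P n := by
  refine ⟨∑ n ∈ univ.erase m, d m n * ∏ l ∈ (univ.erase m).erase n, (P l : ℤ), ?_, ?_⟩
  · unfold cof
    push_cast
    apply IsCoprime.prod_right
    intro n hn
    apply (h2 n).mul_left
    rw [← add_sum_erase _ _ hn]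
    have h3 : (P n : ℤ) ∣ ∑ l ∈ (univ.erase m).erase n,
        d m l * ∏ l' ∈ (univ.erase m).erase l, (P l' : ℤ) := by
      apply dvd_sum
      intro l hl
      apply Dvd.dvd.mul_left
      exact dvd_prod_of_mem (fun l' => (P l' : ℤ)) (mem_erase.2 ⟨(mem_erase.1 hl).1.symm, hn⟩)
    obtain ⟨c, hc⟩ := h3
    rw [hc]
    apply IsCoprime.add_mul_left_left
    apply (hd m n (mem_erase.1 hn).1.symm).mul_left
    apply IsCoprime.prod_left
    intro l hl
    exact Nat.isCoprime_iff_coprime.2 (hP l n (mem_erase.1 hl).1)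
  · rw [← add_sum_erase univ _ (mem_univ m), hd0]
    push_cast
    rw [zero_div, zero_add, sum_div]
    apply sum_congr rfl
    intro n hn
    unfold cof
    push_cast
    rw [← mul_prod_erase _ (fun l => (P l : ℝ)) hn]
    have a : (0 : ℝ) < P n := by exact_mod_cast hP0 n
    have b : (0 : ℝ) < ∏ l ∈ (univ.erase m).erase n, (P l : ℝ) :=
      prod_pos (fun l _ => by exact_mod_cast hP0 l)
    field_simp

lemma far_of_ne {x x' R Y J : ℤ} (hY : Y ≠ 0) (hJ : 0 ≤ J) (h1 : 2 * (|x| + J) < R)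
    (h2 : 2 * (|x'| + J) < R) : J ≤ |x + x' + R * Y| := by
  have a1 := abs_nonneg x
  have a2 := abs_nonneg x'
  have hR : 0 < R := by linarith
  have a3 : R ≤ |R * Y| := by
    rw [abs_mul, abs_of_pos hR]
    have := Int.one_le_abs hY
    nlinarith
  have a4 : |R * Y| ≤ |x + x' + R * Y| + |x| + |x'| := by
    have e : R * Y = (x + x' + R * Y) + (-x) + (-x') := by ring
    calc |R * Y| = |(x + x' + R * Y) + (-x) + (-x')| := by rw [← e]
      _ ≤ |x + x' + R * Y| + |-x| + |-x'| := abs_add_three _ _ _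
      _ = _ := by rw [abs_neg, abs_neg]
  linarith

lemma abs_sqrt_sub_one {u η : ℝ} (hu : 0 ≤ u) (h : |u - 1| ≤ η) : |Real.sqrt u - 1| ≤ η := by
  have h1 : u - 1 = (Real.sqrt u - 1) * (Real.sqrt u + 1) := by
    have := Real.mul_self_sqrt hu
    linarith
  have h2 : (1 : ℝ) ≤ Real.sqrt u + 1 := by linarith [Real.sqrt_nonneg u]
  rw [h1, abs_mul, abs_of_pos (show 0 < Real.sqrt u + 1 by linarith)] at h
  nlinarith [abs_nonneg (Real.sqrt u - 1)]

omit [DecidableEq S] in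
lemma perturb (c : S → ℂ) (t : S → ℝ) (φ : S → ℝ) (ε B : ℝ) (ht : ∀ m, |t m - 1| ≤ ε)
    (h : |2 * (∑ m, c m * e (φ m)).re| ≤ B) :
    |2 * (∑ m, c m * t m * e (φ m)).re| ≤ B + 2 * ε * ∑ m, ‖c m‖ := by
  have e1 : ∑ m, c m * t m * e (φ m) =
      ∑ m, c m * e (φ m) + ∑ m, c m * ((t m - 1 : ℝ) : ℂ) * e (φ m) := by
    rw [← sum_add_distrib]
    apply sum_congr rfl
    intro m _
    push_cast
    ring
  have e2 : ‖∑ m, c m * ((t m - 1 : ℝ) : ℂ) * e (φ m)‖ ≤ ε * ∑ m, ‖c m‖ := by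
    rw [mul_sum]
    refine (norm_sum_le _ _).trans (sum_le_sum (fun m _ => ?_))
    rw [norm_mul, norm_mul, norm_e, mul_one, Complex.norm_real, Real.norm_eq_abs, mul_comm]
    exact mul_le_mul_of_nonneg_right (ht m) (norm_nonneg _)
  have e3 := (Complex.abs_re_le_norm _).trans e2
  rw [e1, Complex.add_re, mul_add]
  refine (abs_add_le _ _).trans ?_
  rw [abs_mul 2 (∑ m, c m * ((t m - 1 : ℝ) : ℂ) * e (φ m)).re, abs_two]
  linarith

end Vale.Agent.P110.Arcs
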