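import Vale.Agent.P110.Basic

namespace Vale.Agent.P110

open Finset MeasureTheory

namespace Gauss

lemma sum_shift (Q : ℕ) (φ : ℕ → ℂ) (hφ : ∀ n, φ (n + Q) = φ n) (a : ℕ) :
    ∑ h ∈ range Q, φ (a + h) = ∑ h ∈ range Q, φ h := by
  induction a with
  | zero => simp
  | succ a ih =>
    have e1 := sum_range_succ (fun h => φ (a + h)) Q
    have e2 := sum_range_succ' (fun h => φ (a + h)) Q
    simp only [hφ, add_zero] at e1 e2
    rw [← ih]
    have e3 : ∑ h ∈ range Q, φ (a + 1 + h) = ∑ h ∈ range Q, φ (a + (h + 1)) :=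
      sum_congr rfl fun h _ => by congr 1; ring
    rw [e3]
    exact add_right_cancel (e2.symm.trans e1)

end Gauss

theorem gauss_expansion (Q : ℕ) (hQ : 0 < Q) (A : ℤ) (hA : IsCoprime (2 * A) (Q : ℤ)) :
    ∃ g : ℕ → ℂ, (∀ r, ‖g r‖ ^ 2 = 1 / (Q : ℝ)) ∧
      ∀ k : ℤ, e (A * (k : ℝ) ^ 2 / Q) = ∑ r ∈ range Q, g r * e (r * k / Q) := by
  have hQr : (Q : ℝ) ≠ 0 := by exact_mod_cast hQ.ne'
  have hQc : (Q : ℂ) ≠ 0 := by exact_mod_cast hQ.ne'
  refine ⟨fun r => (1 / (Q : ℂ)) * ∑ x ∈ range Q, e ((A * (x : ℝ) ^ 2 - r * x) / Q),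
    fun r => ?_, fun k => ?_⟩
  · set φ : ℕ → ℂ := fun x => e ((A * (x : ℝ) ^ 2 - r * x) / Q) with hφ
    have hper : ∀ n, φ (n + Q) = φ n := by
      intro n
      simp only [hφ]
      rw [← e_add_int ((A * (n : ℝ) ^ 2 - r * n) / Q) (A * (2 * n + Q) - r)]
      congr 1
      push_cast
      field_simp
      ring
    have h1 : (∑ x ∈ range Q, φ x) * (starRingEnd ℂ) (∑ x ∈ range Q, φ x) = Q := by
      rw [map_sum, mul_sum]
      have h2 : ∀ x ∈ range Q, (∑ y ∈ range Q, φ y) * (starRingEnd ℂ) (φ x) =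
          ∑ h ∈ range Q, φ h * e (((2 * A * h : ℤ) : ℝ) * x / Q) := by
        intro x _
        rw [← Gauss.sum_shift Q φ hper x, sum_mul]
        refine sum_congr rfl fun h _ => ?_
        simp only [hφ]
        rw [conj_e, ← e_add, ← e_add]
        congr 1
        push_cast
        field_simp
        ring
      rw [sum_congr rfl h2, sum_comm]
      simp only [← mul_sum, sum_e_div Q hQ]
      rw [sum_eq_single 0]
      · simp [hφ]
      · intro h hh h0
        rw [if_neg, mul_zero]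
        intro hd
        have := hA.symm.dvd_of_dvd_mul_left hd
        have h3 : Q ∣ h := by exact_mod_cast this
        exact h0 (Nat.eq_zero_of_dvd_of_lt h3 (mem_range.1 hh))
      · intro h
        exact absurd (mem_range.2 hQ) h
    rw [Complex.mul_conj, Complex.normSq_eq_norm_sq] at h1
    have h3 : ‖∑ x ∈ range Q, φ x‖ ^ 2 = Q := by exact_mod_cast h1
    rw [norm_mul, mul_pow, h3]
    simp only [one_div, norm_inv, Complex.norm_natCast]
    field_simp
  · have h1 : ∀ r ∈ range Q, ((1 / (Q : ℂ)) * ∑ x ∈ range Q, e ((A * (x : ℝ) ^ 2 - r * x) / Q)) *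
        e (r * k / Q) = ∑ x ∈ range Q, (1 / (Q : ℂ)) * e (A * (x : ℝ) ^ 2 / Q) *
          e (((k - x : ℤ) : ℝ) * r / Q) := by
      intro r _
      rw [mul_assoc, sum_mul, mul_sum]
      refine sum_congr rfl fun x _ => ?_
      rw [mul_assoc, ← e_add, ← e_add]
      congr 2
      push_cast
      ring
    rw [sum_congr rfl h1, sum_comm]
    simp only [← mul_sum, sum_e_div Q hQ]
    have hQi : (0 : ℤ) < Q := by exact_mod_cast hQ
    have h0 : 0 ≤ k % Q := Int.emod_nonneg _ hQi.ne'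
    have h2 : k % Q < Q := Int.emod_lt_of_pos _ hQi
    obtain ⟨x0, hx0⟩ := Int.eq_ofNat_of_zero_le h0
    have h3 : k - x0 = Q * (k / Q) := by
      have := Int.mul_ediv_add_emod k Q
      omega
    rw [sum_eq_single x0]
    · rw [if_pos ⟨_, h3⟩]
      have h4 : (k : ℝ) = x0 + Q * ((k / Q : ℤ) : ℝ) := by
        have : k = x0 + Q * (k / Q) := by omega
        exact_mod_cast this
      generalize k / Q = c at h4
      rw [h4, ← e_add_int (A * (x0 : ℝ) ^ 2 / Q) (A * (2 * x0 * c + Q * c ^ 2))]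
      field_simp
      congr 1
      push_cast
      field_simp
      ring
    · intro x hx hne
      rw [if_neg, mul_zero]
      intro hd
      apply hne
      have h5 : (Q : ℤ) ∣ (x0 : ℤ) - x := by
        have : (x0 : ℤ) - x = (k - x) - Q * (k / Q) := by omega
        rw [this]
        exact dvd_sub hd (dvd_mul_right _ _)
      have h6 := mem_range.1 hx
      have h7 := Int.eq_zero_of_abs_lt_dvd h5 (by rw [abs_lt]; constructor <;> omega)
      omega
    · intro h
      exact absurd (mem_range.2 (by omega)) h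

theorem exists_moduli {S : Type} [Fintype S] (ρ : S → ℝ) (hρ : ∀ m, 0 < ρ m) (Δ : ℕ)
    (hΔ : 0 < Δ) (η : ℝ) (hη : 0 < η) (κ₀ : ℝ) : ∃ κ : ℝ, κ₀ ≤ κ ∧ ∃ P : S → ℕ,
    (∀ m, Nat.Coprime (P m) Δ) ∧ (∀ m n, m ≠ n → Nat.Coprime (P m) (P n)) ∧
    ∀ m, |(P m : ℝ) - κ * ρ m| ≤ η * (κ * ρ m) := by
  set s := Fintype.card S with hs
  set idx := Fintype.equivFin S
  set Y : ℝ := |κ₀| + ∑ m, 2 / (η * ρ m) with hY
  have hY1 : ∀ m, 2 / (η * ρ m) ≤ Y := fun m =>
    le_add_of_nonneg_of_le (abs_nonneg _) (single_le_sum (f := fun m => 2 / (η * ρ m))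
      (fun m _ => by have := hρ m; positivity) (mem_univ m))
  have hY2 : |κ₀| ≤ Y := le_add_of_nonneg_right
    (sum_nonneg fun m _ => by have := hρ m; positivity)
  have hY0 : 0 ≤ Y := (abs_nonneg _).trans hY2
  set b : S → ℕ := fun m => (s + 1) * ⌈Y * ρ m⌉₊ + idx m with hb
  set X : ℕ := Δ * (∑ m, b m).factorial with hX
  have hX1 : 1 ≤ X := Nat.mul_pos hΔ (Nat.factorial_pos _)
  have hX1' : (1 : ℝ) ≤ X := by exact_mod_cast hX1
  have hs0 : (0 : ℝ) ≤ s := by positivity
  have hcop : ∀ m n, b m < b n → Nat.Coprime (b m * X + 1) (b n * X + 1) := by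
    intro m n hmn
    refine Nat.coprime_mul_succ (Dvd.dvd.mul_left (Nat.dvd_factorial (by omega) ?_) _)
    exact (Nat.sub_le _ _).trans (single_le_sum (f := b) (fun _ _ => Nat.zero_le _) (mem_univ n))
  refine ⟨X * (s + 1) * Y, ?_, fun m => b m * X + 1, fun m => ?_, fun m n hmn => ?_, fun m => ?_⟩
  · have : 1 * Y ≤ X * (s + 1) * Y := mul_le_mul_of_nonneg_right (by nlinarith) hY0
    linarith [le_abs_self κ₀]
  · have : b m * X + 1 = 1 + Δ * (b m * (∑ m, b m).factorial) := by rw [hX]; ring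
    simp only [this, Nat.coprime_add_mul_left_left, Nat.coprime_one_left_eq_true]
  · have hne : b m ≠ b n := by
      intro h
      apply hmn
      apply idx.injective
      apply Fin.ext
      have h1 := congrArg (· % (s + 1)) h
      simp only [hb, Nat.mul_add_mod] at h1
      rwa [Nat.mod_eq_of_lt (Nat.lt_succ_of_lt (idx m).2),
        Nat.mod_eq_of_lt (Nat.lt_succ_of_lt (idx n).2)] at h1
    rcases lt_or_gt_of_ne hne with h | h
    · exact hcop m n h
    · exact (hcop n m h).symm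
  · have h1 : Y * ρ m ≤ ⌈Y * ρ m⌉₊ := Nat.le_ceil _
    have h2 : (⌈Y * ρ m⌉₊ : ℝ) < Y * ρ m + 1 :=
      Nat.ceil_lt_add_one (mul_nonneg hY0 (hρ m).le)
    have h3 : ((idx m : ℕ) : ℝ) ≤ s := by exact_mod_cast (idx m).2.le
    have h4 : (0 : ℝ) ≤ (idx m : ℕ) := by positivity
    have h5 : 2 ≤ η * (Y * ρ m) := by
      have := hY1 m
      rw [div_le_iff₀ (mul_pos hη (hρ m))] at this
      linarith
    have h6 : ((b m * X + 1 : ℕ) : ℝ) - X * (s + 1) * Y * ρ m =
        X * ((s + 1) * (⌈Y * ρ m⌉₊ - Y * ρ m) + (idx m : ℕ)) + 1 := by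
      simp only [hb]
      push_cast
      ring
    rw [h6]
    have h7 : 0 ≤ (s + 1) * (⌈Y * ρ m⌉₊ - Y * ρ m) + ((idx m : ℕ) : ℝ) :=
      add_nonneg (mul_nonneg (by linarith) (by linarith)) h4
    have h8 : (s + 1) * (⌈Y * ρ m⌉₊ - Y * ρ m) + ((idx m : ℕ) : ℝ) ≤ 2 * s + 1 := by nlinarith
    rw [abs_of_nonneg (by positivity)]
    have h9 := mul_le_mul_of_nonneg_left h8 (show (0 : ℝ) ≤ X by positivity)
    have h10 := mul_le_mul_of_nonneg_left h5 (show (0 : ℝ) ≤ X * (s + 1) by positivity)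
    nlinarith

theorem exists_colouring {B : Type} [Fintype B] [DecidableEq B] (x : B → ℤ) (ν j : ℕ) (hj : 0 < j)
    (hfib : ∀ y : ℤ, (univ.filter (fun b => x b = y)).card ≤ ν) :
    ∃ col : B → ℕ, (∀ b, col b < j * ν) ∧
      ∀ b b', b ≠ b' → col b = col b' → (j : ℤ) ≤ |x b - x b'| := by
  have hidx : ∃ idx : B → ℕ, (∀ b, idx b < ν) ∧ ∀ b b', x b = x b' → idx b = idx b' → b = b' := by
    have : ∀ y : ℤ, ∃ f : B → ℕ, (∀ b, x b = y → f b < ν) ∧
        ∀ b b', x b = y → x b' = y → f b = f b' → b = b' := by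
      intro y
      set T := univ.filter (fun b => x b = y) with hT
      have hm : ∀ b, x b = y → b ∈ T := fun b hb => by simp [hT, hb]
      refine ⟨fun b => if h : x b = y then (T.equivFin ⟨b, hm b h⟩ : ℕ) else 0, fun b hb => ?_,
        fun b b' hb hb' h => ?_⟩
      · simp only [dif_pos hb]
        exact lt_of_lt_of_le (T.equivFin ⟨b, hm b hb⟩).2 (hfib y)
      · simp only [dif_pos hb, dif_pos hb'] at h
        have := T.equivFin.injective (Fin.ext h)
        exact congrArg Subtype.val this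
    choose f hf1 hf2 using this
    exact ⟨fun b => f (x b) b, fun b => hf1 _ b rfl, fun b b' h1 h2 =>
      hf2 (x b) b b' rfl h1.symm (by simpa only [h1] using h2)⟩
  obtain ⟨idx, h1, h2⟩ := hidx
  have hj' : (0 : ℤ) < j := by exact_mod_cast hj
  have hr : ∀ b, ((x b % j).toNat : ℤ) = x b % j := fun b =>
    Int.toNat_of_nonneg (Int.emod_nonneg _ hj'.ne')
  have hlt : ∀ b, (x b % j).toNat < j := fun b => by
    have := Int.emod_lt_of_pos (x b) hj'
    have := hr b
    omega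
  refine ⟨fun b => (x b % j).toNat + j * idx b, fun b => ?_, fun b b' hne h => ?_⟩
  · have := hlt b
    have h3 : j * (idx b + 1) ≤ j * ν := Nat.mul_le_mul_left _ (h1 b)
    rw [mul_add, mul_one] at h3
    dsimp only
    omega
  · have e1 : (x b % j).toNat = (x b' % j).toNat := by
      have := congrArg (· % j) h
      simpa only [Nat.add_mul_mod_self_left, Nat.mod_eq_of_lt (hlt _)] using this
    have e2 : idx b = idx b' := by
      dsimp only at h
      rw [e1] at h
      exact Nat.eq_of_mul_eq_mul_left hj (Nat.add_left_cancel h)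
    have e3 : x b % j = x b' % j := by rw [← hr b, ← hr b', e1]
    have e4 : (j : ℤ) ∣ x b - x b' :=
      Int.dvd_of_emod_eq_zero (Int.emod_eq_emod_iff_emod_sub_eq_zero.1 e3)
    have e5 : x b - x b' ≠ 0 := fun h0 => hne (h2 b b' (sub_eq_zero.1 h0) e2)
    exact Int.le_of_dvd (abs_pos.2 e5) ((dvd_abs _ _).2 e4)

end Vale.Agent.P110
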