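import Vale.Agent.P110.ArcsA
import Vale.Agent.P110.Gauss

/-! The combinatorial core of the arc system. -/

namespace Vale.Agent.P110.Arcs

open Finset

theorem arcs_core {S : Type} [Fintype S] [DecidableEq S] (j : S → ℕ) (μ : S → ℤ) (c : S → ℂ)
    (P : S → ℕ) (R J : ℕ) (κ ε B : ℝ) (Ω : Finset (ℤ × ℤ)) (x : ℤ × ℤ → S → ℤ)
    (col : S → Ω → ℕ)
    (hc : ∀ m, c m ≠ 0) (hJ : ∀ m, j m ≤ J) (hP0 : ∀ m, 0 < P m)
    (hP : ∀ m n, m ≠ n → Nat.Coprime (P m) (P n)) (h2 : ∀ n, IsCoprime 2 (P n : ℤ))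
    (hjP : ∀ m, IsCoprime (j m : ℤ) (P m : ℤ))
    (hdP : ∀ m n, m ≠ n → IsCoprime ((j n : ℤ) * μ m - j m * μ n) (P n : ℤ))
    (hR : 0 < R) (hκ : 0 < κ)
    (hdiv : ∀ w ∈ Ω, ∀ m, (R : ℤ) ∣ j m * w.1 + μ m * w.2 - x w m)
    (hwrap : ∀ w ∈ Ω, ∀ m, 2 * (|x w m| + J) < R)
    (hsep : ∀ w ∈ Ω, ∀ w' ∈ Ω, ∀ m n, m ≠ n → ∀ z : ℤ,
      (J : ℤ) < |x w m - x w' n - R * z| ∧ (J : ℤ) < |x w m + x w' n - R * z|)
    (hcol : ∀ m w, 2 * (col m w + 1) < P m)
    (hcol2 : ∀ m w w', w ≠ w' → col m w = col m w' → (j m : ℤ) ≤ |x w m - x w' m|)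
    (htrig : ∀ x y : ℝ, |2 * (∑ m, c m * e (j m * x + μ m * y)).re| ≤ B)
    (ht : ∀ m, |κ * j m / (‖c m‖ ^ 2 * P m) - 1| ≤ ε) :
    ∃ (X : Ω × (Σ m : S, Fin (cof P m)) → ℤ) (α : Ω × (Σ m : S, Fin (cof P m)) → ℂ),
      (∀ a, ‖α a‖ ^ 2 = j a.2.1 / ((((∏ n, P n) * R : ℕ) : ℝ) * (1 / (κ * R)))) ∧
      (∀ a a', a ≠ a' → ∀ z : ℤ,
        (j a.2.1 + j a'.2.1 : ℤ) ≤ 2 * |X a - X a' - ((∏ n, P n) * R : ℕ) * z|) ∧
      (∀ a a', ∀ z : ℤ, (j a.2.1 + j a'.2.1 : ℤ) ≤ 2 * |X a + X a' - ((∏ n, P n) * R : ℕ) * z|) ∧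
      ∀ (b : Ω) (θ : ℝ) (k : ℤ),
        |2 * (∑ a ∈ univ.filter (fun a : Ω × (Σ m : S, Fin (cof P m)) => a.1 = b),
          α a * e (j a.2.1 * θ + k * (X a / (((∏ n, P n) * R : ℕ) : ℝ)))).re| ≤
          B + 2 * ε * ∑ m, ‖c m‖ := by
  choose q hq using hdiv
  have hU : ∀ w : Ω, ∃ U : ℤ, ∀ m, (P m : ℤ) ∣ j m * U - (col m w + 1 - q w w.2 m) :=
    fun w => crt P hP (fun m => (j m : ℤ)) hjP _
  choose U hU using hU
  choose s hs using hU
  have hA := fun m => chirp P hP0 hP (fun m n => (j n : ℤ) * μ m - j m * μ n)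
    (fun m => by ring) h2 hdP m
  choose A hA1 hA2 using hA
  have hQ0 : ∀ m, 0 < cof P m := fun m => prod_pos (fun n _ => hP0 n)
  have hg := fun m => gauss_expansion (cof P m) (hQ0 m) (A m) (hA1 m)
  choose g hg1 hg2 using hg
  set L : ℕ := ∏ n, P n with hL
  have hLQ : ∀ m, (L : ℤ) = P m * cof P m := fun m => by rw [hL, ← mul_cof P m]; push_cast; rfl
  let t : S → ℝ := fun m => Real.sqrt (κ * j m / (‖c m‖ ^ 2 * P m))
  let X : Ω × (Σ m : S, Fin (cof P m)) → ℤ := fun a =>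
    j a.2.1 * ((a.1 : ℤ × ℤ).1 + R * U a.1) + μ a.2.1 * (a.1 : ℤ × ℤ).2 +
      ((a.2.2 : ℕ) : ℤ) * R * P a.2.1
  have hX : ∀ (w : Ω) (m : S) (r : Fin (cof P m)), X (w, ⟨m, r⟩) =
      x w m + R * (col m w + 1 + P m * (s w m + ((r : ℕ) : ℤ))) := by
    intro w m r
    simp only [X]
    linear_combination hq w w.2 m + (R : ℤ) * hs w m
  have hJ' : ∀ m n, (j m + j n : ℤ) ≤ 2 * J := by
    intro m n
    have := hJ m; have := hJ n
    omega
  have hJ0 : (0 : ℤ) ≤ J := by positivity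
  refine ⟨X, fun a => c a.2.1 * t a.2.1 * g a.2.1 a.2.2, ?_, ?_, ?_, ?_⟩
  · rintro ⟨w, m, r⟩
    simp only
    have a1 : (0 : ℝ) < ‖c m‖ := norm_pos_iff.2 (hc m)
    have a2 : (0 : ℝ) < P m := by exact_mod_cast hP0 m
    have a3 : (0 : ℝ) < cof P m := by exact_mod_cast hQ0 m
    have a4 : (0 : ℝ) < R := by exact_mod_cast hR
    have a5 : (L : ℝ) = P m * cof P m := by exact_mod_cast hLQ m
    rw [norm_mul, norm_mul, mul_pow, mul_pow, hg1, Complex.norm_real, Real.norm_eq_abs, sq_abs]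
    simp only [t]
    rw [Real.sq_sqrt (by positivity)]
    push_cast
    rw [a5]
    field_simp
  · rintro ⟨w, m, r⟩ ⟨w', n, r'⟩ hne z
    simp only
    rw [hX, hX]
    by_cases hmn : m = n
    · subst hmn
      set Y : ℤ := (col m w : ℤ) - col m w' + P m * (s w m + ((r : ℕ) : ℤ) - s w' m -
        ((r' : ℕ) : ℤ) - cof P m * z) with hY
      have e1 : x w m + R * (col m w + 1 + P m * (s w m + ((r : ℕ) : ℤ))) -
          (x w' m + R * (col m w' + 1 + P m * (s w' m + ((r' : ℕ) : ℤ)))) - (L * R : ℕ) * z =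
          x w m + -x w' m + R * Y := by
        push_cast
        rw [hY, hLQ m]
        ring
      rw [e1]
      by_cases hY0 : Y = 0
      · have c1 := hcol m w
        have c2 := hcol m w'
        have hcc : (col m w : ℤ) - col m w' = 0 := by
          apply Int.eq_zero_of_abs_lt_dvd (m := (P m : ℤ))
          · exact ⟨-(s w m + ((r : ℕ) : ℤ) - s w' m - ((r' : ℕ) : ℤ) - cof P m * z), by
              linear_combination hY0 - hY⟩
          · exact abs_lt.2 ⟨by omega, by omega⟩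
        by_cases hw : w = w'
        · subst hw
          exfalso
          apply hne
          have p0 : (P m : ℤ) ≠ 0 := by exact_mod_cast (hP0 m).ne'
          have d1 : ((r : ℕ) : ℤ) - ((r' : ℕ) : ℤ) - cof P m * z = 0 := by
            apply mul_left_cancel₀ p0
            linear_combination hY0 - hY
          have d2 : ((r : ℕ) : ℤ) - ((r' : ℕ) : ℤ) = 0 := by
            apply Int.eq_zero_of_abs_lt_dvd (m := (cof P m : ℤ)) ⟨z, by linarith⟩
            have := r.2; have := r'.2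
            exact abs_lt.2 ⟨by omega, by omega⟩
          have d3 : r = r' := Fin.ext (by omega)
          rw [d3]
        · have := hcol2 m w w' hw (by omega)
          rw [hY0, mul_zero, add_zero, ← sub_eq_add_neg]
          linarith
      · have := far_of_ne (x := x w m) (x' := -x w' m) hY0 hJ0 (hwrap w w.2 m)
          (by rw [abs_neg]; exact hwrap w' w'.2 m)
        linarith [hJ' m m]
    · have h1 := (hsep w w.2 w' w'.2 m n hmn (-(col m w + 1 + P m * (s w m + ((r : ℕ) : ℤ)) -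
        (col n w' + 1 + P n * (s w' n + ((r' : ℕ) : ℤ))) - L * z))).1
      have e1 : x w m + R * (col m w + 1 + P m * (s w m + ((r : ℕ) : ℤ))) -
          (x w' n + R * (col n w' + 1 + P n * (s w' n + ((r' : ℕ) : ℤ)))) - (L * R : ℕ) * z =
          x w m - x w' n - R * (-(col m w + 1 + P m * (s w m + ((r : ℕ) : ℤ)) -
            (col n w' + 1 + P n * (s w' n + ((r' : ℕ) : ℤ))) - L * z)) := by
        push_cast
        ring
      rw [e1]
      linarith [hJ' m n]
  · rintro ⟨w, m, r⟩ ⟨w', n, r'⟩ z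
    simp only
    rw [hX, hX]
    by_cases hmn : m = n
    · subst hmn
      set Y : ℤ := (col m w : ℤ) + 1 + (col m w' + 1) + P m * (s w m + ((r : ℕ) : ℤ) + s w' m +
        ((r' : ℕ) : ℤ) - cof P m * z) with hY
      have e1 : x w m + R * (col m w + 1 + P m * (s w m + ((r : ℕ) : ℤ))) +
          (x w' m + R * (col m w' + 1 + P m * (s w' m + ((r' : ℕ) : ℤ)))) - (L * R : ℕ) * z =
          x w m + x w' m + R * Y := by
        push_cast
        rw [hY, hLQ m]
        ring
      rw [e1]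
      have hY0 : Y ≠ 0 := by
        intro hY0
        have c1 := hcol m w
        have c2 := hcol m w'
        have hcc : (col m w : ℤ) + 1 + (col m w' + 1) = 0 := by
          apply Int.eq_zero_of_abs_lt_dvd (m := (P m : ℤ))
          · exact ⟨-(s w m + ((r : ℕ) : ℤ) + s w' m + ((r' : ℕ) : ℤ) - cof P m * z), by
              linear_combination hY0 - hY⟩
          · exact abs_lt.2 ⟨by omega, by omega⟩
        omega
      have := far_of_ne hY0 hJ0 (hwrap w w.2 m) (hwrap w' w'.2 m)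
      linarith [hJ' m m]
    · have h1 := (hsep w w.2 w' w'.2 m n hmn (-(col m w + 1 + P m * (s w m + ((r : ℕ) : ℤ)) +
        (col n w' + 1 + P n * (s w' n + ((r' : ℕ) : ℤ))) - L * z))).2
      have e1 : x w m + R * (col m w + 1 + P m * (s w m + ((r : ℕ) : ℤ))) +
          (x w' n + R * (col n w' + 1 + P n * (s w' n + ((r' : ℕ) : ℤ)))) - (L * R : ℕ) * z =
          x w m + x w' n - R * (-(col m w + 1 + P m * (s w m + ((r : ℕ) : ℤ)) +
            (col n w' + 1 + P n * (s w' n + ((r' : ℕ) : ℤ))) - L * z)) := by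
        push_cast
        ring
      rw [e1]
      linarith [hJ' m n]
  · intro w θ k
    set G : ℝ := ((L * R : ℕ) : ℝ) with hG
    let u : ℝ := θ + k * ((((w : ℤ × ℤ).1 + R * U w : ℤ) : ℝ) / G) - (k : ℝ) ^ 2 * ∑ n, (μ n : ℝ) / P n
    let v : ℝ := k * ((((w : ℤ × ℤ).2 : ℤ) : ℝ) / G) + (k : ℝ) ^ 2 * ∑ n, (j n : ℝ) / P n
    have e1 : ∑ a ∈ univ.filter (fun a : Ω × (Σ m : S, Fin (cof P m)) => a.1 = w),
        c a.2.1 * t a.2.1 * g a.2.1 a.2.2 * e (j a.2.1 * θ + k * (X a / G)) =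
        ∑ m, c m * t m * e (j m * u + μ m * v) := by
      rw [sum_filter, Fintype.sum_prod_type, sum_eq_single w]
      · simp only [if_true]
        rw [Fintype.sum_sigma]
        apply sum_congr rfl
        intro m _
        have a2 : (0 : ℝ) < P m := by exact_mod_cast hP0 m
        have a3 : (0 : ℝ) < cof P m := by exact_mod_cast hQ0 m
        have a4 : (0 : ℝ) < R := by exact_mod_cast hR
        have a5 : G = P m * cof P m * R := by
          have : (L : ℝ) = P m * cof P m := by exact_mod_cast hLQ m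
          rw [hG]; push_cast; rw [this]
        let y : ℝ := j m * θ + k * (((j m * ((w : ℤ × ℤ).1 + R * U w) +
          μ m * (w : ℤ × ℤ).2 : ℤ) : ℝ) / G)
        have b1 : j m * u + μ m * v = y + A m * (k : ℝ) ^ 2 / cof P m := by
          have b2 : (A m : ℝ) * (k : ℝ) ^ 2 / cof P m = (k : ℝ) ^ 2 *
              (μ m * ∑ n, (j n : ℝ) / P n - j m * ∑ n, (μ n : ℝ) / P n) := by
            rw [mul_div_right_comm, hA2 m, mul_sum, mul_sum, ← sum_sub_distrib, mul_comm]
            congr 1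
            apply sum_congr rfl
            intro n _
            push_cast
            ring
          rw [b2]
          simp only [u, v, y]
          push_cast
          ring
        rw [b1, e_add, hg2 m k, mul_sum, mul_sum,
          ← Fin.sum_univ_eq_sum_range (fun r => c m * t m * (e y * (g m r * e (r * k / cof P m))))]
        apply sum_congr rfl
        intro r _
        have b3 : j m * θ + k * (X (w, ⟨m, r⟩) / G) = y + ((r : ℕ) : ℝ) * k / cof P m := by
          simp only [X, y]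
          rw [a5]
          push_cast
          field_simp
          ring
        rw [b3, e_add]
        ring
      · intro w' _ hw'
        simp [hw']
      · simp
    rw [e1]
    apply perturb c t (fun m => j m * u + μ m * v) ε B _ (htrig u v)
    intro m
    exact abs_sqrt_sub_one (by positivity) (ht m)

end Vale.Agent.P110.Arcs
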