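import Mathlib

/-! Basic facts on the additive character `e x = exp (2 π i x)`. -/

namespace Vale.Agent.P110

/-- `e x = exp (2 π i x)`. -/
noncomputable def e (x : ℝ) : ℂ := Complex.exp (((2 * Real.pi * x : ℝ) : ℂ) * Complex.I)

lemma e_add (x y : ℝ) : e (x + y) = e x * e y := by
  unfold e
  rw [← Complex.exp_add]
  congr 1
  push_cast
  ring

@[simp] lemma e_zero : e 0 = 1 := by simp [e]

@[simp] lemma norm_e (x : ℝ) : ‖e x‖ = 1 := by
  unfold e
  exact Complex.norm_exp_ofReal_mul_I _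

lemma e_ne_zero (x : ℝ) : e x ≠ 0 := Complex.exp_ne_zero _

lemma conj_e (x : ℝ) : (starRingEnd ℂ) (e x) = e (-x) := by
  unfold e
  rw [← Complex.exp_conj, map_mul, Complex.conj_ofReal, Complex.conj_I]
  congr 1
  push_cast
  ring

lemma e_mul_e_neg (x : ℝ) : e x * e (-x) = 1 := by
  rw [← e_add]; simp

lemma e_neg (x : ℝ) : e (-x) = (e x)⁻¹ :=
  (eq_inv_of_mul_eq_one_right (e_mul_e_neg x))

lemma e_sub (x y : ℝ) : e (x - y) = e x * e (-y) := by
  rw [sub_eq_add_neg, e_add]

@[simp] lemma e_intCast (n : ℤ) : e (n : ℝ) = 1 := by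
  unfold e
  have : (((2 * Real.pi * (n : ℝ) : ℝ) : ℂ) * Complex.I) = n * (2 * Real.pi * Complex.I) := by
    push_cast; ring
  rw [this]
  exact Complex.exp_int_mul_two_pi_mul_I n

@[simp] lemma e_natCast (n : ℕ) : e (n : ℝ) = 1 := by
  simpa using e_intCast (n : ℤ)

lemma e_add_int (x : ℝ) (n : ℤ) : e (x + n) = e x := by
  rw [e_add, e_intCast, mul_one]

lemma e_sub_int (x : ℝ) (n : ℤ) : e (x - n) = e x := by
  have := e_add_int x (-n)
  simpa [sub_eq_add_neg] using this

lemma e_nat_mul (n : ℕ) (x : ℝ) : e (n * x) = e x ^ n := by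
  induction n with
  | zero => simp
  | succ n ih => rw [pow_succ, ← ih, ← e_add]; congr 1; push_cast; ring

lemma e_re (x : ℝ) : (e x).re = Real.cos (2 * Real.pi * x) := by
  unfold e; exact Complex.exp_ofReal_mul_I_re _

lemma e_im (x : ℝ) : (e x).im = Real.sin (2 * Real.pi * x) := by
  unfold e; exact Complex.exp_ofReal_mul_I_im _

lemma e_eq_one_iff (x : ℝ) : e x = 1 ↔ ∃ n : ℤ, x = n := by
  constructor
  · intro h
    unfold e at h
    rw [Complex.exp_eq_one_iff] at h
    obtain ⟨n, hn⟩ := h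
    refine ⟨n, ?_⟩
    have h2 := congrArg Complex.im hn
    simp at h2
    have hpi := Real.pi_pos
    have : 2 * Real.pi * (x - n) = 0 := by linarith
    rcases mul_eq_zero.mp this with h3 | h3
    · linarith
    · linarith
  · rintro ⟨n, rfl⟩; simp

lemma norm_e_sub_one_le (x : ℝ) : ‖e x - 1‖ ≤ 2 * Real.pi * |x| := by
  unfold e
  have := Real.norm_exp_I_mul_ofReal_sub_one_le (x := 2 * Real.pi * x)
  rw [mul_comm] at this
  refine this.trans ?_
  rw [Real.norm_eq_abs, abs_mul, abs_of_pos (by positivity : (0:ℝ) < 2 * Real.pi)]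

lemma norm_e_sub_e_le (x y : ℝ) : ‖e x - e y‖ ≤ 2 * Real.pi * |x - y| := by
  have : e x - e y = e y * (e (x - y) - 1) := by
    rw [mul_sub, ← e_add]; simp
  rw [this, norm_mul, norm_e, one_mul]
  exact norm_e_sub_one_le _

@[continuity, fun_prop] lemma continuous_e : Continuous e := by
  unfold e; fun_prop

lemma hasDerivAt_e (x : ℝ) :
    HasDerivAt e (((2 * Real.pi : ℝ) : ℂ) * Complex.I * e x) x := by
  have h1 : HasDerivAt (fun y : ℝ => (((2 * Real.pi * y : ℝ) : ℂ) * Complex.I))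
      (((2 * Real.pi : ℝ) : ℂ) * Complex.I) x := by
    have h0 : HasDerivAt (fun y : ℝ => 2 * Real.pi * y) (2 * Real.pi) x := by
      simpa using (hasDerivAt_id x).const_mul (2 * Real.pi)
    exact h0.ofReal_comp.mul_const _
  have := h1.cexp
  unfold e
  convert this using 1
  ring

lemma HasDerivAt.e_comp {g : ℝ → ℝ} {g' x : ℝ} (hg : HasDerivAt g g' x) :
    HasDerivAt (fun y => e (g y)) (((2 * Real.pi * g' : ℝ) : ℂ) * Complex.I * e (g x)) x := by
  have := (hasDerivAt_e (g x)).scomp x hg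
  have h2 : g' • (((2 * Real.pi : ℝ) : ℂ) * Complex.I * e (g x))
      = ((2 * Real.pi * g' : ℝ) : ℂ) * Complex.I * e (g x) := by
    rw [Complex.real_smul]
    push_cast
    ring
  rw [h2] at this
  exact this

/-- every unit complex number is `e t` with `0 ≤ t < 1` -/
lemma exists_e_eq {z : ℂ} (hz : ‖z‖ = 1) : ∃ t : ℝ, 0 ≤ t ∧ t < 1 ∧ e t = z := by
  obtain ⟨θ, hθ⟩ := (Complex.norm_eq_one_iff z).mp hz
  refine ⟨Int.fract (θ / (2 * Real.pi)), Int.fract_nonneg _, Int.fract_lt_one _, ?_⟩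
  rw [Int.fract, e_sub_int, ← hθ]
  unfold e
  congr 2
  have := Real.pi_pos
  field_simp

/-- orthogonality over a full period -/
lemma integral_e_int (n : ℤ) (a : ℝ) :
    ∫ t in a..(a + 1), e (n * t) = if n = 0 then 1 else 0 := by
  split_ifs with h
  · subst h; simp
  · have hn : (n : ℝ) ≠ 0 := by exact_mod_cast h
    have hc : (((2 * Real.pi * n : ℝ) : ℂ) * Complex.I) ≠ 0 := by
      have := Real.pi_pos
      refine mul_ne_zero ?_ Complex.I_ne_zero
      exact_mod_cast (by positivity : (2 * Real.pi * n : ℝ) ≠ 0)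
    have hd : ∀ x ∈ Set.uIcc a (a + 1), HasDerivAt
        (fun y : ℝ => e (n * y) / (((2 * Real.pi * n : ℝ) : ℂ) * Complex.I)) (e (n * x)) x := by
      intro x _
      have h0 : HasDerivAt (fun y : ℝ => (n : ℝ) * y) n x := by
        simpa using (hasDerivAt_id x).const_mul (n : ℝ)
      have := (HasDerivAt.e_comp h0).div_const (((2 * Real.pi * n : ℝ) : ℂ) * Complex.I)
      rw [mul_div_cancel_left₀ _ hc] at this
      exact this
    rw [intervalIntegral.integral_eq_sub_of_hasDerivAt hd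
      ((continuous_e.comp (by fun_prop)).intervalIntegrable _ _)]
    have : e (n * (a + 1)) = e (n * a) := by
      rw [mul_add, mul_one, e_add_int]
    rw [this, sub_self]

/-- orthogonality over the `Q`-th roots of unity -/
lemma sum_e_div (Q : ℕ) (hQ : 0 < Q) (n : ℤ) :
    ∑ r ∈ Finset.range Q, e (n * r / Q) = if (Q : ℤ) ∣ n then (Q : ℂ) else 0 := by
  have hQ' : (Q : ℝ) ≠ 0 := by exact_mod_cast hQ.ne'
  have hterm : ∀ r : ℕ, e (n * r / Q) = e (n / Q) ^ r := by
    intro r; rw [← e_nat_mul]; congr 1; ring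
  simp_rw [hterm]
  split_ifs with h
  · obtain ⟨c, rfl⟩ := h
    have : e ((((Q : ℤ) * c : ℤ) : ℝ) / Q) = 1 := by
      rw [e_eq_one_iff]; refine ⟨c, ?_⟩; push_cast; field_simp
    rw [this]; simp
  · have hne : e (n / Q) ≠ 1 := by
      intro h1
      rw [e_eq_one_iff] at h1
      obtain ⟨c, hc⟩ := h1
      apply h
      refine ⟨c, ?_⟩
      have : (n : ℝ) = Q * c := by field_simp at hc; linarith
      exact_mod_cast this
    rw [geom_sum_eq hne, ← e_nat_mul]
    have : (Q : ℝ) * (n / Q) = n := by field_simp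
    rw [this, e_intCast]; simp

end Vale.Agent.P110
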