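import Vale.Agent.P110.Osc

/-! One cell: the profile of the phase derivative and the oscillatory integral over the cell. -/

namespace Vale.Agent.P110.Flat
open Finset MeasureTheory Vale.Agent.P110

lemma piece (D f F : ℝ → ℝ) (a b : ℝ) (hf : Continuous f) (hF : ∀ t, HasDerivAt F (f t) t)
    (hD : ∀ t ∈ Set.Ioc a b, D t = f t) (t : ℝ) (ht : t ∈ Set.Icc a b) :
    IntervalIntegrable D volume a t ∧ ∫ s in a..t, D s = F t - F a := by
  have hsub : ∀ s ∈ Set.uIoc a t, D s = f s := by
    intro s hs
    rw [Set.uIoc_of_le ht.1] at hs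
    exact hD s ⟨hs.1, hs.2.trans ht.2⟩
  constructor
  · refine (hf.intervalIntegrable a t).congr ?_
    intro s hs
    exact (hsub s hs).symm
  · rw [intervalIntegral.integral_congr_ae (g := f) (Filter.Eventually.of_forall hsub)]
    exact intervalIntegral.integral_eq_sub_of_hasDerivAt (fun s _ => hF s)
      (hf.intervalIntegrable a t)

lemma integrable_of_eqOn (G g : ℝ → ℂ) (a b : ℝ) (hab : a ≤ b) (hg : Continuous g)
    (h : ∀ t ∈ Set.Icc a b, G t = g t) :
    IntervalIntegrable G volume a b ∧ ∫ t in a..b, G t = ∫ t in a..b, g t := by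
  constructor
  · refine (hg.intervalIntegrable a b).congr ?_
    intro s hs
    rw [Set.uIoc_of_le hab] at hs
    exact (h s ⟨hs.1.le, hs.2⟩).symm
  · refine intervalIntegral.integral_congr ?_
    intro s hs
    rw [Set.uIcc_of_le hab] at hs
    exact h s hs

lemma subst_main (g : ℝ → ℂ) (w h : ℝ) (hh : h ≠ 0) :
    ∫ t in (w - |h|)..(w + |h|), g ((t - w) / h) = (|h| : ℝ) * ∫ σ in (-1 : ℝ)..1, g σ := by
  have key := intervalIntegral.smul_integral_comp_mul_add (fun t => g ((t - w) / h))
    (a := -1) (b := 1) h w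
  have e1 : ∀ σ : ℝ, (h * σ + w - w) / h = σ := by intro σ; field_simp; ring
  simp only [e1] at key
  rcases lt_or_gt_of_ne hh with hneg | hpos
  · rw [abs_of_neg hneg, intervalIntegral.integral_symm]
    have a1 : w + -h = h * -1 + w := by ring
    have a2 : w - -h = h * 1 + w := by ring
    rw [a1, a2, ← key, Complex.real_smul]
    push_cast; ring
  · rw [abs_of_pos hpos]
    have a1 : w - h = h * -1 + w := by ring
    have a2 : w + h = h * 1 + w := by ring
    rw [a1, a2, ← key, Complex.real_smul]

lemma cell (p P : ℝ → ℝ) (hp : Continuous p) (hP : ∀ σ, HasDerivAt P (p σ) σ)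
    (hpb : ∀ σ, |σ| ≤ 1 → |p σ| ≤ 1)
    (w l τ x r d K : ℝ) (hl : l ≠ 0) (hτ : 0 < τ) (hτ1 : τ < 1) (hr : 0 < r) (hd : 0 < d)
    (hx1 : d ≤ x - r) (hx2 : x + r ≤ K) :
    ∃ κ : ℝ → ℝ, Continuous κ ∧ (∀ t, 0 ≤ κ t ∧ κ t ≤ K) ∧
      (∀ t, t ∉ Set.Ioc (w - |l| / 2) (w + |l| / 2) → κ t = 0) ∧
      ∀ (N γ : ℝ), 0 < N → ∃ β : ℝ → ℝ, Measurable β ∧ (∀ t, |β t| ≤ 2 / (τ * |l|)) ∧
        (∀ t, t ∉ Set.Ioc (w - |l| / 2) (w + |l| / 2) → β t = 0) ∧
        (∃ z : ℤ, ∫ t in (w - |l| / 2)..(w + |l| / 2), (N * κ t + β t) = z) ∧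
        ∀ k : ℝ, ‖(∫ t in (w - |l| / 2)..(w + |l| / 2),
            e ((∫ s in (w - |l| / 2)..t, (N * κ s + β s)) - k * t))
          - ((|l * (1 - τ) / 2| : ℝ) : ℂ) * (e (γ - k * w) * ∫ σ in (-1 : ℝ)..1,
            e ((N * (l * (1 - τ) / 2) * r) * (P σ - ((k / N - x) / r) * σ)))‖
          ≤ 6 / √(N * d / (τ * |l|)) := by
  have hla : 0 < |l| := abs_pos.mpr hl
  set h : ℝ := l * (1 - τ) / 2 with hh
  have hh0 : h ≠ 0 := by
    rw [hh]; exact div_ne_zero (mul_ne_zero hl (by linarith)) two_ne_zero
  have hha : |h| = |l| * (1 - τ) / 2 := by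
    rw [hh, abs_div, abs_mul, abs_of_pos (by linarith : 0 < 1 - τ)]; norm_num
  have hhpos : 0 < |h| := abs_pos.mpr hh0
  set q : ℝ := τ * |l| / 2 with hq
  have hqpos : 0 < q := by positivity
  set A : ℝ := w - |l| / 2 with hA
  set B : ℝ := w + |l| / 2 with hB
  set A' : ℝ := w - |h| with hA'
  set B' : ℝ := w + |h| with hB'
  have hAA' : A' = A + q := by rw [hA', hA, hha, hq]; ring
  have hBB' : B' = B - q := by rw [hB', hB, hha, hq]; ring
  have hA'B' : A' ≤ B' := by rw [hA', hB']; linarith
  have h1 : A ≤ A' := by linarith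
  have h3 : B' ≤ B := by linarith
  -- the middle profile
  set m : ℝ → ℝ := fun t => x + r * p ((t - w) / h) with hm
  have hmc : Continuous m := by rw [hm]; fun_prop
  have hσ : ∀ t, A' ≤ t → t ≤ B' → |(t - w) / h| ≤ 1 := by
    intro t h1 h2
    rw [abs_div, div_le_one hhpos, abs_le]
    constructor <;> linarith
  have hmb : ∀ t, A' ≤ t → t ≤ B' → d ≤ m t ∧ m t ≤ K := by
    intro t h1 h2
    have := abs_le.mp (hpb _ (hσ t h1 h2))
    simp only [hm]
    constructor <;> nlinarith
  set eL : ℝ := m A' with heL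
  set eR : ℝ := m B' with heR
  have heLb := hmb A' le_rfl hA'B'
  have heRb := hmb B' hA'B' le_rfl
  set κ : ℝ → ℝ := fun t => if t ≤ A then 0 else if t ≤ A' then eL * (t - A) / q
    else if t ≤ B' then m t else if t ≤ B then eR * (B - t) / q else 0 with hκ
  have hκc : Continuous κ := by
    rw [hκ]
    refine Continuous.if_le continuous_const ?_ continuous_id continuous_const ?_
    · refine Continuous.if_le (by fun_prop) ?_ continuous_id continuous_const ?_
      · refine Continuous.if_le hmc ?_ continuous_id continuous_const ?_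
        · refine Continuous.if_le (by fun_prop) continuous_const continuous_id continuous_const ?_
          intro t ht
          rw [ht]; simp
        · intro t ht
          rw [ht, if_pos h3, hBB']
          rw [← hBB', ← heR, hBB']
          field_simp
          ring
      · intro t ht
        rw [ht, if_pos hA'B', ← heL, hAA']
        field_simp
        ring
    · intro t ht
      rw [ht, if_pos h1]; simp
  have hK : 0 ≤ K := by linarith
  refine ⟨κ, hκc, ?_, ?_, ?_⟩
  · intro t
    simp only [hκ]
    split_ifs with c1 c2 c3 c4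
    · exact ⟨le_rfl, hK⟩
    · push Not at c1
      constructor
      · have : 0 ≤ t - A := by linarith
        have : 0 ≤ eL := by linarith
        positivity
      · rw [div_le_iff₀ hqpos]
        have : t - A ≤ q := by linarith
        have h0 : 0 ≤ t - A := by linarith
        calc eL * (t - A) ≤ K * (t - A) := mul_le_mul_of_nonneg_right heLb.2 h0
          _ ≤ K * q := mul_le_mul_of_nonneg_left this hK
    · push Not at c2
      have := hmb t c2.le c3
      constructor <;> linarith
    · push Not at c3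
      constructor
      · have : 0 ≤ B - t := by linarith
        have : 0 ≤ eR := by linarith
        positivity
      · rw [div_le_iff₀ hqpos]
        have : B - t ≤ q := by linarith
        have h0 : 0 ≤ B - t := by linarith
        calc eR * (B - t) ≤ K * (B - t) := mul_le_mul_of_nonneg_right heRb.2 h0
          _ ≤ K * q := mul_le_mul_of_nonneg_left this hK
    · exact ⟨le_rfl, hK⟩
  · intro t ht
    simp only [hκ]
    rw [Set.mem_Ioc, not_and_or] at ht
    rcases ht with ht | ht
    · rw [if_pos (not_lt.mp ht)]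
    · push Not at ht
      rw [if_neg (by linarith), if_neg (by linarith), if_neg (by linarith), if_neg (by linarith)]
  intro N γ hN
  -- primitive on the middle piece
  set FM : ℝ → ℝ := fun t => N * h * (x * ((t - w) / h) + r * P ((t - w) / h)) with hFM
  have hFMd : ∀ t, HasDerivAt FM (N * m t) t := by
    intro t
    have d1 : HasDerivAt (fun t : ℝ => (t - w) / h) (1 / h) t :=
      ((hasDerivAt_id t).sub_const w).div_const h
    have d2 : HasDerivAt (fun t : ℝ => P ((t - w) / h)) (p ((t - w) / h) * (1 / h)) t :=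
      (hP _).comp t d1
    have d3 : HasDerivAt FM (N * h * (x * (1 / h) + r * (p ((t - w) / h) * (1 / h)))) t :=
      ((d1.const_mul x).add (d2.const_mul r)).const_mul (N * h)
    refine d3.congr_deriv ?_
    simp only [hm]
    field_simp
  set c₁ : ℝ := N * eL * q / 2 - FM A' with hc₁
  set bL : ℝ := Int.fract (γ - c₁) / q with hbL
  set c₂ : ℝ := N * eL * q / 2 + bL * q + (FM B' - FM A') + N * eR * q / 2 with hc₂
  set bR : ℝ := Int.fract (-c₂) / q with hbR
  set β : ℝ → ℝ := fun t => if t ≤ A then 0 else if t ≤ A' then bL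
    else if t ≤ B' then 0 else if t ≤ B then bR else 0 with hβ
  have hfr : ∀ y : ℝ, |Int.fract y / q| ≤ 2 / (τ * |l|) := by
    intro y
    have h0 := Int.fract_nonneg y
    have h1 := Int.fract_lt_one y
    rw [abs_of_nonneg (by positivity)]
    have : 2 / (τ * |l|) = 1 / q := by rw [hq]; field_simp
    rw [this]
    exact div_le_div_of_nonneg_right h1.le hqpos.le
  set D : ℝ → ℝ := fun t => N * κ t + β t with hD
  -- the three pieces
  set FL : ℝ → ℝ := fun t => N * eL * (t - A) ^ 2 / (2 * q) + bL * (t - A) with hFL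
  set FR : ℝ → ℝ := fun t => -(N * eR * (B - t) ^ 2 / (2 * q)) + bR * (t - B') with hFR
  have pL : ∀ t ∈ Set.Icc A A', IntervalIntegrable D volume A t ∧
      ∫ s in A..t, D s = FL t - FL A := by
    refine piece D (fun t => N * (eL * (t - A) / q) + bL) FL A A' (by fun_prop) ?_ ?_
    · intro t
      have d1 : HasDerivAt (fun t : ℝ => t - A) 1 t := (hasDerivAt_id t).sub_const A
      have d3 : HasDerivAt FL (N * eL * (((2 : ℕ) : ℝ) * (t - A) ^ (2 - 1) * 1) / (2 * q) + bL * 1) t :=
        ((((d1.pow 2).const_mul (N * eL)).div_const (2 * q))).add (d1.const_mul bL)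
      refine d3.congr_deriv ?_
      push_cast
      field_simp
    · intro t ht
      simp only [hD, hκ, hβ, if_neg (not_le.mpr ht.1), if_pos ht.2]
  have pM : ∀ t ∈ Set.Icc A' B', IntervalIntegrable D volume A' t ∧
      ∫ s in A'..t, D s = FM t - FM A' := by
    refine piece D (fun t => N * m t) FM A' B' (by fun_prop) hFMd ?_
    intro t ht
    have c1 : ¬ t ≤ A := by have := ht.1; linarith
    simp only [hD, hκ, hβ, if_neg c1, if_neg (not_le.mpr ht.1), if_pos ht.2, add_zero]
  have pR : ∀ t ∈ Set.Icc B' B, IntervalIntegrable D volume B' t ∧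
      ∫ s in B'..t, D s = FR t - FR B' := by
    refine piece D (fun t => N * (eR * (B - t) / q) + bR) FR B' B (by fun_prop) ?_ ?_
    · intro t
      have d1 : HasDerivAt (fun t : ℝ => B - t) (-1) t := (hasDerivAt_id t).const_sub B
      have d2 : HasDerivAt (fun t : ℝ => t - B') 1 t := (hasDerivAt_id t).sub_const B'
      have d3 : HasDerivAt FR
          (-(N * eR * (((2 : ℕ) : ℝ) * (B - t) ^ (2 - 1) * (-1)) / (2 * q)) + bR * 1) t :=
        ((((d1.pow 2).const_mul (N * eR)).div_const (2 * q)).neg).add (d2.const_mul bR)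
      refine d3.congr_deriv ?_
      push_cast
      field_simp
    · intro t ht
      have c1 : ¬ t ≤ A := by have := ht.1; linarith
      have c2 : ¬ t ≤ A' := by have := ht.1; linarith
      simp only [hD, hκ, hβ, if_neg c1, if_neg c2, if_neg (not_le.mpr ht.1), if_pos ht.2]
  have vL : FL A' - FL A = N * eL * q / 2 + bL * q := by
    simp only [hFL, hAA']; field_simp; ring
  have ψL : ∀ t ∈ Set.Icc A A', ∫ s in A..t, D s = FL t := by
    intro t ht; rw [(pL t ht).2]; simp [hFL]
  have ψM : ∀ t ∈ Set.Icc A' B', IntervalIntegrable D volume A t ∧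
      ∫ s in A..t, D s = N * eL * q / 2 + bL * q + (FM t - FM A') := by
    intro t ht
    have i1 := pL A' ⟨h1, le_rfl⟩
    have i2 := pM t ht
    refine ⟨i1.1.trans i2.1, ?_⟩
    rw [← intervalIntegral.integral_add_adjacent_intervals i1.1 i2.1, i1.2, i2.2, vL]
  have ψR : ∀ t ∈ Set.Icc B' B,
      ∫ s in A..t, D s = N * eL * q / 2 + bL * q + (FM B' - FM A') + (FR t - FR B') := by
    intro t ht
    have i1 := ψM B' ⟨hA'B', le_rfl⟩
    have i2 := pR t ht
    rw [← intervalIntegral.integral_add_adjacent_intervals i1.1 i2.1, i1.2, i2.2]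
  refine ⟨β, ?_, ?_, ?_, ?_, ?_⟩
  · rw [hβ]
    refine Measurable.ite measurableSet_Iic measurable_const ?_
    refine Measurable.ite measurableSet_Iic measurable_const ?_
    refine Measurable.ite measurableSet_Iic measurable_const ?_
    exact Measurable.ite measurableSet_Iic measurable_const measurable_const
  · intro t
    have : (0 : ℝ) ≤ 2 / (τ * |l|) := by positivity
    simp only [hβ]
    split_ifs
    · simpa using this
    · exact hfr _
    · simpa using this
    · exact hfr _
    · simpa using this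
  · intro t ht
    simp only [hβ]
    rw [Set.mem_Ioc, not_and_or] at ht
    rcases ht with ht | ht
    · rw [if_pos (not_lt.mp ht)]
    · push Not at ht
      rw [if_neg (by linarith), if_neg (by linarith), if_neg (by linarith), if_neg (by linarith)]
  · refine ⟨-⌊-c₂⌋, ?_⟩
    have := ψR B ⟨h3, le_rfl⟩
    simp only [hD] at this
    rw [this]
    have e1 : FR B - FR B' = N * eR * q / 2 + bR * q := by
      simp only [hFR, hBB']; field_simp; ring
    have e2 : bR * q = Int.fract (-c₂) := by rw [hbR]; field_simp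
    rw [e1, e2, Int.fract]
    push_cast
    rw [hc₂]; ring
  intro k
  have hPc : Continuous P := continuous_iff_continuousAt.mpr fun σ => (hP σ).continuousAt
  set G : ℝ → ℂ := fun t => e ((∫ s in A..t, D s) - k * t) with hG
  have gL := integrable_of_eqOn G (fun t => e (N * eL / (2 * q) * t ^ 2
      + (bL - k - N * eL * A / q) * t + (N * eL * A ^ 2 / (2 * q) - bL * A))) A A' h1
    (by fun_prop) (by
      intro t ht
      simp only [hG, ψL t ht, hFL]
      congr 1
      field_simp
      ring)
  have gR := integrable_of_eqOn G (fun t => e (-(N * eR / (2 * q)) * t ^ 2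
      + (bR - k + N * eR * B / q) * t
      + (N * eL * q / 2 + bL * q + (FM B' - FM A') - FR B' - N * eR * B ^ 2 / (2 * q) - bR * B')))
    B' B h3 (by fun_prop) (by
      intro t ht
      simp only [hG, ψR t ht]
      congr 1
      simp only [hFR]
      field_simp
      ring)
  have gM := integrable_of_eqOn G (fun t => (fun σ => e (γ - k * w) *
      e ((N * h * r) * (P σ - ((k / N - x) / r) * σ))) ((t - w) / h)) A' B' hA'B'
    (by fun_prop) (by
      intro t ht
      simp only [hG, (ψM t ht).2]
      rw [← e_add, ← e_add_int _ ⌊γ - c₁⌋]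
      congr 1
      have e2 : bL * q = γ - c₁ - ⌊γ - c₁⌋ := by rw [hbL, Int.fract]; field_simp
      rw [e2, hc₁]
      simp only [hFM]
      field_simp
      ring)
  have hsplit : ∫ t in A..B, G t = (∫ t in A..A', G t) + (∫ t in A'..B', G t)
      + ∫ t in B'..B, G t := by
    rw [intervalIntegral.integral_add_adjacent_intervals gL.1 gM.1,
      intervalIntegral.integral_add_adjacent_intervals (gL.1.trans gM.1) gR.1]
  have hmain : ∫ t in A'..B', G t = ((|h| : ℝ) : ℂ) * (e (γ - k * w) * ∫ σ in (-1 : ℝ)..1,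
      e ((N * h * r) * (P σ - ((k / N - x) / r) * σ))) := by
    rw [gM.2, hA', hB', subst_main (fun σ => e (γ - k * w) *
      e ((N * h * r) * (P σ - ((k / N - x) / r) * σ))) w h hh0,
      intervalIntegral.integral_const_mul]
  have hbound : ∀ E : ℝ, d ≤ E → 3 / √(N * E / (2 * q)) ≤ 3 / √(N * d / (τ * |l|)) := by
    intro E hE
    have : 2 * q = τ * |l| := by rw [hq]; ring
    rw [this]
    have hpos : 0 < N * d / (τ * |l|) := by positivity
    gcongr
  have bL' : ‖∫ t in A..A', G t‖ ≤ 3 / √(N * d / (τ * |l|)) := by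
    have hpos : 0 < N * eL / (2 * q) := by
      have : 0 < eL := by linarith
      positivity
    rw [gL.2]
    refine (quad_bound _ _ _ _ _ hpos.ne').trans ?_
    rw [abs_of_pos hpos]
    exact hbound eL heLb.1
  have bR' : ‖∫ t in B'..B, G t‖ ≤ 3 / √(N * d / (τ * |l|)) := by
    have hpos : 0 < N * eR / (2 * q) := by
      have : 0 < eR := by linarith
      positivity
    rw [gR.2]
    refine (quad_bound _ _ _ _ _ (neg_ne_zero.mpr hpos.ne')).trans ?_
    rw [abs_neg, abs_of_pos hpos]
    exact hbound eR heRb.1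
  change ‖(∫ t in A..B, G t) - _‖ ≤ _
  rw [hsplit, ← hmain]
  have : (∫ t in A..A', G t) + (∫ t in A'..B', G t) + (∫ t in B'..B, G t) - ∫ t in A'..B', G t
      = (∫ t in A..A', G t) + ∫ t in B'..B, G t := by ring
  rw [this]
  refine (norm_add_le _ _).trans ?_
  have : 6 / √(N * d / (τ * |l|)) = 3 / √(N * d / (τ * |l|)) + 3 / √(N * d / (τ * |l|)) := by
    ring
  rw [this]
  exact add_le_add bL' bR'

end Vale.Agent.P110.Flat
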