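import Vale.Agent.P110.Arcs

namespace Vale.Agent.P110

open Finset MeasureTheory

theorem exists_cells (δ : ℝ) (hδ : 0 < δ) : ∃ (Bk C : Type) (_ : Fintype Bk)
    (_ : Fintype C) (_ : DecidableEq Bk) (blk : C → Bk) (w l : C → ℝ) (α : C → ℂ)
    (lam : Bk → ℝ), (∀ b, 0 < lam b) ∧ (∀ c, l c ≠ 0) ∧
    (∀ c, ‖α c‖ ^ 2 = |l c| / lam (blk c)) ∧
    (∀ c, 0 ≤ w c - |l c| / 2 ∧ w c + |l c| / 2 ≤ 1 / 2) ∧
    (∀ c c', c ≠ c' → w c + |l c| / 2 ≤ w c' - |l c'| / 2 ∨ w c' + |l c'| / 2 ≤ w c - |l c| / 2) ∧
    ∑ c, |l c| = 1 / 2 ∧ ∑ b, lam b ≤ 1 + δ ∧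
    ∀ (b : Bk) (θ : ℝ) (k : ℤ),
      |2 * (∑ c ∈ univ.filter (fun c => blk c = b),
        α c * e (l c * θ + k * w c)).re| ≤ 1 + δ := by
  classical
  obtain ⟨G, Bk, C, _, _, _, blk, X, j, α, lam, hG, hlam, hj, hα, hs1, hs2, hsum, hcard, hblk⟩ :=
    exists_arcs (δ / 3) (by positivity)
  have hG' : (0 : ℝ) < G := by exact_mod_cast hG
  have hz : ∀ c, ∃ y z : ℤ, X c = y + G * z ∧ 2 * |y| ≤ G := by
    intro c
    obtain ⟨z, hz⟩ := Int.dvd_bmod_sub_self (x := X c) (m := G)
    have h1 := Int.le_bmod (x := X c) hG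
    have h2 := Int.bmod_lt (x := X c) hG
    refine ⟨Int.bmod (X c) G, -z, by linarith, ?_⟩
    rcases abs_cases (Int.bmod (X c) G) with h | h <;> omega
  choose y z hyz hy using hz
  have ha : ∀ c, ∃ a : ℕ, (a : ℤ) + j c = 2 * |y c| ∧ a + 2 * j c ≤ G := by
    intro c
    have h1 := hs2 c c (2 * z c)
    have h2 := hs2 c c (2 * z c + 1)
    have h3 := hs2 c c (2 * z c - 1)
    have h4 := hy c
    rw [hyz c, show y c + G * z c + (y c + G * z c) - G * (2 * z c) = 2 * y c by ring] at h1
    rw [hyz c, show y c + G * z c + (y c + G * z c) - G * (2 * z c + 1) = 2 * y c - G by ring] at h2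
    rw [hyz c, show y c + G * z c + (y c + G * z c) - G * (2 * z c - 1) = 2 * y c + G by ring] at h3
    refine ⟨(2 * |y c| - j c).toNat, ?_, ?_⟩ <;>
      rcases abs_cases (y c) with h | h <;> rcases abs_cases (2 * y c) with h' | h' <;>
      rcases abs_cases (2 * y c - G) with h'' | h'' <;>
      rcases abs_cases (2 * y c + G) with h''' | h''' <;> omega
  choose a ha1 ha2 using ha
  have hsep : ∀ c c', c ≠ c' → a c + 2 * j c ≤ a c' ∨ a c' + 2 * j c' ≤ a c := by
    intro c c' hne
    have h1 := hs1 c c' hne (z c - z c')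
    have h2 := hs2 c c' (z c + z c')
    rw [hyz c, hyz c', show y c + G * z c - (y c' + G * z c') - G * (z c - z c') = y c - y c' by
      ring] at h1
    rw [hyz c, hyz c', show y c + G * z c + (y c' + G * z c') - G * (z c + z c') = y c + y c' by
      ring] at h2
    have h3 := ha1 c
    have h4 := ha1 c'
    rcases abs_cases (y c) with h | h <;> rcases abs_cases (y c') with h' | h' <;>
      rcases abs_cases (y c - y c') with h'' | h'' <;>
      rcases abs_cases (y c + y c') with h''' | h''' <;> omega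
  set U : Finset ℕ := univ.biUnion (fun c => Ico (a c) (a c + 2 * j c)) with hU
  have hUsub : U ⊆ range G := by
    intro i hi
    obtain ⟨c, -, hc⟩ := mem_biUnion.1 hi
    have := ha2 c
    have := (mem_Ico.1 hc).2
    rw [mem_range]
    omega
  have hUcard : U.card = ∑ c, 2 * j c := by
    rw [hU, card_biUnion]
    · simp
    · intro c _ c' _ hne
      rw [Function.onFun, disjoint_left]
      intro i h1 h2
      rw [mem_Ico] at h1 h2
      have := hsep c c' hne
      omega
  set Gap : Finset ℕ := range G \ U with hGap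
  have hGapcard : (Gap.card : ℝ) + 2 * ∑ c, (j c : ℝ) = G := by
    have := card_sdiff_add_card_eq_card hUsub
    rw [hUcard, card_range, ← mul_sum] at this
    exact_mod_cast this
  set st : C ⊕ Gap → ℕ := Sum.elim a (fun i => i.1) with hst
  set ln : C ⊕ Gap → ℕ := Sum.elim (fun c => 2 * j c) (fun _ => 1) with hln
  set sg : C ⊕ Gap → ℝ := Sum.elim (fun c => if 0 ≤ y c then 1 else -1) (fun _ => 1) with hsg
  have hsg1 : ∀ c, |sg c| = 1 := by
    rintro (c | i)
    · simp only [hsg, Sum.elim_inl]
      split_ifs <;> simp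
    · simp [hsg]
  have hl : ∀ c, |sg c * (ln c / (2 * G))| = ln c / (2 * G) := fun c => by
    rw [abs_mul, hsg1, one_mul, abs_of_nonneg (by positivity)]
  have hln0 : ∀ c, 0 < ln c := by
    rintro (c | i)
    · have := hj c
      simp only [hln, Sum.elim_inl]
      omega
    · simp [hln]
  have hin : ∀ c, st c + ln c ≤ G := by
    rintro (c | i)
    · exact ha2 c
    · exact mem_range.1 (mem_sdiff.1 i.2).1
  have hgap : ∀ (c : C) (i : Gap), a c + 2 * j c ≤ i.1 ∨ i.1 + 1 ≤ a c := by
    intro c i
    have h1 := (mem_sdiff.1 i.2).2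
    by_contra h
    exact h1 (mem_biUnion.2 ⟨c, mem_univ _, mem_Ico.2 (by omega)⟩)
  have hdisj : ∀ c c', c ≠ c' → st c + ln c ≤ st c' ∨ st c' + ln c' ≤ st c := by
    rintro (c | i) (c' | i') hne
    · exact hsep c c' fun h => hne (by rw [h])
    · exact hgap c i'
    · exact (hgap c' i).symm
    · have : i.1 ≠ i'.1 := fun h => hne (by rw [Subtype.ext h])
      simp only [hst, hln, Sum.elim_inr]
      omega
  have hlo : ∀ c, (2 * (st c : ℝ) + ln c) / (4 * G) - ln c / (2 * G) / 2 = st c / (2 * G) :=
    fun c => by field_simp; ring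
  have hhi : ∀ c, (2 * (st c : ℝ) + ln c) / (4 * G) + ln c / (2 * G) / 2 =
      ((st c + ln c : ℕ) : ℝ) / (2 * G) := fun c => by push_cast; field_simp; ring
  refine ⟨Bk ⊕ Gap, C ⊕ Gap, inferInstance, inferInstance, inferInstance, Sum.map blk id,
    fun c => (2 * (st c : ℝ) + ln c) / (4 * G), fun c => sg c * (ln c / (2 * G)),
    Sum.elim (fun c => if 0 ≤ y c then α c else (starRingEnd ℂ) (α c)) (fun _ => 1 / 2),
    Sum.elim (fun _ => lam) (fun _ => 2 / G), ?_, fun c => ?_, ?_, fun c => ?_, fun c c' hne => ?_,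
    ?_, ?_, ?_⟩
  · rintro (b | i)
    · exact hlam
    · simp only [Sum.elim_inr]
      positivity
  · rw [← abs_pos, hl]
    have := hln0 c
    positivity
  · rintro (c | i)
    · rw [hl]
      have : ‖(if 0 ≤ y c then α c else (starRingEnd ℂ) (α c))‖ = ‖α c‖ := by
        split_ifs
        · rfl
        · exact Complex.norm_conj _
      simp only [Sum.elim_inl, Sum.map_inl, this, hα, hln]
      push_cast
      field_simp
    · rw [hl]
      simp only [Sum.elim_inr, Sum.map_inr, hln]
      norm_num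
      field_simp
      norm_num
  · rw [hl, hlo, hhi]
    refine ⟨by positivity, ?_⟩
    rw [div_le_div_iff₀ (by positivity) (by norm_num)]
    have : ((st c + ln c : ℕ) : ℝ) ≤ G := by exact_mod_cast hin c
    linarith
  · rw [hl, hl, hlo, hhi, hlo, hhi]
    refine (hdisj c c' hne).imp (fun h => ?_) (fun h => ?_)
    · exact div_le_div_of_nonneg_right (by exact_mod_cast h) (by positivity)
    · exact div_le_div_of_nonneg_right (by exact_mod_cast h) (by positivity)
  · simp only [hl]
    rw [← sum_div, Fintype.sum_sum_type]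
    simp only [hln, Sum.elim_inl, Sum.elim_inr, Nat.cast_one, sum_const, card_univ,
      Fintype.card_coe, nsmul_eq_mul, mul_one, Nat.cast_mul, Nat.cast_ofNat, ← mul_sum]
    rw [add_comm, hGapcard]
    field_simp
  · rw [Fintype.sum_sum_type]
    simp only [Sum.elim_inl, Sum.elim_inr, sum_const, card_univ, Fintype.card_coe, nsmul_eq_mul]
    have : (Gap.card : ℝ) * (2 / G) ≤ 2 * δ / 3 := by
      rw [mul_div_assoc', div_le_iff₀ hG']
      linarith
    linarith
  · rintro (b | i) θ k
    · refine le_trans (le_of_eq ?_) ((hblk b (θ / G) k).trans (by linarith))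
      congr 2
      rw [sum_filter, sum_filter, Fintype.sum_sum_type]
      simp only [Sum.map_inl, Sum.inl.injEq, Sum.map_inr, reduceCtorEq, if_false, sum_const_zero,
        add_zero, Complex.re_sum]
      refine sum_congr rfl fun c _ => ?_
      by_cases hb : blk c = b
      swap
      · simp only [hb, if_false]
      simp only [hb, if_true, Sum.elim_inl, hsg, hst, hln]
      have h1 : (a c : ℝ) = 2 * ((|y c| : ℤ) : ℝ) - j c := by
        have : ((a c : ℤ) : ℝ) + ((j c : ℤ) : ℝ) = ((2 * |y c| : ℤ) : ℝ) := by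
          exact_mod_cast ha1 c
        push_cast at this ⊢
        linarith
      have h2 : (X c : ℝ) = y c + G * z c := by exact_mod_cast hyz c
      have h3 : e (j c * (θ / G) + k * (X c / G)) = e (j c * (θ / G) + k * (y c / G)) := by
        rw [← e_add_int (j c * (θ / G) + k * (y c / G)) (k * z c), h2]
        congr 1
        push_cast
        field_simp
        ring
      rw [h3, h1]
      split_ifs with hy0
      · rw [abs_of_nonneg hy0]
        congr 3
        push_cast
        field_simp
        ring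
      · rw [abs_of_neg (not_le.1 hy0), ← Complex.conj_re (α c * _), map_mul, conj_e]
        congr 3
        push_cast
        field_simp
        ring
    · have : (univ.filter (fun c : C ⊕ Gap => Sum.map blk id c = Sum.inr i)) = {Sum.inr i} := by
        ext c
        rcases c with c | c <;> simp
      rw [this, sum_singleton, abs_mul]
      refine le_trans ?_ (show (1 : ℝ) ≤ 1 + δ by linarith)
      have h1 := Complex.abs_re_le_norm ((1 / 2 : ℂ) * e (sg (Sum.inr i) *
        (ln (Sum.inr i) / (2 * G)) * θ + k * ((2 * (st (Sum.inr i) : ℝ) + ln (Sum.inr i)) / (4 * G))))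
      rw [norm_mul, norm_e] at h1
      norm_num at h1 ⊢
      linarith

end Vale.Agent.P110
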