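import Vale.Agent.P110.Basic

/-! Gluing cell phases to one odd phase with periodic exponential. -/

namespace Vale.Agent.P110
open Finset MeasureTheory

namespace Glue

lemma measurable_r : Measurable fun x : ℝ => |x - round x| := by
  have h1 : Measurable fun x : ℝ => ((round x : ℤ) : ℝ) := by
    simp_rw [round_eq]
    exact (measurable_of_countable (fun z : ℤ => (z : ℝ))).comp
      (Measurable.floor (measurable_id.add_const _))
  exact (measurable_id.sub h1).abs

lemma r_neg (x : ℝ) : |-x - round (-x)| = |x - round x| := by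
  have h : ∀ y : ℝ, |-y - round (-y)| ≤ |y - round y| := by
    intro y
    refine (round_le (-y) (-round y)).trans_eq ?_
    rw [← abs_neg]
    congr 1
    push_cast
    ring
  refine le_antisymm (h x) ?_
  have := h (-x)
  rwa [neg_neg] at this

lemma r_add_one (x : ℝ) : |x + 1 - round (x + 1)| = |x - round x| := by
  rw [round_add_one]
  congr 1
  push_cast
  ring

lemma r_eq (x : ℝ) (h0 : 0 ≤ x) (h : x ≤ 1 / 2) : |x - round x| = x := by
  refine le_antisymm ?_ ?_
  · refine (round_le x 0).trans_eq ?_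
    rw [Int.cast_zero, sub_zero, abs_of_nonneg h0]
  · rcases le_or_gt (round x) 0 with h1 | h1
    · have : ((round x : ℤ) : ℝ) ≤ 0 := by exact_mod_cast h1
      exact le_trans (by linarith) (le_abs_self _)
    · have : (1 : ℝ) ≤ ((round x : ℤ) : ℝ) := by exact_mod_cast h1
      exact le_trans (by linarith) (neg_le_abs _)

lemma bdd_int (f : ℝ → ℝ) (hf : Measurable f) (M : ℝ) (h : ∀ x, |f x| ≤ M) (a b : ℝ) :
    IntervalIntegrable f volume a b :=
  (intervalIntegrable_const (c := M)).mono_fun' hf.aestronglyMeasurable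
    (Filter.Eventually.of_forall h)

lemma partition {C : Type} [Fintype C] (A B : C → ℝ)
    (hAB : ∀ c, 0 ≤ A c ∧ A c ≤ B c ∧ B c ≤ 1 / 2)
    (hdisj : ∀ c c', c ≠ c' → B c ≤ A c' ∨ B c' ≤ A c) (hsum : ∑ c, (B c - A c) = 1 / 2)
    (h : ℝ → ℂ) (hh : Continuous h) :
    ∫ t in (0 : ℝ)..(1 / 2), h t = ∑ c, ∫ t in A c..B c, h t := by
  have hd : Pairwise (Function.onFun Disjoint fun c => Set.Ioc (A c) (B c)) := by
    intro c c' hc
    refine Set.disjoint_left.mpr fun x hx hx' => ?_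
    rcases hdisj c c' hc with h1 | h1
    · linarith [hx.2, hx'.1]
    · linarith [hx.1, hx'.2]
  have hae : (⋃ c, Set.Ioc (A c) (B c) : Set ℝ) =ᵐ[volume] Set.Ioc (0 : ℝ) (1 / 2) := by
    refine ae_eq_of_subset_of_measure_ge ?_ ?_ ?_ ?_
    · refine Set.iUnion_subset fun c => Set.Ioc_subset_Ioc (hAB c).1 (hAB c).2.2
    · rw [measure_iUnion hd fun c => measurableSet_Ioc, tsum_fintype]
      simp_rw [Real.volume_Ioc]
      rw [← ENNReal.ofReal_sum_of_nonneg fun c _ => sub_nonneg.mpr (hAB c).2.1, hsum, sub_zero]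
    · exact (MeasurableSet.iUnion fun c => measurableSet_Ioc).nullMeasurableSet
    · simp
  rw [intervalIntegral.integral_of_le (by norm_num), ← setIntegral_congr_set hae,
    integral_iUnion_fintype (fun c => measurableSet_Ioc) hd
      fun c => (hh.intervalIntegrable _ _).1]
  exact sum_congr rfl fun c _ => (intervalIntegral.integral_of_le (hAB c).2.1).symm

lemma zero_left (f : ℝ → ℝ) (A B : ℝ) (h0 : ∀ t, t ∉ Set.Ioc A B → f t = 0) (a b : ℝ)
    (ha : a ≤ A) (hb : b ≤ A) : ∫ x in a..b, f x = 0 := by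
  refine intervalIntegral.integral_zero_ae (Filter.Eventually.of_forall fun x hx => h0 x ?_)
  intro hx'
  have := hx.2
  have h2 : max a b ≤ A := max_le ha hb
  linarith [hx'.1]

lemma zero_right (f : ℝ → ℝ) (A B : ℝ) (h0 : ∀ t, t ∉ Set.Ioc A B → f t = 0) (a b : ℝ)
    (ha : B ≤ a) (hb : B ≤ b) : ∫ x in a..b, f x = 0 := by
  refine intervalIntegral.integral_zero_ae (Filter.Eventually.of_forall fun x hx => h0 x ?_)
  intro hx'
  have := hx.1
  have h2 : B ≤ min a b := le_min ha hb
  linarith [hx'.2]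

lemma from_zero (f : ℝ → ℝ) (hf : ∀ a b, IntervalIntegrable f volume a b) (A B : ℝ) (hA : 0 ≤ A)
    (h0 : ∀ t, t ∉ Set.Ioc A B → f t = 0) (t : ℝ) :
    ∫ x in (0 : ℝ)..t, f x = ∫ x in A..t, f x := by
  rw [← intervalIntegral.integral_add_adjacent_intervals (hf 0 A) (hf A t),
    zero_left f A B h0 0 A hA le_rfl, zero_add]

lemma past (f : ℝ → ℝ) (hf : ∀ a b, IntervalIntegrable f volume a b) (A B : ℝ) (hA : 0 ≤ A)
    (h0 : ∀ t, t ∉ Set.Ioc A B → f t = 0) (t : ℝ) (ht : B ≤ t) :
    ∫ x in (0 : ℝ)..t, f x = ∫ x in A..B, f x := by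
  rw [from_zero f hf A B hA h0, ← intervalIntegral.integral_add_adjacent_intervals (hf A B) (hf B t),
    zero_right f A B h0 B t le_rfl ht, add_zero]

lemma e_sum_int {C : Type} (s : Finset C) (g : C → ℝ) (h : ∀ c ∈ s, ∃ z : ℤ, g c = z) :
    ∃ z : ℤ, ∑ c ∈ s, g c = z := by
  classical
  induction s using Finset.induction_on with
  | empty => exact ⟨0, by simp⟩
  | insert a s ha ih =>
    obtain ⟨z, hz⟩ := ih fun c hc => h c (mem_insert_of_mem hc)
    obtain ⟨w, hw⟩ := h a (mem_insert_self _ _)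
    exact ⟨w + z, by rw [sum_insert ha, hz, hw]; push_cast; ring⟩

end Glue

open _root_.Vale.Agent.P110.Glue in
theorem glue {C : Type} [Fintype C] (A B : C → ℝ)
    (hAB : ∀ c, 0 ≤ A c ∧ A c ≤ B c ∧ B c ≤ 1 / 2)
    (hdisj : ∀ c c', c ≠ c' → B c ≤ A c' ∨ B c' ≤ A c) (hsum : ∑ c, (B c - A c) = 1 / 2)
    (D : C → ℝ → ℝ) (hDm : ∀ c, Measurable (D c)) (M : ℝ) (hDb : ∀ c t, |D c t| ≤ M)
    (hD0 : ∀ c t, t ∉ Set.Ioc (A c) (B c) → D c t = 0)
    (hint : ∀ c, ∃ z : ℤ, ∫ t in A c..B c, D c t = z) :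
    ∃ φ : ℝ → ℝ, Continuous φ ∧ (∀ t, e (φ (t + 1)) = e (φ t)) ∧
      (∀ t s ξ E : ℝ, (∀ x, |x - t| ≤ |s| → |∑ c, D c (|x - round x|) - ξ| ≤ E) →
        |φ (t + s) - φ t - ξ * s| ≤ E * |s|) ∧
      ∀ k : ℤ, ∫ t in (-1 / 2 : ℝ)..(1 / 2), e (φ t) * e (-(k * t))
        = ((2 * (∑ c, ∫ t in A c..B c, e ((∫ x in A c..t, D c x) - k * t)).re : ℝ) : ℂ) := by
  classical
  set G : ℝ → ℝ := fun x => ∑ c, D c (|x - round x|) with hG
  have hDi : ∀ c a b, IntervalIntegrable (D c) volume a b :=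
    fun c => bdd_int (D c) (hDm c) M (hDb c)
  have hGm : Measurable G := Finset.measurable_sum _ fun c _ => (hDm c).comp measurable_r
  have hGi : ∀ a b, IntervalIntegrable G volume a b :=
    bdd_int G hGm (∑ _c : C, M) fun x =>
      (abs_sum_le_sum_abs _ _).trans (sum_le_sum fun c _ => hDb c _)
  have hGneg : ∀ x, G (-x) = G x := fun x => by simp only [hG, r_neg]
  have hGper : Function.Periodic G 1 := fun x => by simp only [hG, r_add_one]
  set φ : ℝ → ℝ := fun t => ∫ x in (0 : ℝ)..t, G x with hφ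
  have hφc : Continuous φ := intervalIntegral.continuous_primitive hGi 0
  have hsub : ∀ a b, φ b - φ a = ∫ x in a..b, G x := fun a b =>
    intervalIntegral.integral_interval_sub_left (hGi 0 b) (hGi 0 a)
  have hodd : ∀ t, φ (-t) = -φ t := by
    intro t
    have h1 := intervalIntegral.integral_comp_neg (a := 0) (b := t) G
    simp only [hGneg, neg_zero] at h1
    simp only [hφ]
    rw [h1, intervalIntegral.integral_symm]
  have hφF : ∀ t, 0 ≤ t → t ≤ 1 / 2 → φ t = ∑ c, ∫ x in (0 : ℝ)..t, D c x := by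
    intro t h0 h1
    rw [← intervalIntegral.integral_finsetSum fun c _ => hDi c 0 t]
    refine intervalIntegral.integral_congr fun x hx => ?_
    rw [Set.uIcc_of_le h0] at hx
    simp only [hG]
    rw [r_eq x hx.1 (hx.2.trans h1)]
  have hhalf : ∃ z : ℤ, φ (1 / 2) = z := by
    rw [hφF _ (by norm_num) le_rfl]
    refine e_sum_int _ _ fun c _ => ?_
    rw [past (D c) (hDi c) (A c) (B c) (hAB c).1 (hD0 c) _ (hAB c).2.2]
    exact hint c
  have hcell : ∀ c t, A c ≤ t → t ≤ B c → ∃ z : ℤ, φ t = (∫ x in A c..t, D c x) + z := by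
    intro c t h1 h2
    rw [hφF t ((hAB c).1.trans h1) (h2.trans (hAB c).2.2), ← add_sum_erase _ _ (mem_univ c),
      from_zero (D c) (hDi c) (A c) (B c) (hAB c).1 (hD0 c)]
    obtain ⟨z, hz⟩ := e_sum_int (univ.erase c) (fun c' => ∫ x in (0 : ℝ)..t, D c' x) (by
      intro c' hc'
      rcases hdisj c c' (ne_of_mem_erase hc').symm with h3 | h3
      · exact ⟨0, by
          rw [zero_left (D c') (A c') (B c') (hD0 c') 0 t (hAB c').1 (h2.trans h3)]; simp⟩
      · rw [past (D c') (hDi c') (A c') (B c') (hAB c').1 (hD0 c') t (h3.trans h1)]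
        exact hint c')
    exact ⟨z, by rw [hz]⟩
  refine ⟨φ, hφc, fun t => ?_, fun t s ξ E hE => ?_, fun k => ?_⟩
  · obtain ⟨z, hz⟩ := hhalf
    have h1 := hGper.intervalIntegral_add_eq t (-(1 / 2))
    rw [← hsub, ← hsub, show (-(1 / 2) + 1 : ℝ) = 1 / 2 by norm_num, hodd, hz] at h1
    rw [show φ (t + 1) = φ t + ((2 * z : ℤ) : ℝ) by push_cast; linarith, e_add_int]
  · have h1 : φ (t + s) - φ t - ξ * s = ∫ x in t..(t + s), (G x - ξ) := by
      rw [intervalIntegral.integral_sub (hGi _ _) intervalIntegrable_const, hsub,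
        intervalIntegral.integral_const, smul_eq_mul]
      ring
    rw [h1]
    have h2 := intervalIntegral.norm_integral_le_of_norm_le_const (a := t) (b := t + s) (C := E)
      (f := fun x => G x - ξ) (by
        intro x hx
        refine hE x ?_
        have := Set.abs_sub_left_of_mem_uIcc (Set.uIoc_subset_uIcc hx)
        rwa [add_sub_cancel_left] at this)
    rwa [add_sub_cancel_left] at h2
  · set h : ℝ → ℂ := fun t => e (φ t) * e (-(k * t)) with hh
    have hhc : Continuous h :=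
      (continuous_e.comp hφc).mul (continuous_e.comp (by fun_prop))
    have hconj : ∀ t, h (-t) = (starRingEnd ℂ) (h t) := by
      intro t
      simp only [hh]
      rw [map_mul, conj_e, conj_e, hodd, mul_neg]
    have h1 : ∫ t in (-1 / 2 : ℝ)..0, h t = (starRingEnd ℂ) (∫ t in (0 : ℝ)..(1 / 2), h t) := by
      have h2 := intervalIntegral.integral_comp_neg (a := 0) (b := 1 / 2) h
      rw [neg_zero, show (-(1 / 2) : ℝ) = -1 / 2 by norm_num] at h2
      rw [← h2, ← intervalIntegral.intervalIntegral_conj]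
      simp only [hconj]
    have h3 : ∫ t in (0 : ℝ)..(1 / 2), h t
        = ∑ c, ∫ t in A c..B c, e ((∫ x in A c..t, D c x) - k * t) := by
      rw [partition A B hAB hdisj hsum h hhc]
      refine sum_congr rfl fun c _ => intervalIntegral.integral_congr fun t ht => ?_
      rw [Set.uIcc_of_le (hAB c).2.1] at ht
      obtain ⟨z, hz⟩ := hcell c t ht.1 ht.2
      simp only [hh]
      rw [hz, e_add_int, e_sub]
    rw [← intervalIntegral.integral_add_adjacent_intervals (b := 0) (hhc.intervalIntegrable _ _)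
      (hhc.intervalIntegrable _ _), h1, h3, add_comm, Complex.add_conj]

end Vale.Agent.P110
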