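import Vale.Agent.P110.Basic

/-! De la Vallee Poussin truncation of a locally linear phase. -/

namespace Vale.Agent.P110
open Finset MeasureTheory

namespace Trunc

/-- the Dirichlet type kernel -/
noncomputable def D (m : ℕ) (s : ℝ) : ℂ := ∑ a ∈ range m, e (-(a * s))

lemma continuous_D (m : ℕ) : Continuous (D m) := by
  unfold D
  exact continuous_finsetSum _ fun a _ => continuous_e.comp (by fun_prop)

lemma int_e (j : ℤ) : ∫ s in (-1 / 2 : ℝ)..(1 / 2), e (j * s) = if j = 0 then 1 else 0 := by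
  have := integral_e_int j (-1 / 2)
  rw [show (-1 / 2 : ℝ) + 1 = 1 / 2 by norm_num] at this
  exact this

lemma int_normSq_D (m : ℕ) : ∫ s in (-1 / 2 : ℝ)..(1 / 2), ‖D m s‖ ^ 2 = m := by
  have h1 : ∀ s : ℝ, ((‖D m s‖ ^ 2 : ℝ) : ℂ)
      = ∑ a ∈ range m, ∑ b ∈ range m, e ((((b : ℤ) - (a : ℤ) : ℤ) : ℝ) * s) := by
    intro s
    rw [← Complex.normSq_eq_norm_sq, ← Complex.mul_conj, D, map_sum, sum_mul_sum]
    refine sum_congr rfl fun a _ => sum_congr rfl fun b _ => ?_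
    rw [conj_e, ← e_add]
    congr 1
    push_cast
    ring
  have h2 : ((∫ s in (-1 / 2 : ℝ)..(1 / 2), ‖D m s‖ ^ 2 : ℝ) : ℂ) = m := by
    rw [← intervalIntegral.integral_ofReal]
    simp_rw [h1]
    rw [intervalIntegral.integral_finsetSum]
    · have : ∀ a ∈ range m, ∫ s in (-1 / 2 : ℝ)..(1 / 2),
          ∑ b ∈ range m, e ((((b : ℤ) - (a : ℤ) : ℤ) : ℝ) * s) = 1 := by
        intro a ha
        rw [intervalIntegral.integral_finsetSum]
        · simp_rw [int_e, sub_eq_zero, Nat.cast_inj]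
          rw [sum_ite_eq' (range m) a, if_pos ha]
        · intro b _
          exact (continuous_e.comp (by fun_prop)).intervalIntegrable _ _
      rw [sum_congr rfl this]
      simp
    · intro a _
      exact (continuous_finsetSum _ fun b _ =>
        continuous_e.comp (by fun_prop)).intervalIntegrable _ _
  exact_mod_cast h2

lemma norm_e_sub_one_ge (s : ℝ) (h : |s| ≤ 1 / 2) : 4 * |s| ≤ ‖e s - 1‖ := by
  have hpi := Real.pi_pos
  unfold e
  rw [mul_comm _ Complex.I, Complex.norm_exp_I_mul_ofReal_sub_one]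
  have h1 : |Real.pi * s| ≤ Real.pi / 2 := by
    rw [abs_mul, abs_of_pos hpi]
    nlinarith
  have h2 := Real.mul_abs_le_abs_sin h1
  rw [show 2 * Real.pi * s / 2 = Real.pi * s by ring, Real.norm_eq_abs, abs_mul,
    abs_of_pos (by norm_num : (0 : ℝ) < 2)]
  rw [abs_mul, abs_of_pos hpi] at h2
  have h3 : 2 / Real.pi * (Real.pi * |s|) = 2 * |s| := by field_simp
  linarith

lemma norm_D_le (m : ℕ) (s : ℝ) (h0 : s ≠ 0) (h : |s| ≤ 1 / 2) : ‖D m s‖ ≤ 1 / (2 * |s|) := by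
  have hs : 0 < |s| := abs_pos.mpr h0
  have h1 : D m s * (e (-s) - 1) = e (-s) ^ m - 1 := by
    rw [← geom_sum_mul]
    congr 1
    refine sum_congr rfl fun a _ => ?_
    rw [← e_nat_mul]
    congr 1
    ring
  have h2 : ‖e (-s) ^ m - 1‖ ≤ 2 := by
    refine (norm_sub_le _ _).trans ?_
    rw [norm_pow, norm_e, one_pow, norm_one]
    norm_num
  have h3 := norm_e_sub_one_ge (-s) (by rwa [abs_neg])
  rw [abs_neg] at h3
  rw [← h1, norm_mul] at h2
  rw [le_div_iff₀ (by positivity)]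
  have h4 := norm_nonneg (D m s)
  nlinarith

/-- the kernel -/
noncomputable def W (k₀ : ℤ) (m n : ℕ) (s : ℝ) : ℂ :=
  (1 / (n : ℂ)) * (e (-(k₀ * s)) * (D m s * D n s))

lemma continuous_W (k₀ : ℤ) (m n : ℕ) : Continuous (W k₀ m n) := by
  unfold W
  exact continuous_const.mul ((continuous_e.comp (by fun_prop)).mul
    ((continuous_D m).mul (continuous_D n)))

lemma W_eq (k₀ : ℤ) (m n : ℕ) (s : ℝ) : W k₀ m n s
    = (1 / (n : ℂ)) * ∑ p ∈ range m ×ˢ range n, e (-((k₀ + (p.1 + p.2 : ℕ)) * s)) := by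
  unfold W D
  rw [sum_mul_sum, sum_product, mul_sum]
  congr 1
  refine sum_congr rfl fun a _ => ?_
  rw [mul_sum]
  refine sum_congr rfl fun b _ => ?_
  rw [← e_add, ← e_add]
  congr 1
  push_cast
  ring

lemma norm_W (k₀ : ℤ) (m n : ℕ) (s : ℝ) :
    ‖W k₀ m n s‖ = 1 / (n : ℝ) * (‖D m s‖ * ‖D n s‖) := by
  unfold W
  rw [norm_mul, norm_mul, norm_mul, norm_e, one_mul]
  simp

lemma norm_W_le (k₀ : ℤ) (m n : ℕ) (s : ℝ) (h0 : s ≠ 0) (h : |s| ≤ 1 / 2) :
    ‖W k₀ m n s‖ ≤ 1 / (n : ℝ) * (1 / (4 * s ^ 2)) := by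
  rw [norm_W]
  have hs : 0 < |s| := abs_pos.mpr h0
  refine mul_le_mul_of_nonneg_left ?_ (by positivity)
  calc ‖D m s‖ * ‖D n s‖ ≤ (1 / (2 * |s|)) * (1 / (2 * |s|)) :=
        mul_le_mul (norm_D_le m s h0 h) (norm_D_le n s h0 h) (norm_nonneg _) (by positivity)
    _ = 1 / (4 * s ^ 2) := by
        rw [← sq_abs s]; field_simp; norm_num

lemma int_norm_W (k₀ : ℤ) (m n N : ℕ) (hn : 0 < n) (hN : 0 < N) (hm : m ≤ N) :
    ∫ s in (-1 / 2 : ℝ)..(1 / 2), ‖W k₀ m n s‖ ≤ √(N / n) := by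
  have hn' : (0 : ℝ) < n := by exact_mod_cast hn
  have hN' : (0 : ℝ) < N := by exact_mod_cast hN
  have hm' : (m : ℝ) ≤ N := by exact_mod_cast hm
  set r := √((N : ℝ) / n) with hr
  have hr0 : 0 < r := Real.sqrt_pos.mpr (by positivity)
  have hr2 : r ^ 2 = N / n := Real.sq_sqrt (by positivity)
  have c1 : Continuous fun s => 1 / (2 * n * r) * ‖D m s‖ ^ 2 :=
    continuous_const.mul ((continuous_D m).norm.pow 2)
  have c2 : Continuous fun s => r / (2 * n) * ‖D n s‖ ^ 2 :=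
    continuous_const.mul ((continuous_D n).norm.pow 2)
  have hle : ∫ s in (-1 / 2 : ℝ)..(1 / 2), ‖W k₀ m n s‖ ≤
      ∫ s in (-1 / 2 : ℝ)..(1 / 2), (1 / (2 * n * r) * ‖D m s‖ ^ 2 + r / (2 * n) * ‖D n s‖ ^ 2) := by
    refine intervalIntegral.integral_mono_on (by norm_num)
      ((continuous_W k₀ m n).norm.intervalIntegrable _ _)
      ((c1.add c2).intervalIntegrable _ _) ?_
    intro s _
    rw [norm_W]
    generalize ‖D m s‖ = x
    generalize ‖D n s‖ = y
    have : 1 / (2 * n * r) * x ^ 2 + r / (2 * n) * y ^ 2 - 1 / (n : ℝ) * (x * y)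
        = (x - r * y) ^ 2 / (2 * n * r) := by
      field_simp; ring
    have h2 : 0 ≤ (x - r * y) ^ 2 / (2 * n * r) := by positivity
    linarith
  refine hle.trans ?_
  rw [intervalIntegral.integral_add (c1.intervalIntegrable _ _)
    (c2.intervalIntegrable _ _), intervalIntegral.integral_const_mul,
    intervalIntegral.integral_const_mul, int_normSq_D, int_normSq_D]
  have h3 : 1 / (2 * n * r) * (m : ℝ) ≤ 1 / (2 * n * r) * N :=
    mul_le_mul_of_nonneg_left hm' (by positivity)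
  have h4 : (N : ℝ) = r ^ 2 * n := by rw [hr2]; field_simp
  have h5 : 1 / (2 * n * r) * (N : ℝ) + r / (2 * n) * n = r := by
    rw [h4]; field_simp; ring
  linarith

lemma int_e_W (k₀ ξ : ℤ) (N n : ℕ) (hn : 0 < n) (h2 : 2 * n ≤ N) (h3 : k₀ + n ≤ ξ)
    (h4 : ξ + n ≤ k₀ + N) :
    ∫ s in (-1 / 2 : ℝ)..(1 / 2), e (ξ * s) * W k₀ (N - n + 1) n s = 1 := by
  have hn' : (n : ℂ) ≠ 0 := by exact_mod_cast hn.ne'
  have h1 : ∀ s : ℝ, e (ξ * s) * W k₀ (N - n + 1) n s = (1 / (n : ℂ)) *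
      ∑ p ∈ range (N - n + 1) ×ˢ range n, e (((ξ - k₀ - p.1 - p.2 : ℤ) : ℝ) * s) := by
    intro s
    rw [W_eq, mul_left_comm, mul_sum]
    congr 1
    refine sum_congr rfl fun p _ => ?_
    rw [← e_add]
    congr 1
    push_cast
    ring
  simp_rw [h1]
  rw [intervalIntegral.integral_const_mul, intervalIntegral.integral_finsetSum]
  · simp_rw [int_e]
    rw [sum_product_right]
    have : ∀ b ∈ range n, ∑ a ∈ range (N - n + 1),
        (if ξ - k₀ - ((a, b).1 : ℕ) - ((a, b).2 : ℕ) = 0 then (1 : ℂ) else 0) = 1 := by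
      intro b hb
      rw [mem_range] at hb
      rw [sum_eq_single (ξ - k₀ - b).toNat]
      · rw [if_pos]
        simp only
        omega
      · intro a _ ha
        rw [if_neg]
        simp only
        omega
      · intro h
        exfalso
        apply h
        rw [mem_range]
        omega
    rw [sum_congr rfl this]
    simp [hn']
  · intro p _
    exact (continuous_e.comp (by fun_prop)).intervalIntegrable _ _

lemma shift (u : ℝ → ℂ) (hper : ∀ t, u (t + 1) = u t) (j : ℤ) (t : ℝ) :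
    (∫ s in (-1 / 2 : ℝ)..(1 / 2), u s * e (-(j * s))) * e (j * t)
      = ∫ s in (-1 / 2 : ℝ)..(1 / 2), u (t + s) * e (-(j * s)) := by
  have hp : Function.Periodic (fun s => u s * e (-(j * s))) 1 := by
    intro s
    simp only
    rw [hper, show -((j : ℝ) * (s + 1)) = -(j * s) - j by ring, e_sub_int]
  have h1 := hp.intervalIntegral_add_eq (-1 / 2) (t + -1 / 2)
  rw [show (-1 / 2 : ℝ) + 1 = 1 / 2 by norm_num,
    show t + -1 / 2 + 1 = t + 1 / 2 by ring] at h1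
  rw [h1, ← intervalIntegral.integral_comp_add_left (fun s => u s * e (-(j * s))) t,
    ← intervalIntegral.integral_mul_const]
  refine intervalIntegral.integral_congr fun s _ => ?_
  rw [mul_assoc, ← e_add]
  congr 2
  ring

lemma fiber (N m n : ℕ) (h : m + n ≤ N + 1) (g : ℕ → ℂ) :
    ∑ k : Fin N, (#{p ∈ range m ×ˢ range n | p.1 + p.2 = (k : ℕ)} : ℂ) * g k
      = ∑ p ∈ range m ×ˢ range n, g (p.1 + p.2) := by
  rw [Fin.sum_univ_eq_sum_range
    (fun k => (#{p ∈ range m ×ˢ range n | p.1 + p.2 = k} : ℂ) * g k) N]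
  rw [← sum_fiberwise_of_maps_to (s := range m ×ˢ range n) (t := range N)
    (g := fun p => p.1 + p.2)]
  · refine sum_congr rfl fun k _ => ?_
    rw [sum_congr rfl (g := fun _ => g k)]
    · simp
    · intro p hp
      rw [(mem_filter.mp hp).2]
  · intro p hp
    simp only [mem_product, mem_range] at hp ⊢
    omega

lemma card_le (m n k : ℕ) : #{p ∈ range m ×ˢ range n | p.1 + p.2 = k} ≤ n := by
  refine le_trans (card_le_card_of_injOn (t := range n) Prod.snd ?_ ?_) (by simp)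
  · intro p hp
    simp only [coe_filter, mem_product, mem_range, Set.mem_ofPred_eq, coe_range,
      Set.mem_Iio] at hp ⊢
    exact hp.1.2
  · intro p hp q hq hpq
    simp only [coe_filter, mem_product, mem_range, Set.mem_ofPred_eq] at hp hq
    ext
    · omega
    · exact hpq

lemma int_inv_sq (ρ : ℝ) (hρ : 0 < ρ) (h : ρ ≤ 1 / 2) (c : ℝ) :
    ∫ s in ρ..(1 / 2), c * (1 / s ^ 2) = c * (1 / ρ - 2) := by
  have hd : ∀ x ∈ Set.uIcc ρ (1 / 2), HasDerivAt (fun y : ℝ => -(c * y⁻¹)) (c * (1 / x ^ 2)) x := by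
    intro x hx
    rw [Set.uIcc_of_le h] at hx
    have hx0 : x ≠ 0 := (lt_of_lt_of_le hρ hx.1).ne'
    refine (((hasDerivAt_inv hx0).const_mul c).neg).congr_deriv ?_
    field_simp
  rw [intervalIntegral.integral_eq_sub_of_hasDerivAt hd]
  · field_simp; ring
  · refine ContinuousOn.intervalIntegrable ?_
    refine continuousOn_const.mul (continuousOn_const.div (by fun_prop) ?_)
    intro x hx
    rw [Set.uIcc_of_le h] at hx
    exact pow_ne_zero _ (lt_of_lt_of_le hρ hx.1).ne'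

lemma outer (F : ℝ → ℂ) (ρ c : ℝ) (hρ : 0 < ρ) (h : ρ ≤ 1 / 2) (hc : 0 ≤ c)
    (hF : ∀ s, ρ ≤ s → s ≤ 1 / 2 → ‖F s‖ ≤ c * (1 / s ^ 2)) :
    ‖∫ s in ρ..(1 / 2), F s‖ ≤ c / ρ := by
  have h1 : ‖∫ s in ρ..(1 / 2), F s‖ ≤ ∫ s in ρ..(1 / 2), c * (1 / s ^ 2) := by
    refine intervalIntegral.norm_integral_le_of_norm_le h ?_ ?_
    · exact Filter.Eventually.of_forall fun s hs => hF s hs.1.le hs.2
    · refine ContinuousOn.intervalIntegrable ?_
      refine continuousOn_const.mul (continuousOn_const.div (by fun_prop) ?_)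
      intro x hx
      rw [Set.uIcc_of_le h] at hx
      exact pow_ne_zero _ (lt_of_lt_of_le hρ hx.1).ne'
  rw [int_inv_sq ρ hρ h] at h1
  have : c * (1 / ρ - 2) = c / ρ - 2 * c := by ring
  linarith

/-- the main kernel estimate -/
lemma kernel (G Wf : ℝ → ℂ) (hG : Continuous G) (hW : Continuous Wf) (ρ ε R c : ℝ) (hρ : 0 < ρ)
    (hε : 0 ≤ ε) (hc : 0 ≤ c) (hG1 : ∀ s, |s| ≤ ρ → ‖G s‖ ≤ ε) (hG2 : ∀ s, ‖G s‖ ≤ 2)
    (hW1 : ∫ s in (-1 / 2 : ℝ)..(1 / 2), ‖Wf s‖ ≤ R)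
    (hW2 : ∀ s, s ≠ 0 → |s| ≤ 1 / 2 → ‖Wf s‖ ≤ c * (1 / (4 * s ^ 2))) :
    ‖∫ s in (-1 / 2 : ℝ)..(1 / 2), G s * Wf s‖ ≤ ε * R + c / ρ := by
  have hGW : Continuous fun s => G s * Wf s := hG.mul hW
  have inner : ∀ a : ℝ, 0 ≤ a → a ≤ ρ → a ≤ 1 / 2 →
      ‖∫ s in (-a)..a, G s * Wf s‖ ≤ ε * R := by
    intro a ha0 ha1 ha2
    have h1 : ‖∫ s in (-a)..a, G s * Wf s‖ ≤ ∫ s in (-a)..a, ε * ‖Wf s‖ := by
      refine intervalIntegral.norm_integral_le_of_norm_le (by linarith) ?_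
        ((continuous_const.mul hW.norm).intervalIntegrable _ _)
      refine Filter.Eventually.of_forall fun s hs => ?_
      rw [norm_mul]
      refine mul_le_mul_of_nonneg_right (hG1 s ?_) (norm_nonneg _)
      rw [abs_le]
      constructor <;> linarith [hs.1, hs.2]
    rw [intervalIntegral.integral_const_mul] at h1
    refine h1.trans (mul_le_mul_of_nonneg_left (le_trans ?_ hW1) hε)
    refine intervalIntegral.integral_mono_interval (by linarith) (by linarith) ha2 ?_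
      (hW.norm.intervalIntegrable _ _)
    exact Filter.Eventually.of_forall fun s => norm_nonneg _
  have hcρ : 0 ≤ c / ρ := by positivity
  rcases le_or_gt (1 / 2) ρ with h | h
  · have := inner (1 / 2) (by norm_num) h le_rfl
    rw [show (-(1 / 2) : ℝ) = -1 / 2 by norm_num] at this
    linarith
  · have hb : ∀ s, ρ ≤ |s| → |s| ≤ 1 / 2 → ‖G s * Wf s‖ ≤ c / 2 * (1 / s ^ 2) := by
      intro s hs1 hs2
      have hs0 : s ≠ 0 := abs_pos.mp (lt_of_lt_of_le hρ hs1)
      rw [norm_mul]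
      refine (mul_le_mul (hG2 s) (hW2 s hs0 hs2) (norm_nonneg _) (by norm_num)).trans_eq ?_
      field_simp
      ring
    have o1 : ‖∫ s in ρ..(1 / 2), G s * Wf s‖ ≤ c / 2 / ρ := by
      refine outer _ ρ (c / 2) hρ h.le (by positivity) fun s hs1 hs2 => ?_
      have : |s| = s := abs_of_pos (by linarith)
      exact hb s (by rwa [this]) (by rwa [this])
    have o2 : ‖∫ s in (-1 / 2 : ℝ)..(-ρ), G s * Wf s‖ ≤ c / 2 / ρ := by
      rw [show (-1 / 2 : ℝ) = -(1 / 2) by norm_num,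
        ← intervalIntegral.integral_comp_neg (fun s => G s * Wf s)]
      refine outer _ ρ (c / 2) hρ h.le (by positivity) fun s hs1 hs2 => ?_
      have : |-s| = s := by rw [abs_neg]; exact abs_of_pos (by linarith)
      have h3 := hb (-s) (by rwa [this]) (by rwa [this])
      rwa [neg_sq] at h3
    have o3 := inner ρ hρ.le le_rfl h.le
    rw [← intervalIntegral.integral_add_adjacent_intervals (b := -ρ)
      (hGW.intervalIntegrable _ _) (hGW.intervalIntegrable _ _),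
      ← intervalIntegral.integral_add_adjacent_intervals (a := -ρ) (b := ρ)
      (hGW.intervalIntegrable _ _) (hGW.intervalIntegrable _ _)]
    have := norm_add_le (∫ s in (-1 / 2 : ℝ)..(-ρ), G s * Wf s)
      ((∫ s in (-ρ)..ρ, G s * Wf s) + ∫ s in ρ..(1 / 2), G s * Wf s)
    have h5 := norm_add_le (∫ s in (-ρ)..ρ, G s * Wf s) (∫ s in ρ..(1 / 2), G s * Wf s)
    have h6 : c / 2 / ρ + c / 2 / ρ = c / ρ := by ring
    linarith

end Trunc

open _root_.Vale.Agent.P110.Trunc in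
theorem truncation (u : ℝ → ℂ) (hu : Continuous u) (hper : ∀ t, u (t + 1) = u t)
    (hnorm : ∀ t, ‖u t‖ = 1) (N n : ℕ) (hn : 0 < n) (h2 : 2 * n ≤ N) (k₀ : ℤ) (ρ ε : ℝ)
    (hρ : 0 < ρ) (hε : 0 ≤ ε)
    (hloc : ∀ t, ∃ ξ : ℤ, k₀ + n ≤ ξ ∧ ξ + n ≤ k₀ + N ∧
      ∀ s, |s| ≤ ρ → ‖u (t + s) - u t * e (ξ * s)‖ ≤ ε) :
    ∃ v : Fin N → ℝ, (∀ k, 0 ≤ v k ∧ v k ≤ 1) ∧ ∀ t : ℝ,
      ‖∑ k : Fin N, (v k : ℂ) * (∫ s in (-1 / 2 : ℝ)..(1 / 2), u s * e (-((k₀ + (k : ℕ)) * s)))
          * e ((k₀ + (k : ℕ)) * t) - u t‖ ≤ ε * √(N / n) + 1 / (n * ρ) := by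
  have hn' : (0 : ℝ) < n := by exact_mod_cast hn
  refine ⟨fun k => (#{p ∈ range (N - n + 1) ×ˢ range n | p.1 + p.2 = (k : ℕ)} : ℝ) / n,
    fun k => ⟨by positivity, ?_⟩, fun t => ?_⟩
  · rw [div_le_one hn']
    exact_mod_cast card_le _ _ _
  obtain ⟨ξ, h3, h4, h5⟩ := hloc t
  have hut : Continuous fun s => u (t + s) := hu.comp (by fun_prop)
  have hsum : ∑ k : Fin N,
      (((#{p ∈ range (N - n + 1) ×ˢ range n | p.1 + p.2 = (k : ℕ)} : ℝ) / n : ℝ) : ℂ)
        * (∫ s in (-1 / 2 : ℝ)..(1 / 2), u s * e (-((k₀ + (k : ℕ)) * s)))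
          * e ((k₀ + (k : ℕ)) * t)
      = ∫ s in (-1 / 2 : ℝ)..(1 / 2), u (t + s) * W k₀ (N - n + 1) n s := by
    have h6 : ∀ k : Fin N,
      (((#{p ∈ range (N - n + 1) ×ˢ range n | p.1 + p.2 = (k : ℕ)} : ℝ) / n : ℝ) : ℂ)
        * (∫ s in (-1 / 2 : ℝ)..(1 / 2), u s * e (-((k₀ + (k : ℕ)) * s)))
          * e ((k₀ + (k : ℕ)) * t)
        = (1 / (n : ℂ)) * ((#{p ∈ range (N - n + 1) ×ˢ range n | p.1 + p.2 = (k : ℕ)} : ℂ) *
          ∫ s in (-1 / 2 : ℝ)..(1 / 2), u (t + s) * e (-((k₀ + (k : ℕ)) * s))) := by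
      intro k
      have h7 := shift u hper (k₀ + (k : ℕ)) t
      push_cast at h7
      rw [mul_assoc, h7]
      push_cast
      ring
    rw [sum_congr rfl fun k _ => h6 k, ← mul_sum,
      fiber N (N - n + 1) n (by omega)
        (fun k => ∫ s in (-1 / 2 : ℝ)..(1 / 2), u (t + s) * e (-((k₀ + (k : ℕ)) * s))),
      ← intervalIntegral.integral_finsetSum, ← intervalIntegral.integral_const_mul]
    · refine intervalIntegral.integral_congr fun s _ => ?_
      rw [W_eq, ← mul_sum]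
      ring
    · intro p _
      exact (hut.mul (continuous_e.comp (by fun_prop))).intervalIntegrable _ _
  have cW := continuous_W k₀ (N - n + 1) n
  have ce : Continuous fun s : ℝ => e (ξ * s) := continuous_e.comp (by fun_prop)
  have h8 : (∫ s in (-1 / 2 : ℝ)..(1 / 2), u (t + s) * W k₀ (N - n + 1) n s) - u t
      = ∫ s in (-1 / 2 : ℝ)..(1 / 2), (u (t + s) - u t * e (ξ * s)) * W k₀ (N - n + 1) n s := by
    simp_rw [sub_mul, mul_assoc]
    have c1 : Continuous fun s => u (t + s) * W k₀ (N - n + 1) n s := hut.mul cW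
    have c2 : Continuous fun s => u t * (e (ξ * s) * W k₀ (N - n + 1) n s) :=
      continuous_const.mul (ce.mul cW)
    rw [intervalIntegral.integral_sub (c1.intervalIntegrable _ _) (c2.intervalIntegrable _ _),
      intervalIntegral.integral_const_mul, int_e_W k₀ ξ N n hn h2 h3 h4, mul_one]
  rw [hsum, h8]
  have := kernel (fun s => u (t + s) - u t * e (ξ * s)) (W k₀ (N - n + 1) n)
    (hut.sub (continuous_const.mul ce)) cW ρ ε (√(N / n)) (1 / n) hρ hε (by positivity) h5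
    (fun s => by
      refine (norm_sub_le _ _).trans ?_
      rw [norm_mul, hnorm, hnorm, norm_e]
      norm_num)
    (int_norm_W k₀ _ n N hn (by omega) (by omega))
    (fun s h0 h => norm_W_le k₀ _ n s h0 h)
  rw [div_div] at this
  exact this

end Vale.Agent.P110
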