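import Vale.Agent.P110.FlatCoef
import Vale.Agent.P110.FlatCell
import Vale.Agent.P110.Fold
import Vale.Agent.P110.Glue
import Vale.Agent.P110.Trunc

/-! A flat polynomial with real coefficients in `[-1,1]`. -/

namespace Vale.Agent.P110
open Finset MeasureTheory

namespace Flat

lemma rho_bound (δ τ : ℝ) (hδ : 0 < δ) (hδ1 : δ ≤ 1 / 100) (hτ : 0 < τ) :
    √((1 - τ) * (1 + δ) / (1 - 3 * δ)) ≤ 1 + 3 * δ := by
  rw [Real.sqrt_le_left (by positivity), div_le_iff₀ (by linarith)]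
  nlinarith [mul_pos hδ hδ, mul_pos hδ hτ, mul_pos (mul_pos hδ hδ) hδ]

lemma unimodular (δ : ℝ) (hδ : 0 < δ) (hδ1 : δ ≤ 1 / 100) (R ε₀ : ℝ) (hR : 0 < R)
    (hε₀ : 0 < ε₀) : ∃ N₀ : ℝ, ∀ N : ℝ, 0 < N → N₀ ≤ N → ∃ u : ℝ → ℂ, Continuous u ∧
      (∀ t, u (t + 1) = u t) ∧ (∀ t, ‖u t‖ = 1) ∧
      (∀ t, ∃ ξ : ℤ, 0 ≤ ξ ∧ (ξ : ℝ) ≤ (1 - 2 * δ) * N ∧
        ∀ s, |s| ≤ R / N → ‖u (t + s) - u t * e (ξ * s)‖ ≤ ε₀) ∧
      ∀ k : ℤ, ∃ a : ℝ, ∫ t in (-1 / 2 : ℝ)..(1 / 2), u t * e (-(k * t)) = (a : ℂ) ∧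
        √N * |a| ≤ 1 + 8 * δ := by
  classical
  obtain ⟨Bk, C, _, _, _, blk, w, l, α, lam, hlam, hl, hα, hin, hdisj, hsum, hlamsum, hH⟩ :=
    exists_cells δ hδ
  have hpi := Real.pi_pos
  -- the blocks
  set r : Bk → ℝ := fun b => (1 - 3 * δ) * lam b / (2 * (1 + δ)) with hrdef
  have h3δ : 0 < 1 - 3 * δ := by linarith
  have hr : ∀ b, 0 < r b := fun b => by
    have := hlam b
    simp only [hrdef]; positivity
  obtain ⟨x, hx, hsep⟩ := placement r hr δ (1 - 2 * δ) (by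
    have : 2 * ∑ b, r b = (1 - 3 * δ) * (∑ b, lam b) / (1 + δ) := by
      simp only [hrdef]
      rw [← sum_div, ← mul_sum]; field_simp
    rw [this]
    have h2 : (1 - 3 * δ) * (∑ b, lam b) / (1 + δ) ≤ 1 - 3 * δ := by
      rw [div_le_iff₀ (by linarith)]
      exact mul_le_mul_of_nonneg_left hlamsum h3δ.le
    linarith)
  -- the accuracy of the model and the width of the fast pieces
  set Sα : ℝ := ∑ c, ‖α c‖ with hSα
  have hSα0 : 0 ≤ Sα := sum_nonneg fun c _ => norm_nonneg _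
  set ε : ℝ := δ / (4 * Sα + 1) with hεdef
  have hε : 0 < ε := by positivity
  have hεδ : ε ≤ δ := by
    rw [hεdef, div_le_iff₀ (by positivity)]; nlinarith
  have hεS : 4 * Sα * ε ≤ δ := by
    have : ε * (4 * Sα + 1) = δ := by rw [hεdef]; field_simp
    nlinarith
  obtain ⟨p, P, T₀, hp, hP, -, -, -, hpb, hmodel⟩ := model_integral ε hε
  set n : ℝ := (Fintype.card C : ℝ) + 1 with hn
  have hn1 : 1 ≤ n := by
    have : (0 : ℝ) ≤ Fintype.card C := Nat.cast_nonneg _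
    linarith
  set τ : ℝ := δ * (δ / (12 * n)) ^ 2 with hτdef
  have hτ : 0 < τ := by positivity
  have hτ1 : τ < 1 := by
    have h1 : δ / (12 * n) ≤ 1 := by rw [div_le_one (by positivity)]; linarith
    have h2 : (δ / (12 * n)) ^ 2 ≤ 1 := pow_le_one₀ (by positivity) h1
    rw [hτdef]; nlinarith
  have hcell := fun c => cell p P hp hP hpb (w c) (l c) τ (x (blk c)) (r (blk c)) δ
    (1 - 2 * δ) (hl c) hτ hτ1 (hr _) hδ (hx _).1 (hx _).2
  choose κ hκc hκb hκ0 hκN using hcell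
  set M' : ℝ := ∑ c, 2 / (τ * |l c|) with hM'
  have hterm : ∀ c, 0 ≤ 2 / (τ * |l c|) := fun c => by positivity
  have hM'0 : 0 ≤ M' := sum_nonneg fun c _ => hterm c
  set ω : ℝ := ε₀ / (4 * Real.pi * R) with hω
  have hωpos : 0 < ω := by positivity
  obtain ⟨ρ₀, hρ₀, huc⟩ := unif_cont (fun t => ∑ c, κ c t) (by fun_prop) ω hωpos
  have hhr : ∀ c, 0 < |l c * (1 - τ) / 2| * r (blk c) := fun c =>
    mul_pos (abs_pos.mpr (div_ne_zero (mul_ne_zero (hl c) (by linarith)) two_ne_zero)) (hr _)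
  set T₁ : ℝ := ∑ c, |T₀| / (|l c * (1 - τ) / 2| * r (blk c)) with hT₁
  refine ⟨max (max (R / ρ₀) ((M' + 1) / ω)) T₁, fun N hN hN₀ => ?_⟩
  have hN1 : R / ρ₀ ≤ N := ((le_max_left _ _).trans (le_max_left _ _)).trans hN₀
  have hN2 : (M' + 1) / ω ≤ N := ((le_max_right _ _).trans (le_max_left _ _)).trans hN₀
  have hN3 : T₁ ≤ N := (le_max_right _ _).trans hN₀
  have hT : ∀ c, T₀ ≤ |N * (l c * (1 - τ) / 2) * r (blk c)| := by
    intro c
    have h1 : |T₀| / (|l c * (1 - τ) / 2| * r (blk c)) ≤ T₁ :=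
      single_le_sum (f := fun c => |T₀| / (|l c * (1 - τ) / 2| * r (blk c)))
        (fun c _ => div_nonneg (abs_nonneg _) (hhr c).le) (mem_univ c)
    have h2 := (div_le_iff₀ (hhr c)).mp (h1.trans hN3)
    rw [abs_mul, abs_mul, abs_of_pos hN, abs_of_pos (hr _), mul_assoc]
    exact (le_abs_self _).trans h2
  choose γ hγ using fun c => exists_phase (α c)
    (if 0 ≤ N * (l c * (1 - τ) / 2) * r (blk c) then 1 / 8 else -1 / 8)
  choose β hβm hβb hβ0 hβz hβI using fun c => hκN c N (γ c) hN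
  have hβM : ∀ c t, |β c t| ≤ M' := fun c t => (hβb c t).trans
    (single_le_sum (f := fun c => 2 / (τ * |l c|)) (fun c _ => hterm c) (mem_univ c))
  obtain ⟨φ, hφc, hφp, hφloc, hφk⟩ := glue (fun c => w c - |l c| / 2) (fun c => w c + |l c| / 2)
    (fun c => ⟨(hin c).1, by have := abs_nonneg (l c); linarith, (hin c).2⟩) hdisj
    (by rw [← hsum]; exact sum_congr rfl fun c _ => by ring)
    (fun c t => N * κ c t + β c t)
    (fun c => ((hκc c).measurable.const_mul N).add (hβm c)) (N + M')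
    (fun c t => by
      refine (abs_add_le _ _).trans (add_le_add ?_ (hβM c t))
      have := hκb c t
      rw [abs_of_nonneg (mul_nonneg hN.le this.1)]
      nlinarith [this.2])
    (fun c t ht => by simp only [hκ0 c t ht, hβ0 c t ht]; ring) hβz
  refine ⟨fun t => e (φ t), by fun_prop, hφp, fun t => norm_e _, ?_, ?_⟩
  · intro t
    set K : ℝ := ∑ c, κ c (|t - round t|) with hK
    have hK0 : 0 ≤ K := sum_nonneg fun c _ => (hκb c _).1
    have hone : ∀ (s : ℝ) (c c' : C), c ≠ c' →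
        s ∉ Set.Ioc (w c - |l c| / 2) (w c + |l c| / 2) ∨
        s ∉ Set.Ioc (w c' - |l c'| / 2) (w c' + |l c'| / 2) := by
      intro s c c' hne
      by_contra hcon
      push Not at hcon
      obtain ⟨⟨a1, a2⟩, a3, a4⟩ := hcon
      rcases hdisj c c' hne with h | h <;> linarith
    have hK1 : K ≤ 1 - 2 * δ := by
      refine (le_abs_self _).trans (abs_sum_le_of_single _ _ (by linarith) ?_ ?_)
      · intro c; rw [abs_of_nonneg (hκb c _).1]; exact (hκb c _).2
      · intro c c' hne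
        exact (hone _ c c' hne).imp (hκ0 c _) (hκ0 c' _)
    refine ⟨⌊N * K⌋, Int.floor_nonneg.mpr (by positivity), ?_, ?_⟩
    · refine (Int.floor_le _).trans ?_
      nlinarith
    · intro s hs
      have hsρ : |s| ≤ ρ₀ := by
        refine hs.trans ?_
        rw [div_le_iff₀ hN]
        rw [div_le_iff₀ hρ₀] at hN1
        linarith
      have hE := hφloc t s ⌊N * K⌋ (2 * (N * ω)) (by
        intro y hy
        have h1 := huc y t (hy.trans hsρ)
        have h2 : |∑ c, β c (|y - round y|)| ≤ M' :=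
          (abs_sum_le_sum_abs _ _).trans (sum_le_sum fun c _ => hβb c _)
        have h3 : M' + 1 ≤ N * ω := (div_le_iff₀ hωpos).mp hN2
        have h4 := Int.floor_le (N * K)
        have h5 := Int.lt_floor_add_one (N * K)
        rw [← hK] at h1
        rw [sum_add_distrib, ← mul_sum]
        have h6 : |N * ∑ c, κ c (|y - round y|) - N * K| ≤ N * ω := by
          rw [← mul_sub, abs_mul, abs_of_pos hN]
          exact mul_le_mul_of_nonneg_left h1 hN.le
        rw [abs_le] at h2 h6 ⊢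
        constructor <;> linarith [h2.1, h2.2, h6.1, h6.2])
      simp only
      rw [← e_add]
      refine (norm_e_sub_e_le _ _).trans ?_
      have e1 : φ (t + s) - (φ t + ⌊N * K⌋ * s) = φ (t + s) - φ t - ⌊N * K⌋ * s := by ring
      rw [e1]
      calc 2 * Real.pi * |φ (t + s) - φ t - ⌊N * K⌋ * s|
          ≤ 2 * Real.pi * (2 * (N * ω) * (R / N)) := by
            refine mul_le_mul_of_nonneg_left (hE.trans ?_) (by positivity)
            exact mul_le_mul_of_nonneg_left hs (by positivity)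
        _ = ε₀ := by rw [hω]; field_simp; ring
  · intro k
    refine ⟨_, hφk k, ?_⟩
    set ρ : ℝ := √((1 - τ) * (1 + δ) / (1 - 3 * δ)) with hρ
    have hρ0 : 0 ≤ ρ := Real.sqrt_nonneg _
    have hρ1 : ρ ≤ 1 + 3 * δ := rho_bound δ τ hδ hδ1 hτ
    have hamp : ∀ c, |l c * (1 - τ) / 2| / r (blk c) = (ρ * ‖α c‖) ^ 2 := by
      intro c
      have h1τ : 0 < 1 - τ := by linarith
      have := hlam (blk c)
      rw [mul_pow, hρ, Real.sq_sqrt (by positivity), hα c, abs_div, abs_mul, abs_of_pos h1τ,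
        abs_two]
      simp only [hrdef]
      field_simp
    refine (coef blk w l α x r hr hsep δ hδ.le hH P T₀ ε hε.le hmodel τ ρ N hτ1 hρ0 hN hl hamp
      hT γ hγ k _ _ (fun c => hβI c k)).trans ?_
    have b1 : ∀ c, √N * (6 / √(N * δ / (τ * |l c|))) ≤ δ / (2 * n) := by
      intro c
      have hlc : 0 < |l c| := abs_pos.mpr (hl c)
      have hl1 : |l c| ≤ 1 := by have := hin c; linarith [this.1, this.2]
      have e1 : N * δ / (τ * |l c|) = N * ((12 * n / δ) ^ 2 / |l c|) := by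
        rw [hτdef]; field_simp
      have e2 : 12 * n / δ ≤ √((12 * n / δ) ^ 2 / |l c|) := by
        refine Real.le_sqrt_of_sq_le ?_
        rw [le_div_iff₀ hlc]
        exact mul_le_of_le_one_right (by positivity) hl1
      rw [e1, Real.sqrt_mul hN.le]
      have hs : 0 < √N := Real.sqrt_pos.mpr hN
      have hq : 0 < 12 * n / δ := by positivity
      calc √N * (6 / (√N * √((12 * n / δ) ^ 2 / |l c|)))
          = 6 / √((12 * n / δ) ^ 2 / |l c|) := by field_simp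
        _ ≤ 6 / (12 * n / δ) := by gcongr
        _ = δ / (2 * n) := by field_simp; ring
    have b2 : ∑ c, (√N * (6 / √(N * δ / (τ * |l c|))) + ρ * ‖α c‖ * ε) ≤ δ := by
      rw [sum_add_distrib]
      have s1 : ∑ c, √N * (6 / √(N * δ / (τ * |l c|))) ≤ δ / 2 := by
        refine (sum_le_sum fun c _ => b1 c).trans ?_
        rw [sum_const, card_univ, nsmul_eq_mul]
        have : (Fintype.card C : ℝ) ≤ n := by rw [hn]; linarith
        calc (Fintype.card C : ℝ) * (δ / (2 * n)) ≤ n * (δ / (2 * n)) := by gcongr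
          _ = δ / 2 := by field_simp
      have s2 : ∑ c, ρ * ‖α c‖ * ε ≤ δ / 2 := by
        rw [← sum_mul, ← mul_sum, ← hSα]
        have : ρ * Sα * ε ≤ 2 * Sα * ε := by gcongr; linarith
        linarith
      linarith
    have b3 : ρ * (1 + ε) * (1 + δ) ≤ (1 + 3 * δ) * (1 + δ) * (1 + δ) := by gcongr
    nlinarith [mul_pos hδ hδ, mul_pos (mul_pos hδ hδ) hδ]

end Flat

theorem flat_real (η : ℝ) (hη : 0 < η) : ∃ N₀ : ℕ, ∀ N : ℕ, N₀ ≤ N → ∃ a : Fin N → ℝ,
    (∀ k, |a k| ≤ 1) ∧ ∀ t : ℝ, |‖∑ k, (a k : ℂ) * e ((k : ℕ) * t)‖ - √N| ≤ η * √N := by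
  set δ : ℝ := min η 1 / 100 with hδdef
  have hδ : 0 < δ := by have := lt_min hη one_pos; positivity
  have hδ1 : δ ≤ 1 / 100 := by have := min_le_right η 1; linarith
  have hδη : 100 * δ ≤ η := by have := min_le_left η 1; linarith
  obtain ⟨N₁, hN₁⟩ := Flat.unimodular δ hδ hδ1 (4 / δ ^ 2) (δ ^ 2 / 4) (by positivity)
    (by positivity)
  refine ⟨⌈max N₁ (2 / δ)⌉₊, fun N hN => ?_⟩
  have hN' : max N₁ (2 / δ) ≤ N := (Nat.le_ceil _).trans (by exact_mod_cast hN)
  have hNδ : 2 ≤ δ * N := by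
    have := (le_max_right _ _).trans hN'
    rw [div_le_iff₀ hδ] at this; linarith
  have hNpos : (0 : ℝ) < N := by
    by_contra h
    push Not at h
    nlinarith
  obtain ⟨u, huc, hup, hun, hloc, hcoef⟩ := hN₁ N hNpos ((le_max_left _ _).trans hN')
  set n : ℕ := ⌊δ * N⌋₊ with hn
  have hn1 : (n : ℝ) ≤ δ * N := Nat.floor_le (by positivity)
  have hn2 : δ * N / 2 ≤ n := by have := Nat.lt_floor_add_one (δ * N); linarith
  have hnpos : (0 : ℝ) < n := by linarith
  obtain ⟨v, hv, htr⟩ := truncation u huc hup hun N n (by exact_mod_cast hnpos)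
    (by have : 2 * (n : ℝ) ≤ N := by nlinarith
        exact_mod_cast this) (-n) (4 / δ ^ 2 / N) (δ ^ 2 / 4) (by positivity) (by positivity)
    (fun t => by
      obtain ⟨ξ, h0, h1, h2⟩ := hloc t
      refine ⟨ξ, by linarith, ?_, h2⟩
      have : (ξ : ℝ) + n ≤ -n + N := by linarith
      exact_mod_cast this)
  choose b hb hbb using hcoef
  have hs : 0 < √(N : ℝ) := Real.sqrt_pos.mpr hNpos
  have hΛ : 0 < 1 + 8 * δ := by linarith
  refine ⟨fun k => √N * (v k * b (-n + (k : ℕ))) / (1 + 8 * δ), fun k => ?_, fun t => ?_⟩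
  · rw [abs_div, abs_of_pos hΛ, div_le_one hΛ, abs_mul, abs_mul, abs_of_pos hs,
      abs_of_nonneg (hv k).1]
    have := hbb (-n + (k : ℕ))
    calc √N * (v k * |b (-n + (k : ℕ))|) ≤ √N * (1 * |b (-n + (k : ℕ))|) := by
          gcongr; exact (hv k).2
      _ ≤ 1 + 8 * δ := by rw [one_mul]; exact this
  · have h1 := htr t
    have herr : δ ^ 2 / 4 * √(N / n) + 1 / (n * (4 / δ ^ 2 / N)) ≤ δ := by
      have q1 : (N : ℝ) / n ≤ 2 / δ := by
        rw [div_le_div_iff₀ hnpos hδ]; linarith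
      have q2 : √((N : ℝ) / n) ≤ 2 / δ := by
        rw [Real.sqrt_le_left (by positivity)]
        have : 1 ≤ 2 / δ := by rw [le_div_iff₀ hδ]; linarith
        nlinarith
      have q3 : 1 / (n * (4 / δ ^ 2 / N)) = δ ^ 2 / 4 * ((N : ℝ) / n) := by field_simp
      rw [q3]
      have q4 : δ ^ 2 / 4 * (2 / δ) = δ / 2 := by field_simp; ring
      have q5 : δ ^ 2 / 4 * √((N : ℝ) / n) ≤ δ ^ 2 / 4 * (2 / δ) := by gcongr
      have q6 : δ ^ 2 / 4 * ((N : ℝ) / n) ≤ δ ^ 2 / 4 * (2 / δ) := by gcongr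
      linarith
    set Z : ℂ := ∑ k : Fin N, (v k : ℂ) * (∫ s in (-1 / 2 : ℝ)..(1 / 2),
      u s * e (-((((-n : ℤ) : ℝ) + (k : ℕ)) * s))) * e ((((-n : ℤ) : ℝ) + (k : ℕ)) * t) with hZ
    have hZ1 : |‖Z‖ - 1| ≤ δ := by
      have := abs_norm_sub_norm_le Z (u t)
      rw [hun t] at this
      exact this.trans (h1.trans herr)
    have hsum : ∑ k : Fin N, ((√N * (v k * b (-n + (k : ℕ))) / (1 + 8 * δ) : ℝ) : ℂ)
        * e ((k : ℕ) * t) = ((√N / (1 + 8 * δ) : ℝ) : ℂ) * e (n * t) * Z := by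
      rw [hZ, mul_sum]
      refine sum_congr rfl fun k _ => ?_
      have hk := hb (-n + (k : ℕ))
      have c1 : (((-n + (k : ℕ) : ℤ)) : ℝ) = ((-n : ℤ) : ℝ) + (k : ℕ) := by push_cast; ring
      rw [c1] at hk
      rw [hk]
      have c2 : e ((k : ℕ) * t) = e (n * t) * e ((((-n : ℤ) : ℝ) + (k : ℕ)) * t) := by
        rw [← e_add]; congr 1; push_cast; ring
      rw [c2]
      push_cast
      ring
    rw [hsum, norm_mul, norm_mul, norm_e, mul_one, Complex.norm_real, Real.norm_eq_abs,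
      abs_of_pos (div_pos hs hΛ)]
    have e1 : √N / (1 + 8 * δ) * ‖Z‖ - √N = √N * ((‖Z‖ - 1 - 8 * δ) / (1 + 8 * δ)) := by
      field_simp; ring
    rw [e1, abs_mul, abs_of_pos hs, mul_comm]
    refine mul_le_mul_of_nonneg_right ?_ hs.le
    rw [abs_div, abs_of_pos hΛ, div_le_iff₀ hΛ, abs_le]
    rw [abs_le] at hZ1
    constructor <;> nlinarith [hZ1.1, hZ1.2, mul_pos hη hδ]

end Vale.Agent.P110
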