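import Vale.Agent.P110.Basic

/-! Spencer-type rounding of linear forms. -/

namespace Vale.Agent.P110
open Finset MeasureTheory

namespace LinRound

/-- Sign attached to a bit. -/
def sg (b : Bool) : ℤ := if b then 1 else -1

/-- Injective coding of integers by naturals. -/
def enc (t : ℤ) : ℕ := (2 * t - 1).toNat + (-2 * t).toNat

lemma enc_inj {s t : ℤ} (h : enc s = enc t) : s = t := by unfold enc at h; omega

lemma enc_le (t : ℤ) : (enc t : ℤ) ≤ 2 * |t| := by
  unfold enc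
  rcases abs_cases t with h | h <;> omega

lemma sum_prod_bool {ι : Type} [Fintype ι] [DecidableEq ι] (g : ι → Bool → ℝ) :
    ∑ x : ι → Bool, ∏ k, g k (x k) = ∏ k, (g k true + g k false) := by
  have := Finset.prod_univ_sum (fun _ : ι => (univ : Finset Bool)) g
  rw [Fintype.piFinset_univ] at this
  rw [← this]
  simp

lemma mgf {ι : Type} [Fintype ι] [DecidableEq ι] (w : ι → ℝ) :
    ∑ x : ι → Bool, Real.exp (∑ k, w k * sg (x k)) ≤
      2 ^ Fintype.card ι * Real.exp ((∑ k, w k ^ 2) / 2) := by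
  simp_rw [Real.exp_sum]
  rw [sum_prod_bool (fun k b => Real.exp (w k * sg b)), sum_div, Real.exp_sum, ← card_univ,
    ← prod_const, ← prod_mul_distrib]
  refine prod_le_prod (fun k _ => by positivity) fun k _ => ?_
  have := Real.cosh_le_exp_half_sq (w k)
  rw [Real.cosh_eq] at this
  simp only [sg, if_true, Int.cast_one, mul_one, Bool.false_eq_true, if_false, Int.cast_neg,
    mul_neg]
  linarith

lemma fourth_le (u : ℝ) : u ^ 4 ≤ 256 * (Real.exp u + Real.exp (-u)) := by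
  have h1 : |u| / 4 ≤ Real.exp (|u| / 4) := by linarith [Real.add_one_le_exp (|u| / 4)]
  have h2 := pow_le_pow_left₀ (by positivity) h1 4
  rw [← Real.exp_nat_mul, div_pow, show (4 : ℕ) = 2 * 2 from rfl, pow_mul, sq_abs,
    ← pow_mul] at h2
  have h3 : Real.exp (((2 * 2 : ℕ) : ℝ) * (|u| / 4)) ≤ Real.exp u + Real.exp (-u) := by
    rw [show ((2 * 2 : ℕ) : ℝ) * (|u| / 4) = |u| by push_cast; ring]
    rcases abs_choice u with h | h <;> rw [h]
    · linarith [Real.exp_pos (-u)]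
    · linarith [Real.exp_pos u]
  norm_num at h2 h3 ⊢
  linarith

lemma fourth_moment {ι : Type} [Fintype ι] [DecidableEq ι] (w : ι → ℝ) (hw : ∀ k, |w k| ≤ 1)
    {s : ℝ} (hs : 0 < s) (hn : (Fintype.card ι : ℝ) = s ^ 2) :
    ∑ x : ι → Bool, (∑ k, w k * sg (x k)) ^ 4 ≤ 1536 * s ^ 4 * 2 ^ Fintype.card ι := by
  have key : ∀ σ : ℝ, σ ^ 2 = 1 → ∑ x : ι → Bool, Real.exp (σ / s * ∑ k, w k * sg (x k)) ≤
      3 * 2 ^ Fintype.card ι := by
    intro σ hσ
    simp_rw [mul_sum, ← mul_assoc]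
    refine (mgf _).trans ?_
    rw [mul_comm]
    refine mul_le_mul_of_nonneg_right ?_ (by positivity)
    have h1 : ∑ k, (σ / s * w k) ^ 2 ≤ 1 := by
      have h2 : ∀ k, (σ / s * w k) ^ 2 ≤ 1 / s ^ 2 := by
        intro k
        rw [mul_pow, div_pow, hσ]
        refine mul_le_of_le_one_right (by positivity) ?_
        rw [← sq_abs]
        exact pow_le_one₀ (abs_nonneg _) (hw k)
      refine (sum_le_sum fun k _ => h2 k).trans (le_of_eq ?_)
      rw [sum_const, card_univ, nsmul_eq_mul, hn]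
      field_simp
    exact (Real.exp_le_exp.2 (by linarith)).trans (Real.exp_one_lt_d9.le.trans (by norm_num))
  have h1 := key 1 (by norm_num)
  have h2 := key (-1) (by norm_num)
  have h3 : ∀ x : ι → Bool, (∑ k, w k * sg (x k)) ^ 4 ≤
      256 * s ^ 4 * (Real.exp (1 / s * ∑ k, w k * sg (x k)) +
        Real.exp (-1 / s * ∑ k, w k * sg (x k))) := by
    intro x
    have h4 := mul_le_mul_of_nonneg_left (fourth_le (1 / s * ∑ k, w k * sg (x k)))
      (by positivity : 0 ≤ s ^ 4)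
    rw [neg_div, neg_mul]
    refine le_trans (le_of_eq ?_) (h4.trans (le_of_eq (by ring)))
    field_simp
  refine (sum_le_sum fun x _ => h3 x).trans ?_
  rw [← mul_sum, sum_add_distrib]
  have := mul_le_mul_of_nonneg_left (add_le_add h1 h2) (by positivity : 0 ≤ 256 * s ^ 4)
  linarith

lemma enc_round_le (u : ℝ) : (enc (round u) : ℝ) ≤ 32 * u ^ 4 := by
  have h1 : (enc (round u) : ℝ) ≤ 2 * |(round u : ℝ)| := by exact_mod_cast enc_le (round u)
  rcases eq_or_ne (round u) 0 with h | h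
  · rw [h] at h1 ⊢
    simp only [Int.cast_zero, abs_zero, mul_zero] at h1
    have : 0 ≤ 32 * u ^ 4 := by positivity
    linarith
  · have h2 : (1 : ℝ) ≤ |(round u : ℝ)| := by exact_mod_cast Int.one_le_abs h
    have h3 := abs_sub_round u
    have h4 : |(round u : ℝ)| ≤ |u| + 1 / 2 := by
      have := abs_sub_abs_le_abs_sub (round u : ℝ) u
      rw [abs_sub_comm] at this
      linarith
    have h5 : 1 ≤ 2 * |u| := by linarith
    have h6 : 2 * |u| ≤ (2 * |u|) ^ 4 := le_self_pow₀ h5 (by norm_num)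
    rw [mul_pow, show (4 : ℕ) = 2 * 2 from rfl, pow_mul |u|, sq_abs, ← pow_mul] at h6
    norm_num at h6
    linarith

lemma ball_card {ι : Type} [Fintype ι] [DecidableEq ι] (x₀ : ι → Bool) (F : Finset (ι → Bool))
    (hF : ∀ x ∈ F, ((univ.filter fun k => x k ≠ x₀ k).card : ℝ) ≤ Fintype.card ι / 10) :
    (F.card : ℝ) ≤ Real.exp (Fintype.card ι * (Real.log 2 / 5 + 1 / 4)) := by
  have h1 := sum_prod_bool (fun k b => if b ≠ x₀ k then (1 / 4 : ℝ) else 1)
  have h2 : ∏ k, ((if true ≠ x₀ k then (1 / 4 : ℝ) else 1) +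
      (if false ≠ x₀ k then (1 / 4 : ℝ) else 1)) ≤ Real.exp (Fintype.card ι * (1 / 4)) := by
    rw [Real.exp_nat_mul, ← card_univ, ← prod_const]
    refine prod_le_prod (fun k _ => by positivity) fun k _ => ?_
    have := Real.add_one_le_exp (1 / 4)
    cases x₀ k <;> simp <;> linarith
  have h3 : ∀ x ∈ F, Real.exp (-(Fintype.card ι * (Real.log 2 / 5))) ≤
      ∏ k, (if x k ≠ x₀ k then (1 / 4 : ℝ) else 1) := by
    intro x hx
    rw [prod_ite, prod_const, prod_const_one, mul_one,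
      ← Real.exp_log (by norm_num : (0 : ℝ) < 1 / 4), ← Real.exp_nat_mul, Real.exp_le_exp]
    have h4 : Real.log (1 / 4) = -2 * Real.log 2 := by
      rw [one_div, Real.log_inv, show (4 : ℝ) = 2 ^ 2 by norm_num, Real.log_pow]
      push_cast; ring
    rw [h4]
    have := mul_le_mul_of_nonneg_right (hF x hx) (Real.log_pos (by norm_num : (1 : ℝ) < 2)).le
    linarith
  have h5 : (F.card : ℝ) * Real.exp (-(Fintype.card ι * (Real.log 2 / 5))) ≤
      Real.exp (Fintype.card ι * (1 / 4)) := by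
    rw [← nsmul_eq_mul, ← sum_const]
    refine (sum_le_sum h3).trans (le_trans ?_ (h1.trans_le h2))
    exact sum_le_sum_of_subset_of_nonneg (subset_univ _) fun x _ _ =>
      prod_nonneg fun k _ => by positivity
  rw [Real.exp_neg, ← div_eq_mul_inv, div_le_iff₀ (Real.exp_pos _), ← Real.exp_add] at h5
  refine h5.trans (le_of_eq ?_)
  ring_nf

lemma code_sum {κ : Type} [Fintype κ] [DecidableEq κ] (G : Finset (κ → ℕ)) {y : ℝ} (hy : 0 ≤ y)
    (hy1 : y ≤ 1 / 2) : ∑ b ∈ G, ∏ i, y ^ b i ≤ Real.exp (2 * y * Fintype.card κ) := by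
  set B := G.sup (fun b => univ.sup b) + 1 with hB
  have h1 : G ⊆ Fintype.piFinset fun _ => range B := by
    intro b hb
    rw [Fintype.mem_piFinset]
    intro i
    have h2 : b i ≤ univ.sup b := le_sup (f := b) (mem_univ i)
    have h3 : univ.sup b ≤ G.sup (fun b => univ.sup b) := le_sup (f := fun b => univ.sup b) hb
    rw [mem_range]; omega
  refine (sum_le_sum_of_subset_of_nonneg h1 fun b _ _ =>
    prod_nonneg fun i _ => pow_nonneg hy _).trans ?_
  rw [← Finset.prod_univ_sum (fun _ : κ => range B) (fun _ j => y ^ j), mul_comm,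
    Real.exp_nat_mul, ← card_univ, ← prod_const]
  refine prod_le_prod (fun i _ => sum_nonneg fun j _ => pow_nonneg hy _) fun i _ => ?_
  have h4 := mul_neg_geom_sum y B
  have h5 : 0 ≤ y ^ B := pow_nonneg hy _
  have h6 : 0 ≤ ∑ j ∈ range B, y ^ j := sum_nonneg fun j _ => pow_nonneg hy _
  have h7 := Real.add_one_le_exp (2 * y)
  have h8 : ∑ j ∈ range B, y ^ j ≤ 2 := by nlinarith
  nlinarith

lemma half_colouring {ι κ : Type} [Fintype ι] [Fintype κ] (v : κ → ι → ℝ)
    (hv : ∀ i k, |v i k| ≤ 1) {α β : ℝ} (hα : 0 < α) (hβ : 0 < β)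
    (hm : (Fintype.card κ : ℝ) = α ^ 8) (hn : (Fintype.card ι : ℝ) = β ^ 8)
    (hle : Fintype.card ι ≤ Fintype.card κ) :
    ∃ χ : ι → ℤ, (∀ k, χ k = 0 ∨ χ k = 1 ∨ χ k = -1) ∧
      (Fintype.card ι : ℝ) / 10 ≤ (univ.filter fun k => χ k ≠ 0).card ∧
      ∀ i, |∑ k, v i k * χ k| ≤ 25 * (α ^ 3 * β) := by
  classical
  set D := 50 * (α ^ 3 * β) with hD
  have hD0 : 0 < D := by positivity
  set L : κ → (ι → Bool) → ℝ := fun i x => ∑ k, v i k * sg (x k) with hL
  set T : (ι → Bool) → κ → ℕ := fun x i => enc (round (L i x / D)) with hT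
  suffices h : ∃ x x' : ι → Bool, T x = T x' ∧
      (Fintype.card ι : ℝ) / 10 ≤ (univ.filter fun k => x k ≠ x' k).card by
    obtain ⟨x, x', hxx, hd⟩ := h
    refine ⟨fun k => if x k = x' k then 0 else sg (x k), fun k => ?_, ?_, fun i => ?_⟩
    · beta_reduce
      split_ifs
      · simp
      · cases x k <;> simp [sg]
    · refine hd.trans (le_of_eq ?_)
      congr 2
      refine filter_congr fun k _ => ?_
      beta_reduce
      cases x k <;> cases x' k <;> simp [sg]
    · have h1 : ∑ k, v i k * ((if x k = x' k then 0 else sg (x k) : ℤ) : ℝ) =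
          (L i x - L i x') / 2 := by
        simp only [hL]
        rw [← sum_sub_distrib, sum_div]
        refine sum_congr rfl fun k _ => ?_
        cases x k <;> cases x' k <;> simp [sg]
        ring
      have h2 := enc_inj (congrFun hxx i)
      have h3 := abs_le.1 (abs_sub_round (L i x / D))
      have h4 := abs_le.1 (abs_sub_round (L i x' / D))
      rw [h2] at h3
      have h5 : |L i x / D - L i x' / D| ≤ 1 := by
        rw [abs_le]; constructor <;> linarith [h3.1, h3.2, h4.1, h4.2]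
      rw [← sub_div, abs_div, abs_of_pos hD0, div_le_one hD0] at h5
      rw [h1, abs_div, abs_two]
      linarith
  by_contra hcon
  push Not at hcon
  set n : ℝ := (Fintype.card ι : ℝ) with hn'
  have hn0 : 0 < n := by rw [hn]; positivity
  have hβα : β ^ 8 ≤ α ^ 8 := by rw [← hm, ← hn, hn']; exact_mod_cast hle
  set s := 5 * α ^ 4 / β ^ 4 with hs
  have hs0 : 0 < s := by positivity
  set y := 1 / s ^ 2 with hy
  have hy0 : 0 < y := by positivity
  have hyval : y = β ^ 8 / (25 * α ^ 8) := by rw [hy, hs]; field_simp; norm_num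
  have hy1 : y ≤ 1 / 2 := by
    rw [hyval, div_le_iff₀ (by positivity)]
    have : 0 < α ^ 8 := by positivity
    linarith
  have hlog : -(2 * s) ≤ Real.log y := by
    rw [hy, one_div, Real.log_inv, Real.log_pow]
    have := Real.log_le_sub_one_of_pos hs0
    push_cast
    linarith
  -- upper bound
  have hup : ∑ x : ι → Bool, ∏ i, y ^ T x i ≤
      Real.exp (n * (Real.log 2 / 5 + 1 / 4)) * Real.exp (2 * y * Fintype.card κ) := by
    rw [← sum_fiberwise_of_maps_to (s := univ) (t := univ.image T) (g := T)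
      (fun x hx => mem_image_of_mem T hx)]
    refine le_trans ?_ (mul_le_mul_of_nonneg_left (code_sum (univ.image T) hy0.le hy1)
      (Real.exp_pos _).le)
    rw [mul_sum]
    refine sum_le_sum fun b hb => ?_
    obtain ⟨x₀, -, rfl⟩ := mem_image.1 hb
    rw [sum_congr rfl (g := fun _ => ∏ i, y ^ T x₀ i)
      (fun x hx => by rw [(mem_filter.1 hx).2]), sum_const, nsmul_eq_mul]
    refine mul_le_mul_of_nonneg_right (ball_card x₀ _ fun x hx => ?_)
      (prod_nonneg fun i _ => pow_nonneg hy0.le _)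
    exact (hcon x x₀ (mem_filter.1 hx).2).le
  -- lower bound
  have hmom : ∑ x : ι → Bool, 2 * s * ∑ i, (T x i : ℝ) ≤ n / 10 * 2 ^ Fintype.card ι := by
    rw [← mul_sum, sum_comm]
    have h1 : ∀ i, ∑ x : ι → Bool, (T x i : ℝ) ≤
        32 / D ^ 4 * (1536 * (β ^ 4) ^ 4 * 2 ^ Fintype.card ι) := by
      intro i
      refine le_trans ?_ (mul_le_mul_of_nonneg_left (fourth_moment (v i) (hv i)
        (by positivity : 0 < β ^ 4) (by rw [← hn', hn]; ring)) (by positivity))
      rw [mul_sum]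
      refine sum_le_sum fun x _ => (enc_round_le _).trans (le_of_eq ?_)
      rw [div_pow]
      ring
    refine (mul_le_mul_of_nonneg_left (sum_le_sum fun i _ => h1 i) (by positivity)).trans ?_
    rw [sum_const, card_univ, nsmul_eq_mul, hm, hn, hs, hD]
    have h2 : 2 * (5 * α ^ 4 / β ^ 4) * (α ^ 8 * (32 / (50 * (α ^ 3 * β)) ^ 4 *
        (1536 * (β ^ 4) ^ 4 * 2 ^ Fintype.card ι))) =
        (491520 / 6250000) * (β ^ 8 * 2 ^ Fintype.card ι) := by
      field_simp
      ring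
    rw [h2]
    have : 0 < β ^ 8 * 2 ^ Fintype.card ι := by positivity
    linarith
  have hlow : Real.exp (-(n / 10)) * 2 ^ Fintype.card ι ≤ ∑ x : ι → Bool, ∏ i, y ^ T x i := by
    have h1 : ∀ x : ι → Bool, Real.exp (-(n / 10)) * (1 + n / 10 - 2 * s * ∑ i, (T x i : ℝ)) ≤
        ∏ i, y ^ T x i := by
      intro x
      rw [prod_pow_eq_pow_sum, ← Real.exp_log hy0, ← Real.exp_nat_mul]
      have h2 := Real.add_one_le_exp (n / 10 - 2 * s * ∑ i, (T x i : ℝ))
      have h3 := mul_le_mul_of_nonneg_left h2 (Real.exp_pos (-(n / 10))).le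
      rw [← Real.exp_add] at h3
      refine le_trans (le_of_eq (by ring)) (h3.trans (Real.exp_le_exp.2 ?_))
      have h4 : (0 : ℝ) ≤ ∑ i, (T x i : ℝ) := by positivity
      have := mul_le_mul_of_nonneg_left hlog h4
      push_cast
      linarith
    refine le_trans ?_ (sum_le_sum fun x _ => h1 x)
    rw [← mul_sum, sum_sub_distrib, sum_const, card_univ, Fintype.card_fun, Fintype.card_bool,
      nsmul_eq_mul]
    refine mul_le_mul_of_nonneg_left ?_ (Real.exp_pos _).le
    push_cast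
    linarith
  have hfin := hlow.trans hup
  have h2 : (2 : ℝ) ^ Fintype.card ι = Real.exp (n * Real.log 2) := by
    rw [hn', Real.exp_nat_mul, Real.exp_log (by norm_num)]
  have h3 : 2 * y * Fintype.card κ = 2 / 25 * n := by
    rw [hyval, hm, hn]; field_simp
  rw [h2, h3, ← Real.exp_add, ← Real.exp_add, Real.exp_le_exp] at hfin
  have := Real.log_two_gt_d9
  nlinarith

lemma root8 {x : ℝ} (hx : 0 ≤ x) : (x ^ ((1 : ℝ) / 8)) ^ 8 = x := by
  rw [← Real.rpow_natCast, ← Real.rpow_mul hx]; norm_num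

lemma root8_le {x z : ℝ} (hx : 0 ≤ x) (hz : 0 ≤ z) (h : x ≤ z ^ 8) : x ^ ((1 : ℝ) / 8) ≤ z := by
  rw [← root8 hx] at h
  exact (pow_le_pow_iff_left₀ (Real.rpow_nonneg hx _) hz (by norm_num)).1 h

lemma full_colouring {ι κ : Type} [Fintype ι] [Fintype κ] (v : κ → ι → ℝ)
    (hv : ∀ i k, |v i k| ≤ 1) {α : ℝ} (hα : 0 < α) (hm : (Fintype.card κ : ℝ) = α ^ 8)
    (hle : Fintype.card ι ≤ Fintype.card κ) (S : Finset ι) :
    ∃ χ : ι → ℤ, (∀ k, χ k = 1 ∨ χ k = -1) ∧
      ∀ i, |∑ k ∈ S, v i k * χ k| ≤ 2500 * (α ^ 3 * (S.card : ℝ) ^ ((1 : ℝ) / 8)) := by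
  classical
  induction S using Finset.strongInductionOn with
  | _ S ih =>
  rcases S.eq_empty_or_nonempty with rfl | hS
  · exact ⟨fun _ => 1, fun _ => Or.inl rfl, fun i => by simp⟩
  have hS0 : (0 : ℝ) < S.card := by exact_mod_cast hS.card_pos
  set β := (S.card : ℝ) ^ ((1 : ℝ) / 8) with hβ
  have hβ0 : 0 < β := Real.rpow_pos_of_pos hS0 _
  have hβ8 : β ^ 8 = S.card := root8 hS0.le
  obtain ⟨χ₀, h₀, hcard, hb⟩ := half_colouring (ι := S) (fun i k => v i k) (fun i k => hv i k)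
    hα hβ0 hm (by rw [hβ8, Fintype.card_coe])
    (by rw [Fintype.card_coe]; exact (card_le_univ S).trans hle)
  rw [Fintype.card_coe] at hcard
  set χ₁ : ι → ℤ := fun k => if h : k ∈ S then χ₀ ⟨k, h⟩ else 0 with hχ₁
  set S' := S.filter fun k => χ₁ k = 0 with hS'
  have hc1 : (univ.filter fun k : S => χ₀ k ≠ 0).card = (S.filter fun k => ¬ χ₁ k = 0).card := by
    refine card_bij (fun k _ => k.1) (fun k hk => ?_) (fun _ _ _ _ h => Subtype.ext h)
      (fun k hk => ?_)
    · simpa [hχ₁, k.2] using hk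
    · obtain ⟨h1, h2⟩ := mem_filter.1 hk
      exact ⟨⟨k, h1⟩, by simpa [hχ₁, h1] using h2, rfl⟩
  have hc2 : (S'.card : ℝ) + (S.filter fun k => ¬ χ₁ k = 0).card = S.card := by
    exact_mod_cast card_filter_add_card_filter_not (s := S) (fun k => χ₁ k = 0)
  rw [hc1] at hcard
  have hlt : S' ⊂ S := by
    refine (filter_subset _ _).ssubset_of_ne fun h => ?_
    have h9 : S' = S := h
    rw [h9] at hc2
    linarith
  obtain ⟨χ', h', hb'⟩ := ih S' hlt
  refine ⟨fun k => if χ₁ k = 0 then χ' k else χ₁ k, fun k => ?_, fun i => ?_⟩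
  · beta_reduce
    split_ifs with h
    · exact h' k
    · simp only [hχ₁] at h ⊢
      split_ifs at h ⊢ with h2
      · exact (h₀ _).resolve_left h
      · exact absurd rfl h
  · have h1 : ∑ k ∈ S, v i k * ((if χ₁ k = 0 then χ' k else χ₁ k : ℤ) : ℝ) =
        ∑ k ∈ S', v i k * χ' k + ∑ k : S, v i k * χ₀ k := by
      rw [hS', sum_filter, ← sum_coe_sort S, ← sum_coe_sort S, ← sum_add_distrib]
      refine sum_congr rfl fun k _ => ?_
      have h2 : χ₁ k = χ₀ k := by simp [hχ₁, k.2]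
      rw [h2]
      split_ifs with h <;> simp [h]
    have h3 : (S'.card : ℝ) ^ ((1 : ℝ) / 8) ≤ 99 / 100 * β :=
      root8_le (Nat.cast_nonneg _) (by positivity) (by rw [mul_pow, hβ8]; nlinarith)
    have h4 := mul_le_mul_of_nonneg_left h3 (by positivity : 0 ≤ α ^ 3)
    rw [h1]
    refine (abs_add_le _ _).trans ?_
    linarith [hb' i, hb i]

lemma bits {ι κ : Type} [Fintype ι] [Fintype κ] (v : κ → ι → ℝ)
    (hv : ∀ i k, |v i k| ≤ 1) {α γ : ℝ} (hα : 0 < α) (hγ : 0 < γ)
    (hm : (Fintype.card κ : ℝ) = α ^ 8) (hle : Fintype.card ι ≤ Fintype.card κ) (t : ℕ)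
    (b : ι → ℤ) (hb : ∀ k, 0 ≤ b k ∧ b k ≤ 2 ^ t) (hs : ∑ k, (b k : ℝ) ≤ 2 ^ t * γ ^ 8) :
    ∃ c : ι → ℤ, (∀ k, c k = 0 ∨ c k = 1) ∧
      ∀ i, |∑ k, v i k * (c k - b k / 2 ^ t)| ≤ 3750 * (α ^ 3 * γ) * (1 - (3 / 5) ^ t) := by
  classical
  induction t generalizing b with
  | zero =>
    refine ⟨b, fun k => ?_, fun i => by simp⟩
    have := hb k
    omega
  | succ t ih =>
    set S := univ.filter fun k => b k % 2 = 1 with hS
    obtain ⟨χ, hχ, hχb, hχs⟩ : ∃ χ : ι → ℤ, (∀ k, χ k = 1 ∨ χ k = -1) ∧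
        (∀ i, |∑ k ∈ S, v i k * χ k| ≤ 2500 * (α ^ 3 * (S.card : ℝ) ^ ((1 : ℝ) / 8))) ∧
        ∑ k ∈ S, (χ k : ℝ) ≤ 0 := by
      obtain ⟨χ, h1, h2⟩ := full_colouring v hv hα hm hle S
      rcases le_total (∑ k ∈ S, (χ k : ℝ)) 0 with h | h
      · exact ⟨χ, h1, h2, h⟩
      · refine ⟨fun k => -χ k, fun k => ?_, fun i => ?_, ?_⟩
        · rcases h1 k with h3 | h3 <;> simp [h3]
        · simpa [abs_neg] using h2 i
        · simpa using h
    set b' : ι → ℤ := fun k => (b k + if b k % 2 = 1 then χ k else 0) / 2 with hb'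
    have hrel : ∀ k, 2 * b' k = b k + if b k % 2 = 1 then χ k else 0 := by
      intro k
      simp only [hb']
      rcases hχ k with h | h <;> rw [h] <;> split_ifs <;> omega
    have hrel' : ∀ k, (b' k : ℝ) = (b k + if b k % 2 = 1 then (χ k : ℝ) else 0) / 2 := by
      intro k
      have := congrArg (Int.cast : ℤ → ℝ) (hrel k)
      push_cast at this
      linarith
    obtain ⟨c, hc, hcb⟩ := ih b' (fun k => by
      have h1 := hrel k
      have h2 := hb k
      rw [pow_succ] at h2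
      rcases hχ k with h | h <;> rw [h] at h1 <;> split_ifs at h1 <;> omega) (by
      simp_rw [hrel']
      rw [← sum_div, sum_add_distrib, ← sum_filter]
      rw [pow_succ] at hs
      linarith)
    refine ⟨c, hc, fun i => ?_⟩
    have h1 : ∑ k, v i k * (c k - b k / 2 ^ (t + 1)) =
        ∑ k, v i k * (c k - b' k / 2 ^ t) + (∑ k ∈ S, v i k * χ k) / 2 ^ (t + 1) := by
      rw [hS, sum_filter, sum_div, ← sum_add_distrib]
      refine sum_congr rfl fun k _ => ?_
      rw [hrel' k]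
      split_ifs <;> field_simp <;> ring
    have h2 : (S.card : ℝ) ≤ ∑ k, (b k : ℝ) := by
      rw [hS, card_filter]
      push_cast
      refine sum_le_sum fun k _ => ?_
      have := (hb k).1
      split_ifs with h
      · exact_mod_cast (by omega : 1 ≤ b k)
      · exact_mod_cast this
    have h3 : (S.card : ℝ) ^ ((1 : ℝ) / 8) ≤ (6 / 5) ^ (t + 1) * γ := by
      refine root8_le (Nat.cast_nonneg _) (by positivity) (h2.trans (hs.trans ?_))
      rw [mul_pow, ← pow_mul, mul_comm (t + 1), pow_mul]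
      exact mul_le_mul_of_nonneg_right (pow_le_pow_left₀ (by norm_num) (by norm_num) _)
        (by positivity)
    have h4 : |(∑ k ∈ S, v i k * χ k) / 2 ^ (t + 1)| ≤ 2500 * (α ^ 3 * γ) * (3 / 5) ^ (t + 1) := by
      rw [abs_div, abs_of_pos (by positivity : (0 : ℝ) < 2 ^ (t + 1)), div_le_iff₀ (by positivity),
        mul_assoc, ← mul_pow]
      have h5 := mul_le_mul_of_nonneg_left h3 (by positivity : 0 ≤ α ^ 3)
      norm_num at h5 ⊢
      have := hχb i
      norm_num at this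
      linarith
    rw [h1]
    refine (abs_add_le _ _).trans ?_
    have := hcb i
    rw [pow_succ (3 / 5 : ℝ)] at h4 ⊢
    linarith

end LinRound

open LinRound in
theorem linear_rounding : ∃ C : ℝ, 0 < C ∧ ∀ (ι κ : Type) [Fintype ι] [Fintype κ]
    (v : κ → ι → ℝ) (a : ι → ℝ) (δ : ℝ), 0 < δ → (∀ i k, |v i k| ≤ 1) →
    Fintype.card ι ≤ Fintype.card κ → (∀ k, |a k| ≤ 1) →
    ∑ k, (1 - |a k|) ≤ δ * Fintype.card κ →
    ∃ ε : ι → ℝ, (∀ k, ε k = 1 ∨ ε k = -1) ∧
      ∀ i, |∑ k, v i k * (ε k - a k)| ≤ C * δ ^ ((1 : ℝ) / 8) * √(Fintype.card κ) := by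
  refine ⟨7501, by norm_num, fun ι κ _ _ v a δ hδ hv hle ha hsum => ?_⟩
  rcases isEmpty_or_nonempty κ with hκ | hκ
  · exact ⟨fun _ => 1, fun _ => Or.inl rfl, fun i => isEmptyElim i⟩
  have hm0 : (0 : ℝ) < Fintype.card κ := by exact_mod_cast Fintype.card_pos
  set α := (Fintype.card κ : ℝ) ^ ((1 : ℝ) / 8) with hα
  have hα0 : 0 < α := Real.rpow_pos_of_pos hm0 _
  have hα8 : α ^ 8 = Fintype.card κ := root8 hm0.le
  set η := δ ^ ((1 : ℝ) / 8) with hη
  have hη0 : 0 < η := Real.rpow_pos_of_pos hδ _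
  have hη8 : η ^ 8 = δ := root8 hδ.le
  have hsq : √(Fintype.card κ : ℝ) = α ^ 4 := by
    rw [← hα8, show α ^ 8 = (α ^ 4) ^ 2 by ring, Real.sqrt_sq (by positivity)]
  set s : ι → ℝ := fun k => if 0 ≤ a k then 1 else -1 with hs
  have hs1 : ∀ k, |s k| = 1 := fun k => by simp only [hs]; split_ifs <;> simp
  have hsa : ∀ k, s k * |a k| = a k := fun k => by
    simp only [hs]
    split_ifs with h
    · rw [abs_of_nonneg h, one_mul]
    · rw [abs_of_neg (not_le.1 h)]; ring
  obtain ⟨T, hT⟩ := pow_unbounded_of_one_lt (2 * Fintype.card ι / (η * α ^ 4))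
    (by norm_num : (1 : ℝ) < 2)
  rw [div_lt_iff₀ (by positivity)] at hT
  set b : ι → ℤ := fun k => ⌊2 ^ T * ((1 - |a k|) / 2)⌋ with hb
  have h2T : (0 : ℝ) < 2 ^ T := by positivity
  have hb1 : ∀ k, (b k : ℝ) ≤ 2 ^ T * ((1 - |a k|) / 2) := fun k => Int.floor_le _
  have hb2 : ∀ k, 2 ^ T * ((1 - |a k|) / 2) < b k + 1 := fun k => Int.lt_floor_add_one _
  obtain ⟨c, hc, hcb⟩ := bits (fun i k => v i k * s k)
    (fun i k => by rw [abs_mul, hs1, mul_one]; exact hv i k) hα0 (mul_pos hη0 hα0) hα8.symm hle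
    T b (fun k => ⟨Int.floor_nonneg.2 (mul_nonneg h2T.le (by linarith [ha k])), by
      have h1 : (b k : ℝ) ≤ 2 ^ T := (hb1 k).trans
        (mul_le_of_le_one_right h2T.le (by linarith [abs_nonneg (a k)]))
      exact_mod_cast h1⟩) (by
      refine (sum_le_sum fun k _ => hb1 k).trans ?_
      rw [← mul_sum, ← sum_div, mul_pow, hη8, hα8]
      refine mul_le_mul_of_nonneg_left ?_ h2T.le
      have : 0 < δ * Fintype.card κ := by positivity
      linarith)
  refine ⟨fun k => s k * (1 - 2 * c k), fun k => ?_, fun i => ?_⟩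
  · simp only [hs]
    rcases hc k with h | h <;> rw [h] <;> split_ifs <;> norm_num
  · have h1 : ∑ k, v i k * (s k * (1 - 2 * c k) - a k) =
        -2 * ∑ k, v i k * s k * (c k - b k / 2 ^ T) +
          ∑ k, v i k * s k * (2 * ((1 - |a k|) / 2 - b k / 2 ^ T)) := by
      rw [mul_sum, ← sum_add_distrib]
      refine sum_congr rfl fun k _ => ?_
      conv_lhs => rw [← hsa k]
      ring
    have h2 : |∑ k, v i k * s k * (2 * ((1 - |a k|) / 2 - b k / 2 ^ T))| ≤ η * α ^ 4 := by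
      refine (abs_sum_le_sum_abs _ _).trans ?_
      have h3 : ∀ k, |v i k * s k * (2 * ((1 - |a k|) / 2 - b k / 2 ^ T))| ≤ 2 / 2 ^ T := by
        intro k
        have h4 : b k / 2 ^ T ≤ (1 - |a k|) / 2 := by
          rw [div_le_iff₀ h2T]; linarith [hb1 k]
        have h5 : (1 - |a k|) / 2 - b k / 2 ^ T ≤ 1 / 2 ^ T := by
          rw [sub_le_iff_le_add, ← add_div, le_div_iff₀ h2T]; linarith [hb2 k]
        rw [abs_mul, abs_mul, hs1, mul_one, abs_of_nonneg (by linarith :
          0 ≤ 2 * ((1 - |a k|) / 2 - b k / 2 ^ T))]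
        refine (mul_le_of_le_one_left (by linarith) (hv i k)).trans ?_
        rw [show (2 : ℝ) / 2 ^ T = 2 * (1 / 2 ^ T) by ring]
        linarith
      refine (sum_le_sum fun k _ => h3 k).trans ?_
      rw [sum_const, card_univ, nsmul_eq_mul, ← mul_div_assoc, div_le_iff₀ h2T]
      linarith
    rw [h1, hsq]
    refine (abs_add_le _ _).trans ?_
    rw [abs_mul, abs_neg, abs_two]
    have h6 := hcb i
    have h7 : 0 ≤ 3750 * (α ^ 3 * (η * α)) * (3 / 5 : ℝ) ^ T := by positivity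
    nlinarith

end Vale.Agent.P110
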