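import Vale.Agent.P110.Sampling
import Vale.Agent.P110.LinRound
import Vale.Agent.P110.Flat

namespace Vale.Agent.P110

open Finset MeasureTheory

theorem ultraflat (c : ℝ) (hc : 0 < c) : ∃ N₀ : ℕ, ∀ N : ℕ, N₀ ≤ N → ∃ ε : Fin N → ℝ,
    (∀ k, ε k = 1 ∨ ε k = -1) ∧ ∀ z : ℂ, ‖z‖ = 1 →
      (1 - c) * √N ≤ ‖∑ k, (ε k : ℂ) * z ^ (k : ℕ)‖ ∧
      ‖∑ k, (ε k : ℂ) * z ^ (k : ℕ)‖ ≤ (1 + c) * √N := by
  obtain ⟨C, hC, hlin⟩ := linear_rounding
  obtain ⟨u, hu0, hu1, hu2⟩ : ∃ u : ℝ, 0 < u ∧ u ≤ 1 ∧ (8 * C + 1) * u ≤ c := by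
    refine ⟨min 1 (c / (8 * C + 1)), lt_min one_pos (by positivity), min_le_left _ _, ?_⟩
    rw [mul_comm, ← le_div_iff₀ (by positivity)]
    exact min_le_right _ _
  have hη0 : 0 < u ^ 8 := by positivity
  have hη1 : u ^ 8 ≤ u := by simpa using pow_le_pow_of_le_one hu0.le hu1 (show 1 ≤ 8 by norm_num)
  have hroot : (u ^ 8) ^ ((1 : ℝ) / 8) = u := by
    rw [one_div]
    exact_mod_cast Real.pow_rpow_inv_natCast hu0.le (show (8 : ℕ) ≠ 0 by norm_num)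
  generalize u ^ 8 = η at hη0 hη1 hroot
  obtain ⟨N₀, hN₀⟩ := flat_real η hη0
  refine ⟨max N₀ 1, fun N hN => ?_⟩
  have hN1 : 0 < N := le_of_max_le_right hN
  have hN' : (0 : ℝ) < N := by exact_mod_cast hN1
  obtain ⟨a, ha1, ha2⟩ := hN₀ N (le_of_max_le_left hN)
  have hsq : √(N : ℝ) * √N = N := Real.mul_self_sqrt hN'.le
  have hs0 : 0 ≤ √(N : ℝ) := Real.sqrt_nonneg _
  have h1 : (1 - η) ^ 2 * N ≤ ∑ k, a k ^ 2 := by
    have hp := Sampling.parseval N N hN1 le_rfl (fun k => (a k : ℂ))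
    simp only [Complex.norm_real, Real.norm_eq_abs, sq_abs] at hp
    have h2 : ∀ r ∈ range N, (1 - η) ^ 2 * N ≤
        ‖∑ k, (a k : ℂ) * e ((k : ℕ) * ((r : ℝ) / N))‖ ^ 2 := by
      intro r _
      have h3 := (abs_le.1 (ha2 ((r : ℝ) / N))).1
      have h4 : (1 - η) * √N ≤ ‖∑ k, (a k : ℂ) * e ((k : ℕ) * ((r : ℝ) / N))‖ := by linarith
      have h5 := pow_le_pow_left₀ (mul_nonneg (by linarith) hs0) h4 2
      rwa [mul_pow, Real.sq_sqrt hN'.le] at h5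
    have h6 := card_nsmul_le_sum _ _ _ h2
    rw [hp, card_range, nsmul_eq_mul] at h6
    exact le_of_mul_le_mul_left h6 hN'
  have hcard : (Fintype.card (Fin (2 * N) × Bool) : ℝ) = 4 * N := by
    simp only [Fintype.card_prod, Fintype.card_fin, Fintype.card_bool]
    push_cast
    ring
  obtain ⟨ε, hε1, hε2⟩ := hlin (Fin N) (Fin (2 * N) × Bool)
    (fun i k => if i.2 then (e ((k : ℕ) * ((i.1 : ℕ) / (2 * N : ℝ)))).re
      else (e ((k : ℕ) * ((i.1 : ℕ) / (2 * N : ℝ)))).im) a η hη0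
    (fun i k => by
      split_ifs
      · exact (Complex.abs_re_le_norm _).trans (norm_e _).le
      · exact (Complex.abs_im_le_norm _).trans (norm_e _).le)
    (by simp only [Fintype.card_prod, Fintype.card_fin, Fintype.card_bool]; omega) ha1
    (by
      have h2 : ∑ k, (1 - |a k|) ≤ ∑ k, (1 - a k ^ 2) := sum_le_sum fun k _ => by
        have := ha1 k
        have h0 := abs_nonneg (a k)
        rw [← sq_abs]
        nlinarith
      rw [sum_sub_distrib (f := fun _ => (1 : ℝ)) (g := fun k => a k ^ 2), sum_const, card_univ,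
        Fintype.card_fin, nsmul_eq_mul, mul_one] at h2
      rw [hcard]
      nlinarith [mul_pos hη0 hN', mul_nonneg (sq_nonneg η) hN'.le])
  have hsqrt : √(4 * (N : ℝ)) = 2 * √N := by
    rw [Real.sqrt_mul (by norm_num), show (4 : ℝ) = 2 ^ 2 by norm_num, Real.sqrt_sq (by norm_num)]
  rw [hcard, hroot, hsqrt] at hε2
  have h3 := sampling N (fun k => ((ε k - a k : ℝ) : ℂ)) (2 * (C * u * (2 * √N))) (fun r => by
    refine (Complex.norm_le_abs_re_add_abs_im _).trans ?_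
    have b1 := hε2 (r, true)
    have b2 := hε2 (r, false)
    simp only [if_true, Bool.false_eq_true, if_false] at b1 b2
    rw [Complex.re_sum, Complex.im_sum]
    simp only [Complex.re_ofReal_mul, Complex.im_ofReal_mul, mul_comm (ε _ - a _)]
    linarith) (by positivity)
  refine ⟨ε, hε1, fun z hz => ?_⟩
  obtain ⟨t, -, -, rfl⟩ := exists_e_eq hz
  have h4 : ∑ k, (ε k : ℂ) * e t ^ (k : ℕ) = ∑ k, (a k : ℂ) * e ((k : ℕ) * t) +
      ∑ k, ((ε k - a k : ℝ) : ℂ) * e ((k : ℕ) * t) := by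
    rw [← sum_add_distrib]
    refine sum_congr rfl fun k _ => ?_
    rw [e_nat_mul]
    push_cast
    ring
  have h5 := abs_le.1 (ha2 t)
  have h6 := h3 t
  have h7 := abs_le.1 (abs_norm_sub_norm_le (∑ k, (ε k : ℂ) * e t ^ (k : ℕ))
    (∑ k, (a k : ℂ) * e ((k : ℕ) * t)))
  rw [show ∑ k, (ε k : ℂ) * e t ^ (k : ℕ) - ∑ k, (a k : ℂ) * e ((k : ℕ) * t) =
    ∑ k, ((ε k - a k : ℝ) : ℂ) * e ((k : ℕ) * t) by rw [h4]; ring] at h7
  have h8 := mul_le_mul_of_nonneg_right hu2 hs0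
  have h9 := mul_le_mul_of_nonneg_right hη1 hs0
  constructor <;> nlinarith [h5.1, h5.2, h7.1, h7.2]

end Vale.Agent.P110
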