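import Vale.Agent.P110.Basic

/-! Small lemmas for the flat polynomial with coefficients in `[-1,1]`. -/

namespace Vale.Agent.P110.Flat
open Finset MeasureTheory Vale.Agent.P110

lemma placement {Bk : Type} [Fintype Bk] (r : Bk → ℝ) (hr : ∀ b, 0 < r b) (d K : ℝ)
    (hsum : d + 2 * ∑ b, r b ≤ K) : ∃ x : Bk → ℝ, (∀ b, d ≤ x b - r b ∧ x b + r b ≤ K) ∧
      ∀ b b', b ≠ b' → r b + r b' ≤ |x b - x b'| := by
  classical
  let i := Fintype.equivFin Bk
  let L : Bk → ℝ := fun b => ∑ b' ∈ univ.filter (fun b' => i b' < i b), r b'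
  have hL0 : ∀ b, 0 ≤ L b := fun b => sum_nonneg fun b' _ => (hr b').le
  have hstep : ∀ (b : Bk) (T : Finset Bk), (∀ b', i b' ≤ i b → b' ∈ T) →
      L b + r b ≤ ∑ b' ∈ T, r b' := by
    intro b T hT
    have hnot : b ∉ univ.filter (fun b' => i b' < i b) := by simp
    have : L b + r b = ∑ b' ∈ insert b (univ.filter (fun b' => i b' < i b)), r b' := by
      rw [sum_insert hnot, add_comm]
    rw [this]
    refine sum_le_sum_of_subset_of_nonneg ?_ fun b' _ _ => (hr b').le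
    intro b' hb'
    rcases mem_insert.mp hb' with rfl | h
    · exact hT _ le_rfl
    · exact hT _ (mem_filter.mp h).2.le
  have hlt : ∀ b b', i b < i b' → L b + r b ≤ L b' := by
    intro b b' h
    exact hstep b _ fun b'' h'' => mem_filter.mpr ⟨mem_univ _, h''.trans_lt h⟩
  refine ⟨fun b => d + 2 * L b + r b, fun b => ⟨?_, ?_⟩, ?_⟩
  · have := hL0 b; linarith
  · have := hstep b univ fun _ _ => mem_univ _
    linarith
  · intro b b' hne
    rcases lt_or_gt_of_ne (fun h => hne (i.injective h)) with h | h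
    · have := hlt b b' h
      rw [le_abs]; right; linarith
    · have := hlt b' b h
      rw [le_abs]; left; linarith

lemma abs_sum_le_of_single {C : Type} [Fintype C] (f : C → ℝ) (K : ℝ) (hK : 0 ≤ K)
    (hf : ∀ c, |f c| ≤ K) (h : ∀ c c', c ≠ c' → f c = 0 ∨ f c' = 0) : |∑ c, f c| ≤ K := by
  by_cases h0 : ∀ c, f c = 0
  · simp [h0, hK]
  · push Not at h0
    obtain ⟨c, hc⟩ := h0
    rw [Finset.sum_eq_single c (fun c' _ hne => ((h c' c hne).resolve_right hc)) (by simp)]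
    exact hf c

lemma dist_round_lip (x y : ℝ) : |(|x - round x|) - (|y - round y|)| ≤ |x - y| := by
  have key : ∀ x y : ℝ, |x - round x| ≤ |x - y| + |y - round y| := by
    intro x y
    refine (round_le x (round y)).trans ?_
    have := abs_add_le (x - y) (y - round y)
    simpa using this
  have h1 := key x y
  have h2 := key y x
  rw [abs_sub_comm y x] at h2
  rw [abs_le]; constructor <;> linarith

lemma unif_cont (g : ℝ → ℝ) (hg : Continuous g) (ω : ℝ) (hω : 0 < ω) : ∃ ρ₀ : ℝ, 0 < ρ₀ ∧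
    ∀ x t : ℝ, |x - t| ≤ ρ₀ → |g (|x - round x|) - g (|t - round t|)| ≤ ω := by
  have hu : UniformContinuousOn g (Set.Icc 0 (1 / 2)) :=
    isCompact_Icc.uniformContinuousOn_of_continuous hg.continuousOn
  obtain ⟨ρ, hρ, h⟩ := Metric.uniformContinuousOn_iff_le.mp hu ω hω
  refine ⟨ρ, hρ, fun x t hxt => ?_⟩
  have := h _ ⟨abs_nonneg _, abs_sub_round x⟩ _ ⟨abs_nonneg _, abs_sub_round t⟩
    (by rw [Real.dist_eq]; exact (dist_round_lip x t).trans hxt)
  rwa [Real.dist_eq] at this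

lemma intervalIntegral_conj (f : ℝ → ℂ) (a b : ℝ) :
    ∫ x in a..b, (starRingEnd ℂ) (f x) = (starRingEnd ℂ) (∫ x in a..b, f x) := by
  simp only [intervalIntegral, map_sub, integral_conj]

lemma model_signed (P : ℝ → ℝ) (y s Θ T₀ ε : ℝ)
    (h : ∀ T : ℝ, T₀ ≤ T →
      ‖(√T : ℂ) * (∫ σ in (-1 : ℝ)..1, e (T * (P σ - y * σ))) - s * e (T * Θ + 1 / 8)‖ ≤ ε)
    (T : ℝ) (hT : T₀ ≤ |T|) :
    ‖(√|T| : ℂ) * (∫ σ in (-1 : ℝ)..1, e (T * (P σ - y * σ)))
      - s * e (T * Θ + if 0 ≤ T then 1 / 8 else -1 / 8)‖ ≤ ε := by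
  split_ifs with h0
  · rw [abs_of_nonneg h0] at hT ⊢
    exact h T hT
  · push Not at h0
    rw [abs_of_neg h0] at hT ⊢
    have := h (-T) hT
    rw [← Complex.norm_conj] at this
    convert this using 2
    rw [map_sub, map_mul, map_mul, Complex.conj_ofReal, Complex.conj_ofReal, conj_e,
      ← intervalIntegral_conj]
    congr 2
    · congr 1
      funext σ
      rw [conj_e]; congr 1; ring
    · congr 1; ring

lemma cell_main (I J α : ℂ) (N h r ρ γ sg k w s Θ E ε : ℝ) (hN : 0 < N) (hh : h ≠ 0) (hr : 0 < r)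
    (hρ : 0 ≤ ρ) (hamp : |h| / r = (ρ * ‖α‖) ^ 2) (hγ : (‖α‖ : ℂ) * e (γ + sg) = α)
    (h1 : ‖I - ((|h| : ℝ) : ℂ) * (e (γ - k * w) * J)‖ ≤ E)
    (h2 : ‖(√|N * h * r| : ℂ) * J - s * e (N * h * r * Θ + sg)‖ ≤ ε) :
    ‖(√N : ℂ) * I - ((ρ * s : ℝ) : ℂ) * (α * e (N * h * r * Θ - k * w))‖
      ≤ √N * E + ρ * ‖α‖ * ε := by
  have hha : 0 < |h| := abs_pos.mpr hh
  have hsq : √N * |h| = ρ * ‖α‖ * √|N * h * r| := by
    have hρα : 0 ≤ ρ * ‖α‖ := mul_nonneg hρ (norm_nonneg _)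
    have e1 : ρ * ‖α‖ = √(|h| / r) := by rw [hamp, Real.sqrt_sq hρα]
    rw [e1, ← Real.sqrt_mul (by positivity), abs_mul, abs_mul, abs_of_pos hN, abs_of_pos hr]
    have : |h| / r * (N * |h| * r) = N * |h| ^ 2 := by field_simp
    rw [this, Real.sqrt_mul hN.le, Real.sqrt_sq hha.le]
  have key : (√N : ℂ) * I - ((ρ * s : ℝ) : ℂ) * (α * e (N * h * r * Θ - k * w))
      = (√N : ℂ) * (I - ((|h| : ℝ) : ℂ) * (e (γ - k * w) * J))
        + ((ρ * ‖α‖ : ℝ) : ℂ) * e (γ - k * w) *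
          ((√|N * h * r| : ℂ) * J - s * e (N * h * r * Θ + sg)) := by
    have c1 : (√N : ℂ) * ((|h| : ℝ) : ℂ) = ((ρ * ‖α‖ : ℝ) : ℂ) * (√|N * h * r| : ℂ) := by
      exact_mod_cast hsq
    have c2 : α * e (N * h * r * Θ - k * w)
        = (‖α‖ : ℂ) * (e (γ - k * w) * e (N * h * r * Θ + sg)) := by
      conv_lhs => rw [← hγ]
      rw [mul_assoc, ← e_add, ← e_add]; congr 2; ring
    rw [c2]
    push_cast at c1 ⊢
    linear_combination (e (γ - k * w) * J) * c1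
  rw [key]
  refine (norm_add_le _ _).trans (add_le_add ?_ ?_)
  · rw [norm_mul, Complex.norm_real, Real.norm_eq_abs, abs_of_nonneg (Real.sqrt_nonneg _)]
    exact mul_le_mul_of_nonneg_left h1 (Real.sqrt_nonneg _)
  · rw [norm_mul, norm_mul, norm_e, mul_one, Complex.norm_real, Real.norm_eq_abs,
      abs_of_nonneg (mul_nonneg hρ (norm_nonneg _))]
    exact mul_le_mul_of_nonneg_left h2 (mul_nonneg hρ (norm_nonneg _))

lemma exists_phase (α : ℂ) (sg : ℝ) : ∃ γ : ℝ, (‖α‖ : ℂ) * e (γ + sg) = α := by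
  by_cases h : α = 0
  · exact ⟨0, by simp [h]⟩
  · have hn : (‖α‖ : ℂ) ≠ 0 := by exact_mod_cast norm_ne_zero_iff.mpr h
    have : ‖α / (‖α‖ : ℂ)‖ = 1 := by
      rw [norm_div, Complex.norm_real, Real.norm_eq_abs, abs_norm,
        div_self (norm_ne_zero_iff.mpr h)]
    obtain ⟨t, -, -, ht⟩ := exists_e_eq this
    refine ⟨t - sg, ?_⟩
    rw [sub_add_cancel, ht]
    field_simp

end Vale.Agent.P110.Flat
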