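import Vale.Agent.P110.FlatAux

/-! The bound for the Fourier coefficients of the glued unimodular function. -/

namespace Vale.Agent.P110.Flat
open Finset MeasureTheory Vale.Agent.P110

lemma coef {Bk C : Type} [Fintype Bk] [Fintype C] [DecidableEq Bk] (blk : C → Bk)
    (w l : C → ℝ) (α : C → ℂ) (x r : Bk → ℝ) (hr : ∀ b, 0 < r b)
    (hsep : ∀ b b', b ≠ b' → r b + r b' ≤ |x b - x b'|) (δ : ℝ) (hδ : 0 ≤ δ)
    (hH : ∀ (b : Bk) (θ : ℝ) (k : ℤ), |2 * (∑ c ∈ univ.filter (fun c => blk c = b),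
        α c * e (l c * θ + k * w c)).re| ≤ 1 + δ)
    (P : ℝ → ℝ) (T₀ ε : ℝ) (hε : 0 ≤ ε)
    (hmodel : ∀ y : ℝ, ∃ s Θ : ℝ, 0 ≤ s ∧ s ≤ 1 + ε ∧ (s ≠ 0 → |y| < 1) ∧ ∀ T : ℝ, T₀ ≤ T →
      ‖(√T : ℂ) * (∫ σ in (-1 : ℝ)..1, e (T * (P σ - y * σ))) - s * e (T * Θ + 1 / 8)‖ ≤ ε)
    (τ ρ N : ℝ) (hτ1 : τ < 1) (hρ : 0 ≤ ρ) (hN : 0 < N) (hl : ∀ c, l c ≠ 0)
    (hamp : ∀ c, |l c * (1 - τ) / 2| / r (blk c) = (ρ * ‖α c‖) ^ 2)
    (hT : ∀ c, T₀ ≤ |N * (l c * (1 - τ) / 2) * r (blk c)|) (γ : C → ℝ)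
    (hγ : ∀ c, (‖α c‖ : ℂ) * e (γ c + if 0 ≤ N * (l c * (1 - τ) / 2) * r (blk c)
      then 1 / 8 else -1 / 8) = α c) (k : ℤ) (I : C → ℂ) (E : C → ℝ)
    (hI : ∀ c, ‖I c - ((|l c * (1 - τ) / 2| : ℝ) : ℂ) * (e (γ c - k * w c) *
      ∫ σ in (-1 : ℝ)..1, e ((N * (l c * (1 - τ) / 2) * r (blk c)) *
        (P σ - ((k / N - x (blk c)) / r (blk c)) * σ)))‖ ≤ E c) :
    √N * |2 * (∑ c, I c).re| ≤ ρ * (1 + ε) * (1 + δ) + 2 * ∑ c, (√N * E c + ρ * ‖α c‖ * ε) := by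
  choose s Θ hs0 hs1 hsy hm using hmodel
  set y : Bk → ℝ := fun b => (k / N - x b) / r b with hy
  set θ : Bk → ℝ := fun b => N * ((1 - τ) / 2) * r b * Θ (y b) with hθ
  set main : C → ℂ := fun c => ((ρ * s (y (blk c)) : ℝ) : ℂ) *
    (α c * e (l c * θ (blk c) + ((-k : ℤ) : ℝ) * w c)) with hmain
  have hc : ∀ c, ‖(√N : ℂ) * I c - main c‖ ≤ √N * E c + ρ * ‖α c‖ * ε := by
    intro c
    have hh : l c * (1 - τ) / 2 ≠ 0 :=
      div_ne_zero (mul_ne_zero (hl c) (by linarith)) two_ne_zero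
    have := cell_main (I c) _ (α c) N (l c * (1 - τ) / 2) (r (blk c)) ρ (γ c) _ k (w c)
      (s (y (blk c))) (Θ (y (blk c))) (E c) ε hN hh (hr _) hρ (hamp c) (hγ c) (hI c)
      (model_signed P (y (blk c)) (s (y (blk c))) (Θ (y (blk c))) T₀ ε (hm _) _ (hT c))
    convert this using 5
    simp only [hθ]
    push_cast
    ring_nf
  have hsum : |2 * (∑ c, main c).re| ≤ ρ * (1 + ε) * (1 + δ) := by
    have e1 : 2 * (∑ c, main c).re = ∑ b, ρ * s (y b) * (2 * (∑ c ∈ univ.filter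
        (fun c => blk c = b), α c * e (l c * θ b + ((-k : ℤ) : ℝ) * w c)).re) := by
      rw [← sum_fiberwise univ blk main, Complex.re_sum, mul_sum]
      refine sum_congr rfl fun b _ => ?_
      have : ∑ c ∈ univ.filter (fun c => blk c = b), main c = ((ρ * s (y b) : ℝ) : ℂ) *
          ∑ c ∈ univ.filter (fun c => blk c = b),
            α c * e (l c * θ b + ((-k : ℤ) : ℝ) * w c) := by
        rw [mul_sum]
        refine sum_congr rfl fun c hc => ?_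
        rw [← (mem_filter.mp hc).2]
      rw [this, Complex.re_ofReal_mul]; ring
    rw [e1]
    refine abs_sum_le_of_single _ _ (by positivity) ?_ ?_
    · intro b
      rw [abs_mul, abs_of_nonneg (mul_nonneg hρ (hs0 _))]
      exact mul_le_mul (mul_le_mul_of_nonneg_left (hs1 _) hρ) (hH b _ _) (abs_nonneg _)
        (by positivity)
    · intro b b' hne
      by_contra hcon
      push Not at hcon
      have h1 : s (y b) ≠ 0 := fun h => hcon.1 (by rw [h]; ring)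
      have h2 : s (y b') ≠ 0 := fun h => hcon.2 (by rw [h]; ring)
      have h3 := hsy _ h1
      have h4 := hsy _ h2
      simp only [hy] at h3 h4
      rw [abs_div, abs_of_pos (hr _), div_lt_one (hr _), abs_lt] at h3 h4
      have h5 := hsep b b' hne
      rw [le_abs] at h5
      rcases h5 with h5 | h5 <;> linarith [h3.1, h3.2, h4.1, h4.2]
  have e2 : √N * (2 * (∑ c, I c).re) = 2 * (∑ c, main c).re
      + 2 * (∑ c, ((√N : ℂ) * I c - main c)).re := by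
    rw [sum_sub_distrib, ← mul_sum, Complex.sub_re, Complex.re_ofReal_mul]; ring
  have e3 : |2 * (∑ c, ((√N : ℂ) * I c - main c)).re|
      ≤ 2 * ∑ c, (√N * E c + ρ * ‖α c‖ * ε) := by
    rw [abs_mul, abs_two]
    refine mul_le_mul_of_nonneg_left ?_ (by norm_num)
    refine (Complex.abs_re_le_norm _).trans ((norm_sum_le _ _).trans ?_)
    exact sum_le_sum fun c _ => hc c
  rw [← abs_of_nonneg (Real.sqrt_nonneg N), ← abs_mul, abs_of_nonneg (Real.sqrt_nonneg N), e2]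
  exact (abs_add_le _ _).trans (add_le_add hsum e3)

end Vale.Agent.P110.Flat
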