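import Vale.Agent.P110.OscA

namespace Vale.Agent.P110
open Finset MeasureTheory

namespace Osc
open Set

lemma quad_pos {a b A : ℝ} (B C : ℝ) (hab : a ≤ b) (hA : 0 < A) :
    ‖∫ t in a..b, e (A * t ^ 2 + B * t + C)‖ ≤ 3 / √A := by
  have h1 : ∀ x, HasDerivAt (fun t => A * t ^ 2 + B * t + C) (2 * A * x + B) x := by
    intro x
    have := ((((hasDerivAt_id x).pow 2).const_mul A).add ((hasDerivAt_id x).const_mul B)).add_const C
    refine this.congr_deriv ?_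
    simp
    ring
  have h2 : ∀ x, HasDerivAt (fun t => 2 * A * t + B) (2 * A) x := by
    intro x
    have := ((hasDerivAt_id x).const_mul (2 * A)).add_const B
    refine this.congr_deriv ?_
    simp
  have h3 := sd (lam := 2 * A) hab h1 h2 continuous_const (by positivity) (fun _ _ => le_rfl)
  refine h3.trans ?_
  have hs : 0 < √A := Real.sqrt_pos.2 hA
  have h4 : 4 / 3 * √A ≤ √(2 * A) := by
    apply Real.le_sqrt_of_sq_le
    rw [mul_pow, Real.sq_sqrt hA.le]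
    linarith
  rw [div_le_div_iff₀ (by positivity) hs]
  linarith

lemma quad_le {a b A : ℝ} (B C : ℝ) (hab : a ≤ b) (hA : A ≠ 0) :
    ‖∫ t in a..b, e (A * t ^ 2 + B * t + C)‖ ≤ 3 / √|A| := by
  rcases lt_or_gt_of_ne hA with h | h
  · have h1 := quad_pos (-B) (-C) hab (neg_pos.2 h)
    rw [abs_of_neg h]
    refine le_trans (le_of_eq ?_) h1
    rw [← Complex.norm_conj, ← intervalIntegral.intervalIntegral_conj]
    congr 1
    refine intervalIntegral.integral_congr fun t _ => ?_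
    simp only [conj_e]
    congr 1
    ring
  · rw [abs_of_pos h]
    exact quad_pos B C hab h

lemma mvt {f f' : ℝ → ℝ} (hf : ∀ x, HasDerivAt f (f' x) x) {ρ C : ℝ} (hC : 0 ≤ C)
    (hb : ∀ u ∈ Icc (-ρ) ρ, |f' u| ≤ C) (h0 : f 0 = 0) : ∀ u ∈ Icc (-ρ) ρ, |f u| ≤ C * ρ := by
  intro u hu
  have hρ : 0 ≤ ρ := by linarith [hu.1, hu.2]
  have := (convex_Icc (-ρ) ρ).norm_image_sub_le_of_norm_hasDerivWithin_le
    (fun x _ => (hf x).hasDerivWithinAt) hb (⟨by linarith, hρ⟩ : (0 : ℝ) ∈ Icc (-ρ) ρ) hu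
  rw [h0, sub_zero, sub_zero, Real.norm_eq_abs, Real.norm_eq_abs] at this
  exact this.trans (mul_le_mul_of_nonneg_left (abs_le.2 hu) hC)

section model

variable {P p p1 p2 : ℝ → ℝ}

lemma phase_deriv (hP : ∀ σ, HasDerivAt P (p σ) σ) (T y σ : ℝ) :
    HasDerivAt (fun σ => T * (P σ - y * σ)) (T * (p σ - y)) σ := by
  have := ((hP σ).sub ((hasDerivAt_id σ).const_mul y)).const_mul T
  refine this.congr_deriv ?_
  simp

lemma phase_deriv2 (hp : ∀ σ, HasDerivAt p (p1 σ) σ) (T y σ : ℝ) :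
    HasDerivAt (fun σ => T * (p σ - y)) (T * p1 σ) σ :=
  ((hp σ).sub_const y).const_mul T

/-- a piece without stationary point -/
lemma piece_fd (hP : ∀ σ, HasDerivAt P (p σ) σ) (hp : ∀ σ, HasDerivAt p (p1 σ) σ)
    (hp1 : ∀ σ, HasDerivAt p1 (p2 σ) σ) (hlow : ∀ σ, 1 / 2 ≤ p1 σ) {τ y a b d : ℝ} (hτ : 0 < τ)
    (hab : a ≤ b) (hd : 0 < d) (h : ∀ σ ∈ Icc a b, d ≤ |p σ - y|) :
    ‖∫ σ in a..b, e (τ ^ 2 * (P σ - y * σ))‖ ≤ 1 / (τ ^ 2 * d) := by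
  have hc : Continuous p1 := continuous_iff_continuousAt.2 fun x => (hp1 x).continuousAt
  refine fd hab (phase_deriv hP _ y) (phase_deriv2 hp _ y) (continuous_const.mul hc)
    (fun x _ => mul_nonneg (by positivity) (by linarith [hlow x])) (by positivity) fun x hx => ?_
  rw [abs_mul, abs_of_pos (by positivity : 0 < τ ^ 2)]
  exact mul_le_mul_of_nonneg_left (h x hx) (by positivity)

lemma piece_sd (hP : ∀ σ, HasDerivAt P (p σ) σ) (hp : ∀ σ, HasDerivAt p (p1 σ) σ)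
    (hp1 : ∀ σ, HasDerivAt p1 (p2 σ) σ) {τ y a b k : ℝ} (hτ : 0 < τ)
    (hab : a ≤ b) (hk : 0 < k) (h : ∀ σ ∈ Icc a b, k ^ 2 ≤ p1 σ) :
    ‖∫ σ in a..b, e (τ ^ 2 * (P σ - y * σ))‖ ≤ 4 / (τ * k) := by
  have hc : Continuous p1 := continuous_iff_continuousAt.2 fun x => (hp1 x).continuousAt
  have := sd (lam := (τ * k) ^ 2) hab (phase_deriv hP (τ ^ 2) y) (phase_deriv2 hp _ y)
    (continuous_const.mul hc) (by positivity) fun x hx => by
      rw [mul_pow]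
      exact mul_le_mul_of_nonneg_left (h x hx) (by positivity)
  rwa [Real.sqrt_sq (by positivity)] at this

/-- the stationary piece -/
lemma piece_stat (hP : ∀ σ, HasDerivAt P (p σ) σ) (hp : ∀ σ, HasDerivAt p (p1 σ) σ)
    (hp1 : ∀ σ, HasDerivAt p1 (p2 σ) σ) (hlow : ∀ σ, 1 / 2 ≤ p1 σ) {Λ : ℝ} (hΛ : 0 ≤ Λ)
    (hp2 : ∀ σ ∈ Icc (-1 : ℝ) 1, |p2 σ| ≤ Λ) {τ ρ σ₀ : ℝ} (hτ : 0 < τ) (hρ : 0 < ρ)
    (h1 : -1 ≤ σ₀ - ρ) (h2 : σ₀ + ρ ≤ 1) :
    ‖(τ : ℂ) * (∫ σ in (σ₀ - ρ)..(σ₀ + ρ), e (τ ^ 2 * (P σ - p σ₀ * σ))) -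
      ((1 / √(p1 σ₀) : ℝ) : ℂ) * e (τ ^ 2 * (P σ₀ - p σ₀ * σ₀) + 1 / 8)‖ ≤
      16 * Λ * τ ^ 3 * ρ ^ 4 + 2 / (τ * ρ) := by
  have hpi := Real.pi_le_four
  have hsh : ∀ {f f' : ℝ → ℝ}, (∀ σ, HasDerivAt f (f' σ) σ) → ∀ u,
      HasDerivAt (fun u => f (σ₀ + u)) (f' (σ₀ + u)) u := fun hf u => (hf _).comp_const_add σ₀ u
  have t1 : ∀ u ∈ Icc (-ρ) ρ, |p1 (σ₀ + u) - p1 σ₀| ≤ Λ * ρ :=
    mvt (f' := fun u => p2 (σ₀ + u)) (fun u => (hsh hp1 u).sub_const _) hΛ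
      (fun u hu => hp2 _ ⟨by linarith [hu.1], by linarith [hu.2]⟩) (by simp)
  have t2 : ∀ u ∈ Icc (-ρ) ρ, |p (σ₀ + u) - p σ₀ - p1 σ₀ * u| ≤ Λ * ρ * ρ :=
    mvt (f' := fun u => p1 (σ₀ + u) - p1 σ₀) (fun u => by
      have := ((hsh hp u).sub_const (p σ₀)).sub ((hasDerivAt_id u).const_mul (p1 σ₀))
      refine this.congr_deriv ?_
      simp) (by positivity) t1 (by simp)
  have t3 : ∀ u ∈ Icc (-ρ) ρ,
      |P (σ₀ + u) - P σ₀ - p σ₀ * u - p1 σ₀ * u ^ 2 / 2| ≤ Λ * ρ * ρ * ρ :=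
    mvt (f' := fun u => p (σ₀ + u) - p σ₀ - p1 σ₀ * u) (fun u => by
      have := (((hsh hP u).sub_const (P σ₀)).sub ((hasDerivAt_id u).const_mul (p σ₀))).sub
        ((((hasDerivAt_id u).pow 2).const_mul (p1 σ₀)).div_const 2)
      refine this.congr_deriv ?_
      simp
      ring) (by positivity) t2 (by simp)
  have hq0 : 0 < p1 σ₀ := by linarith [hlow σ₀]
  set Θ := τ ^ 2 * (P σ₀ - p σ₀ * σ₀) with hΘ
  set q := τ ^ 2 * p1 σ₀ with hq
  have hqpos : 0 < q := by positivity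
  have hF := fresnel hqpos hρ
  have hce := cont_e (phase_deriv hP (τ ^ 2) (p σ₀))
  have e1 : ∫ σ in (σ₀ - ρ)..(σ₀ + ρ), e (τ ^ 2 * (P σ - p σ₀ * σ)) =
      ∫ u in (-ρ)..ρ, e (τ ^ 2 * (P (σ₀ + u) - p σ₀ * (σ₀ + u))) := by
    rw [intervalIntegral.integral_comp_add_left (fun σ => e (τ ^ 2 * (P σ - p σ₀ * σ))) σ₀,
      sub_eq_add_neg]
  have c1 : Continuous fun u => e (τ ^ 2 * (P (σ₀ + u) - p σ₀ * (σ₀ + u))) :=
    hce.comp (continuous_const.add continuous_id)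
  have c2 : Continuous fun u : ℝ => e Θ * e (q * u ^ 2 / 2) := by fun_prop
  have e2 : ‖(∫ u in (-ρ)..ρ, e (τ ^ 2 * (P (σ₀ + u) - p σ₀ * (σ₀ + u)))) -
      e Θ * ∫ u in (-ρ)..ρ, e (q * u ^ 2 / 2)‖ ≤ 16 * Λ * τ ^ 2 * ρ ^ 4 := by
    rw [← intervalIntegral.integral_const_mul, ← intervalIntegral.integral_sub
      (c1.intervalIntegrable _ _) (c2.intervalIntegrable _ _)]
    refine (intervalIntegral.norm_integral_le_of_norm_le_const
      (C := 8 * (τ ^ 2 * (Λ * ρ * ρ * ρ))) fun u hu => ?_).trans (le_of_eq ?_)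
    · rw [uIoc_of_le (by linarith)] at hu
      rw [← e_add]
      refine (norm_e_sub_e_le _ _).trans ?_
      have e3 : τ ^ 2 * (P (σ₀ + u) - p σ₀ * (σ₀ + u)) - (Θ + q * u ^ 2 / 2) =
          τ ^ 2 * (P (σ₀ + u) - P σ₀ - p σ₀ * u - p1 σ₀ * u ^ 2 / 2) := by
        rw [hΘ, hq]; ring
      rw [e3, abs_mul, abs_of_pos (by positivity : 0 < τ ^ 2)]
      exact mul_le_mul (by linarith) (mul_le_mul_of_nonneg_left (t3 u (Ioc_subset_Icc_self hu))
        (by positivity)) (by positivity) (by norm_num)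
    · rw [abs_of_pos (by linarith)]; ring
  have hs : 0 < √(p1 σ₀) := Real.sqrt_pos.2 hq0
  have e4 : √q = τ * √(p1 σ₀) := by
    rw [hq, Real.sqrt_mul (by positivity), Real.sqrt_sq hτ.le]
  have hτ' : (τ : ℂ) ≠ 0 := by exact_mod_cast hτ.ne'
  have hs' : ((√(p1 σ₀) : ℝ) : ℂ) ≠ 0 := by exact_mod_cast hs.ne'
  have e5 : (τ : ℂ) * (∫ u in (-ρ)..ρ, e (τ ^ 2 * (P (σ₀ + u) - p σ₀ * (σ₀ + u)))) -
      ((1 / √(p1 σ₀) : ℝ) : ℂ) * e (Θ + 1 / 8) =
      (τ : ℂ) * (((∫ u in (-ρ)..ρ, e (τ ^ 2 * (P (σ₀ + u) - p σ₀ * (σ₀ + u)))) -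
      e Θ * ∫ u in (-ρ)..ρ, e (q * u ^ 2 / 2)) +
      e Θ * ((∫ u in (-ρ)..ρ, e (q * u ^ 2 / 2)) - e (1 / 8) / (√q : ℝ))) := by
    rw [e4, e_add]
    generalize (∫ u in (-ρ)..ρ, e (τ ^ 2 * (P (σ₀ + u) - p σ₀ * (σ₀ + u)))) = I1
    generalize (∫ u in (-ρ)..ρ, e (q * u ^ 2 / 2)) = I2
    push_cast
    field_simp
    ring
  rw [e1, e5, norm_mul, Complex.norm_real, Real.norm_eq_abs, abs_of_pos hτ]
  have e6 : ‖e Θ * ((∫ u in (-ρ)..ρ, e (q * u ^ 2 / 2)) - e (1 / 8) / (√q : ℝ))‖ ≤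
      2 / (τ ^ 2 * ρ) := by
    rw [norm_mul, norm_e, one_mul]
    refine hF.trans ?_
    rw [div_le_div_iff₀ (by positivity) (by positivity), hq]
    have : 0 < τ ^ 2 * ρ := by positivity
    nlinarith [hlow σ₀]
  refine (mul_le_mul_of_nonneg_left ((norm_add_le _ _).trans (add_le_add e2 e6)) hτ.le).trans
    (le_of_eq ?_)
  field_simp

lemma split3 {f : ℝ → ℂ} (hf : Continuous f) (a b c d : ℝ) :
    ∫ x in a..d, f x = (∫ x in a..b, f x) + (∫ x in b..c, f x) + ∫ x in c..d, f x := by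
  rw [intervalIntegral.integral_add_adjacent_intervals (hf.intervalIntegrable _ _)
    (hf.intervalIntegrable _ _), intervalIntegral.integral_add_adjacent_intervals
    (hf.intervalIntegrable _ _) (hf.intervalIntegrable _ _)]

/-- abstract form of the model lemma -/
lemma model_abs (hP : ∀ σ, HasDerivAt P (p σ) σ) (hp : ∀ σ, HasDerivAt p (p1 σ) σ)
    (hp1 : ∀ σ, HasDerivAt p1 (p2 σ) σ) (hlow : ∀ σ, 1 / 2 ≤ p1 σ) {Λ : ℝ} (hΛ : 0 ≤ Λ)
    (hp2 : ∀ σ ∈ Icc (-1 : ℝ) 1, |p2 σ| ≤ Λ) {ε : ℝ} (hε : 0 < ε)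
    (hlow' : ∀ σ, 1 / √(p1 σ) ≤ 1 + ε) (hone : p 1 = 1) (hmone : p (-1) = -1) {δ : ℝ}
    (hδ : 0 < δ) (hδ' : δ ≤ 1 / 2)
    (hend : ∀ σ, 1 - 2 * δ ≤ |σ| → (16 / ε) ^ 2 ≤ p1 σ) :
    ∃ T₀ : ℝ, ∀ y : ℝ, ∃ s Θ : ℝ, 0 ≤ s ∧ s ≤ 1 + ε ∧ (s ≠ 0 → |y| < 1) ∧ ∀ T : ℝ, T₀ ≤ T →
      ‖(√T : ℂ) * (∫ σ in (-1 : ℝ)..1, e (T * (P σ - y * σ))) - s * e (T * Θ + 1 / 8)‖ ≤ ε := by
  set R := 12 / ε with hR
  have hR0 : 0 < R := by positivity
  set τ₀ := R / δ + 32 * Λ * R ^ 4 / ε + 4 / (δ * ε) with hτ₀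
  have a1 : 0 < R / δ := by positivity
  have a2 : 0 ≤ 32 * Λ * R ^ 4 / ε := by positivity
  have a3 : 0 < 4 / (δ * ε) := by positivity
  have hτ₀0 : 0 < τ₀ := by positivity
  have hgr : ∀ x y : ℝ, x ≤ y → 1 / 2 * (y - x) ≤ p y - p x := fun x y hxy =>
    growth (a := x) (b := y) hp (fun σ _ => hlow σ) (left_mem_Icc.2 hxy) (right_mem_Icc.2 hxy) hxy
  have hcp : Continuous p := continuous_iff_continuousAt.2 fun x => (hp x).continuousAt
  refine ⟨τ₀ ^ 2, fun y => ?_⟩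
  have hred : ∀ s Θ : ℝ, (∀ τ : ℝ, τ₀ ≤ τ →
      ‖(τ : ℂ) * (∫ σ in (-1 : ℝ)..1, e (τ ^ 2 * (P σ - y * σ))) - s * e (τ ^ 2 * Θ + 1 / 8)‖ ≤ ε) →
      ∀ T : ℝ, τ₀ ^ 2 ≤ T →
      ‖(√T : ℂ) * (∫ σ in (-1 : ℝ)..1, e (T * (P σ - y * σ))) - s * e (T * Θ + 1 / 8)‖ ≤ ε := by
    intro s Θ h T hT
    have h1 := h (√T) (Real.le_sqrt_of_sq_le hT)
    rwa [Real.sq_sqrt (le_trans (sq_nonneg _) hT)] at h1
  by_cases hy : y ∈ Icc (p (-(1 - δ))) (p (1 - δ))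
  · obtain ⟨σ₀, hσ₀, rfl⟩ := intermediate_value_Icc (by linarith) hcp.continuousOn hy
    refine ⟨1 / √(p1 σ₀), P σ₀ - p σ₀ * σ₀, by positivity, hlow' σ₀, fun _ => ?_,
      hred _ _ fun τ hτ => ?_⟩
    · have b1 := hgr σ₀ 1 (by linarith [hσ₀.2])
      have b2 := hgr (-1) σ₀ (by linarith [hσ₀.1])
      rw [abs_lt]
      constructor <;> linarith [hσ₀.1, hσ₀.2]
    · have hτ0 : 0 < τ := lt_of_lt_of_le hτ₀0 hτ
      set ρ := R / τ with hρ
      have hρ0 : 0 < ρ := by positivity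
      have hρδ : ρ ≤ δ := by
        rw [hρ, div_le_iff₀ hτ0]
        have : R / δ ≤ τ := by linarith
        rw [div_le_iff₀ hδ] at this
        linarith
      have h1 : -1 ≤ σ₀ - ρ := by linarith [hσ₀.1]
      have h2 : σ₀ + ρ ≤ 1 := by linarith [hσ₀.2]
      have hS := piece_stat hP hp hp1 hlow hΛ hp2 hτ0 hρ0 h1 h2
      have hL := piece_fd hP hp hp1 hlow (y := p σ₀) (d := ρ / 2) hτ0 h1 (by positivity)
        fun σ hσ => by
          have := hgr σ σ₀ (by linarith [hσ.2])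
          exact le_trans (by linarith [hσ.2]) (neg_le_abs _)
      have hRr := piece_fd hP hp hp1 hlow (y := p σ₀) (d := ρ / 2) hτ0 h2 (by positivity)
        fun σ hσ => by
          have := hgr σ₀ σ (by linarith [hσ.1])
          exact le_trans (by linarith [hσ.1]) (le_abs_self _)
      rw [split3 (cont_e (phase_deriv hP (τ ^ 2) (p σ₀))) (-1) (σ₀ - ρ) (σ₀ + ρ) 1]
      have e1 : ∀ a b c d : ℂ, (τ : ℂ) * (a + b + c) - d = (τ * b - d) + τ * a + τ * c :=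
        fun a b c d => by ring
      rw [e1]
      have hn : ∀ z : ℂ, ‖z‖ ≤ 1 / (τ ^ 2 * (ρ / 2)) → ‖(τ : ℂ) * z‖ ≤ ε / 6 := by
        intro z hz
        rw [norm_mul, Complex.norm_real, Real.norm_eq_abs, abs_of_pos hτ0]
        refine (mul_le_mul_of_nonneg_left hz hτ0.le).trans (le_of_eq ?_)
        rw [hρ, hR]
        field_simp
        norm_num
      have e2 : 2 / (τ * ρ) = ε / 6 := by
        rw [hρ, hR]
        field_simp
        norm_num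
      have e3 : 16 * Λ * τ ^ 3 * ρ ^ 4 ≤ ε / 2 := by
        have e4 : 16 * Λ * τ ^ 3 * ρ ^ 4 = 16 * Λ * R ^ 4 / τ := by
          rw [hρ]; field_simp
        have e5 : 32 * Λ * R ^ 4 / ε ≤ τ := by linarith
        rw [div_le_iff₀ hε] at e5
        rw [e4, div_le_iff₀ hτ0]
        linarith
      refine ((norm_add_le _ _).trans (add_le_add ((norm_add_le _ _).trans
        (add_le_add hS (hn _ hL))) (hn _ hRr))).trans ?_
      linarith
  · refine ⟨0, 0, le_rfl, by linarith, fun h => absurd rfl h, hred _ _ fun τ hτ => ?_⟩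
    have hτ0 : 0 < τ := lt_of_lt_of_le hτ₀0 hτ
    have hM := piece_fd hP hp hp1 hlow (y := y) (d := δ / 2) (a := -(1 - 2 * δ)) (b := 1 - 2 * δ)
      hτ0 (by linarith) (by positivity) fun σ hσ => by
        rw [Set.mem_Icc, not_and_or, not_le, not_le] at hy
        rcases hy with hy | hy
        · have := hgr (-(1 - δ)) σ (by linarith [hσ.1])
          exact le_trans (by linarith [hσ.1]) (le_abs_self _)
        · have := hgr σ (1 - δ) (by linarith [hσ.2])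
          exact le_trans (by linarith [hσ.2]) (neg_le_abs _)
    have hL := piece_sd hP hp hp1 (y := y) (k := 16 / ε) (a := -1) (b := -(1 - 2 * δ)) hτ0
      (by linarith) (by positivity) fun σ hσ =>
        hend σ (le_trans (by linarith [hσ.2]) (neg_le_abs _))
    have hRr := piece_sd hP hp hp1 (y := y) (k := 16 / ε) (a := 1 - 2 * δ) (b := 1) hτ0
      (by linarith) (by positivity) fun σ hσ => hend σ (le_trans hσ.1 (le_abs_self _))
    rw [split3 (cont_e (phase_deriv hP (τ ^ 2) y)) (-1) (-(1 - 2 * δ)) (1 - 2 * δ) 1]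
    simp only [Complex.ofReal_zero, zero_mul, sub_zero]
    rw [norm_mul, Complex.norm_real, Real.norm_eq_abs, abs_of_pos hτ0]
    refine (mul_le_mul_of_nonneg_left ((norm_add_le _ _).trans (add_le_add
      ((norm_add_le _ _).trans (add_le_add hL hM)) hRr)) hτ0.le).trans ?_
    have e1 : τ * (4 / (τ * (16 / ε)) + 1 / (τ ^ 2 * (δ / 2)) + 4 / (τ * (16 / ε))) =
        ε / 2 + 2 / (τ * δ) := by
      field_simp
      ring
    have e2 : 4 / (δ * ε) ≤ τ := by linarith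
    rw [div_le_iff₀ (by positivity)] at e2
    have e3 : 2 / (τ * δ) ≤ ε / 2 := by
      rw [div_le_iff₀ (by positivity)]
      linarith
    rw [e1]
    linarith

end model

end Osc

theorem quad_bound (a b A B C : ℝ) (hA : A ≠ 0) :
    ‖∫ t in a..b, e (A * t ^ 2 + B * t + C)‖ ≤ 3 / √|A| := by
  rcases le_total a b with h | h
  · exact Osc.quad_le B C h hA
  · rw [intervalIntegral.integral_symm, norm_neg]
    exact Osc.quad_le B C h hA

theorem model_integral (ε : ℝ) (hε : 0 < ε) : ∃ (p P : ℝ → ℝ) (T₀ : ℝ), Continuous p ∧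
    (∀ σ, HasDerivAt P (p σ) σ) ∧ P 0 = 0 ∧ p 1 = 1 ∧ p (-1) = -1 ∧
    (∀ σ, |σ| ≤ 1 → |p σ| ≤ 1) ∧
    ∀ y : ℝ, ∃ s Θ : ℝ, 0 ≤ s ∧ s ≤ 1 + ε ∧ (s ≠ 0 → |y| < 1) ∧ ∀ T : ℝ, T₀ ≤ T →
      ‖(√T : ℂ) * (∫ σ in (-1 : ℝ)..1, e (T * (P σ - y * σ))) - s * e (T * Θ + 1 / 8)‖ ≤ ε := by
  set η := min (1 / 2) (ε / (1 + ε)) with hη
  have hη0 : 0 < η := lt_min (by norm_num) (by positivity)
  have hη1 : η ≤ 1 / 2 := min_le_left _ _
  have hη2 : 1 ≤ (1 + ε) * (1 - η) := by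
    have : η ≤ ε / (1 + ε) := min_le_right _ _
    rw [le_div_iff₀ (by positivity)] at this
    nlinarith
  obtain ⟨n, hn⟩ := exists_nat_ge ((16 / ε) ^ 2 / η)
  rw [div_le_iff₀ hη0] at hn
  let p : ℝ → ℝ := fun σ => (1 - η) * σ + η * σ ^ (2 * n + 3)
  let P : ℝ → ℝ := fun σ => (1 - η) * σ ^ 2 / 2 + η * σ ^ (2 * n + 4) / (2 * n + 4)
  let p1 : ℝ → ℝ := fun σ => (1 - η) + η * ((2 * n + 3) * σ ^ (2 * n + 2))
  let p2 : ℝ → ℝ := fun σ => η * ((2 * n + 3) * ((2 * n + 2) * σ ^ (2 * n + 1)))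
  have hP : ∀ σ, HasDerivAt P (p σ) σ := by
    intro σ
    have := (((hasDerivAt_pow 2 σ).const_mul (1 - η)).div_const 2).add
      (((hasDerivAt_pow (2 * n + 4) σ).const_mul η).div_const (2 * n + 4))
    refine this.congr_deriv ?_
    have e : 2 * n + 4 - 1 = 2 * n + 3 := by omega
    simp only [p, e]
    push_cast
    field_simp
  have hp : ∀ σ, HasDerivAt p (p1 σ) σ := by
    intro σ
    have := ((hasDerivAt_id σ).const_mul (1 - η)).add
      ((hasDerivAt_pow (2 * n + 3) σ).const_mul η)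
    refine this.congr_deriv ?_
    have e : 2 * n + 3 - 1 = 2 * n + 2 := by omega
    simp only [p1, e]
    push_cast
    ring
  have hp1 : ∀ σ, HasDerivAt p1 (p2 σ) σ := by
    intro σ
    have := (((hasDerivAt_pow (2 * n + 2) σ).const_mul (2 * (n : ℝ) + 3)).const_mul η).const_add
      (1 - η)
    refine this.congr_deriv ?_
    have e : 2 * n + 2 - 1 = 2 * n + 1 := by omega
    simp only [p2, e]
    push_cast
    ring
  have hev : Even (2 * n + 2) := ⟨n + 1, by ring⟩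
  have hlow0 : ∀ σ, 1 - η ≤ p1 σ := by
    intro σ
    have := hev.pow_nonneg σ
    simp only [p1]
    have h2 : 0 ≤ η * ((2 * n + 3) * σ ^ (2 * n + 2)) := by positivity
    linarith
  have hone : p 1 = 1 := by simp [p]
  have hmone : p (-1) = -1 := by
    have : Odd (2 * n + 3) := ⟨n + 1, by ring⟩
    simp only [p, this.neg_one_pow]
    ring
  obtain ⟨T₀, hT₀⟩ := Osc.model_abs hP hp hp1 (fun σ => by linarith [hlow0 σ])
    (Λ := η * ((2 * n + 3) * (2 * n + 2))) (by positivity) (fun σ hσ => by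
      have h1 : |σ| ^ (2 * n + 1) ≤ 1 := pow_le_one₀ (abs_nonneg _) (abs_le.2 hσ)
      simp only [p2]
      rw [abs_mul, abs_mul, abs_mul, abs_pow, abs_of_pos hη0,
        abs_of_pos (by positivity : (0 : ℝ) < 2 * n + 3),
        abs_of_pos (by positivity : (0 : ℝ) < 2 * n + 2)]
      gcongr
      exact mul_le_of_le_one_right (by positivity) h1) hε (fun σ => by
      have h1 : 1 - η ≤ √(p1 σ) := by
        apply Real.le_sqrt_of_sq_le
        nlinarith [hlow0 σ]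
      rw [div_le_iff₀ (by linarith)]
      nlinarith) hone hmone (δ := 1 / (8 * (n + 1))) (by positivity) (by
      rw [div_le_div_iff₀ (by positivity) (by positivity)]
      have : (0 : ℝ) ≤ n := Nat.cast_nonneg n
      linarith) (fun σ hσ => by
      have hn0 : (0 : ℝ) ≤ n := Nat.cast_nonneg n
      have h0 : 2 * (1 / (8 * ((n : ℝ) + 1))) ≤ 1 := by
        rw [mul_one_div, div_le_one (by positivity)]
        linarith
      have h1 := one_add_mul_le_pow (a := -(2 * (1 / (8 * ((n : ℝ) + 1))))) (by linarith) (2 * n + 2)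
      have h2 : 1 + ((2 * n + 2 : ℕ) : ℝ) * -(2 * (1 / (8 * ((n : ℝ) + 1)))) = 1 / 2 := by
        push_cast
        field_simp
        ring
      have h3 : (1 + -(2 * (1 / (8 * ((n : ℝ) + 1))))) ^ (2 * n + 2) ≤ |σ| ^ (2 * n + 2) :=
        pow_le_pow_left₀ (by linarith) (by linarith) _
      rw [hev.pow_abs] at h3
      have h4 : 1 / 2 ≤ σ ^ (2 * n + 2) := by linarith
      simp only [p1]
      have h5 : (n : ℝ) ≤ (2 * n + 3) * σ ^ (2 * n + 2) := by nlinarith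
      nlinarith)
  refine ⟨p, P, T₀, continuous_iff_continuousAt.2 fun x => (hp x).continuousAt, hP, by simp [P],
    hone, hmone, fun σ hσ => ?_, hT₀⟩
  have h1 : |σ| ^ (2 * n + 3) ≤ 1 := pow_le_one₀ (abs_nonneg _) hσ
  simp only [p]
  refine (abs_add_le _ _).trans ?_
  rw [abs_mul, abs_mul, abs_pow, abs_of_pos hη0, abs_of_pos (by linarith : 0 < 1 - η)]
  nlinarith

end Vale.Agent.P110
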