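import Vale.Agent.P110.Basic

namespace Vale.Agent.P110.Osc
open Finset MeasureTheory Set

lemma cont_e {g g1 : ℝ → ℝ} (hg : ∀ x, HasDerivAt g (g1 x) x) : Continuous fun t => e (g t) :=
  continuous_e.comp (continuous_iff_continuousAt.2 fun x => (hg x).continuousAt)

/-- first derivative test -/
lemma fd {a b μ : ℝ} (hab : a ≤ b) {g g1 g2 : ℝ → ℝ} (hg : ∀ x, HasDerivAt g (g1 x) x)
    (hg1 : ∀ x, HasDerivAt g1 (g2 x) x) (hc : Continuous g2) (h2 : ∀ x ∈ Icc a b, 0 ≤ g2 x)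
    (hμ : 0 < μ) (h1 : ∀ x ∈ Icc a b, μ ≤ |g1 x|) : ‖∫ t in a..b, e (g t)‖ ≤ 1 / μ := by
  have hpi := Real.pi_gt_three
  have hne : ∀ x ∈ Icc a b, g1 x ≠ 0 := fun x hx h0 => by
    have := h1 x hx
    rw [h0, abs_zero] at this
    linarith
  have hc1 : Continuous g1 := continuous_iff_continuousAt.2 fun x => (hg1 x).continuousAt
  have hce := cont_e hg
  set c : ℂ := ((2 * Real.pi : ℝ) : ℂ) * Complex.I with hcdef
  have hc0 : c ≠ 0 := mul_ne_zero (by exact_mod_cast (by positivity : (2 * Real.pi) ≠ 0))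
    Complex.I_ne_zero
  have hcn : ‖c‖ = 2 * Real.pi := by
    rw [hcdef, norm_mul, Complex.norm_I, mul_one, Complex.norm_real, Real.norm_eq_abs,
      abs_of_pos (by positivity)]
  have hcr : ContinuousOn (fun x => g2 x / g1 x ^ 2) (uIcc a b) := by
    rw [uIcc_of_le hab]
    exact hc.continuousOn.div (hc1.pow 2).continuousOn fun x hx => pow_ne_zero _ (hne x hx)
  have hinv : ∀ x ∈ uIcc a b, HasDerivAt (fun y => (g1 y)⁻¹) (-(g2 x / g1 x ^ 2)) x := by
    intro x hx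
    rw [uIcc_of_le hab] at hx
    have := (hg1 x).inv (hne x hx)
    rw [neg_div] at this
    exact this
  have hF : ∀ x ∈ uIcc a b, HasDerivAt (fun y => e (g y) * (((g1 y)⁻¹ : ℝ) : ℂ) / c)
      (e (g x) - e (g x) * ((g2 x / g1 x ^ 2 : ℝ) : ℂ) / c) x := by
    intro x hx
    have h3 := ((HasDerivAt.e_comp (hg x)).mul (hinv x hx).ofReal_comp).div_const c
    rw [uIcc_of_le hab] at hx
    have hx0 : (g1 x : ℂ) ≠ 0 := by exact_mod_cast hne x hx
    refine h3.congr_deriv ?_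
    have : ((2 * Real.pi * g1 x : ℝ) : ℂ) * Complex.I = c * g1 x := by
      rw [hcdef]; push_cast; ring
    rw [this]
    push_cast
    field_simp
    ring
  have hi1 : IntervalIntegrable (fun x => e (g x)) volume a b := hce.intervalIntegrable _ _
  have hi2 : IntervalIntegrable (fun x => e (g x) * ((g2 x / g1 x ^ 2 : ℝ) : ℂ) / c) volume a b :=
    ((hce.continuousOn.mul (Complex.continuous_ofReal.comp_continuousOn hcr)).div_const
      c).intervalIntegrable
  have h4 := intervalIntegral.integral_eq_sub_of_hasDerivAt hF (hi1.sub hi2)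
  rw [intervalIntegral.integral_sub hi1 hi2] at h4
  have h5 : ∫ x in a..b, -(g2 x / g1 x ^ 2) = (g1 b)⁻¹ - (g1 a)⁻¹ :=
    intervalIntegral.integral_eq_sub_of_hasDerivAt hinv hcr.neg.intervalIntegrable
  rw [intervalIntegral.integral_neg] at h5
  have hb : ∀ x ∈ Icc a b, |(g1 x)⁻¹| ≤ 1 / μ := by
    intro x hx
    rw [abs_inv, one_div]
    exact inv_anti₀ hμ (h1 x hx)
  have hb' : ∀ x ∈ Icc a b, ‖e (g x) * (((g1 x)⁻¹ : ℝ) : ℂ) / c‖ ≤ 1 / μ / (2 * Real.pi) := by
    intro x hx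
    rw [norm_div, norm_mul, norm_e, one_mul, hcn, Complex.norm_real, Real.norm_eq_abs]
    exact div_le_div_of_nonneg_right (hb x hx) (by positivity)
  have h6 : ‖∫ x in a..b, e (g x) * ((g2 x / g1 x ^ 2 : ℝ) : ℂ) / c‖ ≤
      ∫ x in a..b, (g2 x / g1 x ^ 2) / (2 * Real.pi) := by
    refine intervalIntegral.norm_integral_le_of_norm_le hab (Filter.Eventually.of_forall ?_)
      (hcr.div_const _).intervalIntegrable
    intro x hx
    rw [norm_div, norm_mul, norm_e, one_mul, hcn, Complex.norm_real, Real.norm_eq_abs,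
      abs_of_nonneg (div_nonneg (h2 x (Ioc_subset_Icc_self hx)) (sq_nonneg _))]
  rw [intervalIntegral.integral_div (2 * Real.pi)] at h6
  have ha' := abs_le.1 (hb a (left_mem_Icc.2 hab))
  have hb'' := abs_le.1 (hb b (right_mem_Icc.2 hab))
  have h7 : (∫ x in a..b, g2 x / g1 x ^ 2) / (2 * Real.pi) ≤ 2 * (1 / μ) / (2 * Real.pi) :=
    div_le_div_of_nonneg_right (by linarith) (by positivity)
  have h8 : ∫ t in a..b, e (g t) = (e (g b) * (((g1 b)⁻¹ : ℝ) : ℂ) / c -
      e (g a) * (((g1 a)⁻¹ : ℝ) : ℂ) / c) +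
      ∫ x in a..b, e (g x) * ((g2 x / g1 x ^ 2 : ℝ) : ℂ) / c := by
    rw [← h4]; ring
  rw [h8]
  have h9 := norm_sub_le (e (g b) * (((g1 b)⁻¹ : ℝ) : ℂ) / c) (e (g a) * (((g1 a)⁻¹ : ℝ) : ℂ) / c)
  have h10 := hb' a (left_mem_Icc.2 hab)
  have h11 := hb' b (right_mem_Icc.2 hab)
  refine (norm_add_le _ _).trans ?_
  have h12 : 4 * (1 / μ) / (2 * Real.pi) ≤ 1 / μ := by
    rw [div_le_iff₀ (by positivity)]
    have : 0 < 1 / μ := by positivity
    nlinarith
  have h13 : 1 / μ / (2 * Real.pi) + 1 / μ / (2 * Real.pi) + 2 * (1 / μ) / (2 * Real.pi)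
      = 4 * (1 / μ) / (2 * Real.pi) := by ring
  linarith

lemma growth {a b lam : ℝ} {g1 g2 : ℝ → ℝ} (hg1 : ∀ x, HasDerivAt g1 (g2 x) x)
    (h2 : ∀ x ∈ Icc a b, lam ≤ g2 x) {x y : ℝ} (hx : x ∈ Icc a b) (hy : y ∈ Icc a b)
    (hxy : x ≤ y) : lam * (y - x) ≤ g1 y - g1 x := by
  refine (convex_Icc a b).mul_sub_le_image_sub_of_le_deriv
    (continuous_iff_continuousAt.2 fun x => (hg1 x).continuousAt).continuousOn
    (fun x _ => (hg1 x).differentiableAt.differentiableWithinAt) ?_ x hx y hy hxy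
  intro z hz
  rw [(hg1 z).deriv]
  exact h2 z (interior_subset hz)

lemma norm_int_le {a b : ℝ} (hab : a ≤ b) (g : ℝ → ℝ) : ‖∫ t in a..b, e (g t)‖ ≤ b - a := by
  have := intervalIntegral.norm_integral_le_of_norm_le_const (a := a) (b := b) (C := 1)
    (f := fun t => e (g t)) (fun x _ => by simp)
  rwa [one_mul, abs_of_nonneg (sub_nonneg.2 hab)] at this

/-- second derivative test -/
lemma sd {a b lam : ℝ} (hab : a ≤ b) {g g1 g2 : ℝ → ℝ} (hg : ∀ x, HasDerivAt g (g1 x) x)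
    (hg1 : ∀ x, HasDerivAt g1 (g2 x) x) (hc : Continuous g2) (hlam : 0 < lam)
    (h2 : ∀ x ∈ Icc a b, lam ≤ g2 x) : ‖∫ t in a..b, e (g t)‖ ≤ 4 / √lam := by
  have hc1 : Continuous g1 := continuous_iff_continuousAt.2 fun x => (hg1 x).continuousAt
  have hce := cont_e hg
  obtain ⟨s, hs, hgr⟩ : ∃ s ∈ Icc a b, ∀ x ∈ Icc a b, lam * |x - s| ≤ |g1 x| := by
    by_cases ha : 0 ≤ g1 a
    · refine ⟨a, left_mem_Icc.2 hab, fun x hx => ?_⟩
      have := growth hg1 h2 (left_mem_Icc.2 hab) hx hx.1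
      rw [abs_of_nonneg (sub_nonneg.2 hx.1)]
      exact le_trans (by linarith) (le_abs_self _)
    · by_cases hb : g1 b ≤ 0
      · refine ⟨b, right_mem_Icc.2 hab, fun x hx => ?_⟩
        have := growth hg1 h2 hx (right_mem_Icc.2 hab) hx.2
        rw [abs_sub_comm, abs_of_nonneg (sub_nonneg.2 hx.2)]
        exact le_trans (by linarith) (neg_le_abs _)
      · obtain ⟨s, hs, hs0⟩ := intermediate_value_Icc hab hc1.continuousOn
          (⟨(not_le.1 ha).le, (not_le.1 hb).le⟩ : (0 : ℝ) ∈ Icc (g1 a) (g1 b))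
        refine ⟨s, hs, fun x hx => ?_⟩
        rcases le_total x s with h | h
        · have := growth hg1 h2 hx hs h
          rw [abs_sub_comm, abs_of_nonneg (sub_nonneg.2 h)]
          exact le_trans (by linarith) (neg_le_abs _)
        · have := growth hg1 h2 hs hx h
          rw [abs_of_nonneg (sub_nonneg.2 h)]
          exact le_trans (by linarith) (le_abs_self _)
  have hsq : 0 < √lam := Real.sqrt_pos.2 hlam
  set ρ := 1 / √lam with hρ
  have hρ0 : 0 < ρ := by positivity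
  have hlρ : lam * ρ = √lam := by
    rw [hρ, mul_one_div, div_eq_iff hsq.ne', Real.mul_self_sqrt hlam.le]
  have hL : ‖∫ t in a..(max a (s - ρ)), e (g t)‖ ≤ ρ := by
    rcases le_total (s - ρ) a with h | h
    · rw [max_eq_left h]; simp [hρ0.le]
    · rw [max_eq_right h]
      refine fd h hg hg1 hc (fun x hx => ?_) hsq fun x hx => ?_
      · exact hlam.le.trans (h2 x ⟨hx.1, by linarith [hx.2, hs.2]⟩)
      · refine le_trans ?_ (hgr x ⟨hx.1, by linarith [hx.2, hs.2]⟩)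
        rw [← hlρ]
        refine mul_le_mul_of_nonneg_left ?_ hlam.le
        rw [abs_sub_comm]
        exact le_trans (by linarith [hx.2]) (le_abs_self _)
  have hR : ‖∫ t in (min b (s + ρ))..b, e (g t)‖ ≤ ρ := by
    rcases le_total b (s + ρ) with h | h
    · rw [min_eq_left h]; simp [hρ0.le]
    · rw [min_eq_right h]
      refine fd h hg hg1 hc (fun x hx => ?_) hsq fun x hx => ?_
      · exact hlam.le.trans (h2 x ⟨by linarith [hx.1, hs.1], hx.2⟩)
      · refine le_trans ?_ (hgr x ⟨by linarith [hx.1, hs.1], hx.2⟩)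
        rw [← hlρ]
        refine mul_le_mul_of_nonneg_left ?_ hlam.le
        exact le_trans (by linarith [hx.1]) (le_abs_self _)
  have hM : ‖∫ t in (max a (s - ρ))..(min b (s + ρ)), e (g t)‖ ≤ 2 * ρ := by
    have h3 : max a (s - ρ) ≤ min b (s + ρ) :=
      le_trans (max_le hs.1 (by linarith)) (le_min hs.2 (by linarith) : s ≤ _)
    refine (norm_int_le h3 g).trans ?_
    linarith [le_max_right a (s - ρ), min_le_right b (s + ρ)]
  rw [← intervalIntegral.integral_add_adjacent_intervals (b := max a (s - ρ))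
    (hce.intervalIntegrable _ _) (hce.intervalIntegrable _ _),
    ← intervalIntegral.integral_add_adjacent_intervals (a := max a (s - ρ)) (b := min b (s + ρ))
    (hce.intervalIntegrable _ _) (hce.intervalIntegrable _ _)]
  have h4 : 4 / √lam = ρ + (2 * ρ + ρ) := by rw [hρ]; ring
  rw [h4]
  exact (norm_add_le _ _).trans (add_le_add hL ((norm_add_le _ _).trans (add_le_add hM hR)))

lemma gauss_tail {b : ℂ} (hb : 0 < b.re) {X Y : ℝ} (hX : 0 < X) (hXY : X ≤ Y) :
    ‖∫ s in X..Y, Complex.exp (-b * (s : ℂ) ^ 2)‖ ≤ 1 / (‖b‖ * X) := by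
  have hb0 : b ≠ 0 := by rintro rfl; simp at hb
  have hbn : 0 < ‖b‖ := norm_pos_iff.2 hb0
  have hpos : ∀ x ∈ uIcc X Y, 0 < x := by
    intro x hx
    rw [uIcc_of_le hXY] at hx
    linarith [hx.1]
  have hn : ∀ x : ℝ, ‖Complex.exp (-b * (x : ℂ) ^ 2)‖ ≤ 1 := by
    intro x
    rw [norm_cexp_neg_mul_sq, Real.exp_le_one_iff]
    nlinarith [sq_nonneg x]
  have hce : Continuous fun x : ℝ => Complex.exp (-b * (x : ℂ) ^ 2) := by fun_prop
  have hinv : ∀ x ∈ uIcc X Y, HasDerivAt (fun y : ℝ => y⁻¹) (-(x ^ 2)⁻¹) x := fun x hx =>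
    hasDerivAt_inv (hpos x hx).ne'
  have hcr : ContinuousOn (fun x : ℝ => (x ^ 2)⁻¹) (uIcc X Y) :=
    (continuousOn_id.pow 2).inv₀ fun x hx => pow_ne_zero _ (hpos x hx).ne'
  have hF : ∀ x ∈ uIcc X Y, HasDerivAt
      (fun y : ℝ => Complex.exp (-b * (y : ℂ) ^ 2) * ((y⁻¹ : ℝ) : ℂ) / (-2 * b))
      (Complex.exp (-b * (x : ℂ) ^ 2) -
        Complex.exp (-b * (x : ℂ) ^ 2) * (((x ^ 2)⁻¹ : ℝ) : ℂ) / (-2 * b)) x := by
    intro x hx
    have h1 : HasDerivAt (fun y : ℝ => -b * (y : ℂ) ^ 2) (-b * (2 * x)) x := by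
      have := ((hasDerivAt_id x).ofReal_comp.pow 2).const_mul (-b)
      refine this.congr_deriv ?_
      simp
    have h3 := (h1.cexp.mul (hinv x hx).ofReal_comp).div_const (-2 * b)
    refine h3.congr_deriv ?_
    have hx0 : (x : ℂ) ≠ 0 := by exact_mod_cast (hpos x hx).ne'
    push_cast
    field_simp
    ring
  have hi1 : IntervalIntegrable (fun x : ℝ => Complex.exp (-b * (x : ℂ) ^ 2)) volume X Y :=
    hce.intervalIntegrable _ _
  have hi2 : IntervalIntegrable (fun x : ℝ =>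
      Complex.exp (-b * (x : ℂ) ^ 2) * (((x ^ 2)⁻¹ : ℝ) : ℂ) / (-2 * b)) volume X Y :=
    ((hce.continuousOn.mul (Complex.continuous_ofReal.comp_continuousOn hcr)).div_const
      _).intervalIntegrable
  have h4 := intervalIntegral.integral_eq_sub_of_hasDerivAt hF (hi1.sub hi2)
  rw [intervalIntegral.integral_sub hi1 hi2] at h4
  have h5 : ∫ x in X..Y, -(x ^ 2)⁻¹ = Y⁻¹ - X⁻¹ :=
    intervalIntegral.integral_eq_sub_of_hasDerivAt hinv hcr.neg.intervalIntegrable
  rw [intervalIntegral.integral_neg] at h5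
  have hcn : ‖-2 * b‖ = 2 * ‖b‖ := by simp
  have hb' : ∀ x r : ℝ, 0 ≤ r →
      ‖Complex.exp (-b * (x : ℂ) ^ 2) * ((r : ℝ) : ℂ) / (-2 * b)‖ ≤ r / (2 * ‖b‖) := by
    intro x r hr
    rw [norm_div, norm_mul, hcn, Complex.norm_real, Real.norm_eq_abs, abs_of_nonneg hr]
    exact div_le_div_of_nonneg_right (mul_le_of_le_one_left hr (hn x)) (by positivity)
  have h6 : ‖∫ x in X..Y, Complex.exp (-b * (x : ℂ) ^ 2) * (((x ^ 2)⁻¹ : ℝ) : ℂ) / (-2 * b)‖ ≤
      ∫ x in X..Y, (x ^ 2)⁻¹ / (2 * ‖b‖) :=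
    intervalIntegral.norm_integral_le_of_norm_le hXY (Filter.Eventually.of_forall
      fun x _ => hb' x _ (by positivity)) (hcr.div_const _).intervalIntegrable
  rw [intervalIntegral.integral_div (2 * ‖b‖)] at h6
  have h7 : ∫ x in X..Y, (x ^ 2)⁻¹ = X⁻¹ - Y⁻¹ := by linarith
  rw [h7] at h6
  have h8 : ∫ s in X..Y, Complex.exp (-b * (s : ℂ) ^ 2) =
      (Complex.exp (-b * (Y : ℂ) ^ 2) * ((Y⁻¹ : ℝ) : ℂ) / (-2 * b) -
      Complex.exp (-b * (X : ℂ) ^ 2) * ((X⁻¹ : ℝ) : ℂ) / (-2 * b)) +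
      ∫ x in X..Y, Complex.exp (-b * (x : ℂ) ^ 2) * (((x ^ 2)⁻¹ : ℝ) : ℂ) / (-2 * b) := by
    rw [← h4]; ring
  rw [h8]
  have hY : 0 < Y := by linarith
  have h10 := hb' X X⁻¹ (by positivity)
  have h11 := hb' Y Y⁻¹ (by positivity)
  refine (norm_add_le _ _).trans ((add_le_add ((norm_sub_le _ _).trans (add_le_add h11 h10))
    h6).trans (le_of_eq ?_))
  field_simp
  ring

lemma gauss_trunc {b : ℂ} (hb : 0 < b.re) {X : ℝ} (hX : 0 < X) :
    ‖(∫ s in (-X)..X, Complex.exp (-b * (s : ℂ) ^ 2)) - (Real.pi / b) ^ (1 / 2 : ℂ)‖ ≤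
      2 / (‖b‖ * X) := by
  have hce : Continuous fun x : ℝ => Complex.exp (-b * (x : ℂ) ^ 2) := by fun_prop
  have h1 := intervalIntegral_tendsto_integral (l := Filter.atTop) (a := fun Y : ℝ => -Y)
    (b := fun Y : ℝ => Y) (integrable_cexp_neg_mul_sq hb) Filter.tendsto_neg_atTop_atBot
    Filter.tendsto_id
  rw [integral_gaussian_complex hb] at h1
  refine le_of_tendsto ((h1.const_sub (∫ s in (-X)..X, Complex.exp (-b * (s : ℂ) ^ 2))).norm) ?_
  filter_upwards [Filter.eventually_ge_atTop X] with Y hY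
  rw [← intervalIntegral.integral_add_adjacent_intervals (a := -Y) (b := -X)
    (hce.intervalIntegrable _ _) (hce.intervalIntegrable _ _),
    ← intervalIntegral.integral_add_adjacent_intervals (a := -X) (b := X) (c := Y)
    (hce.intervalIntegrable _ _) (hce.intervalIntegrable _ _)]
  have h2 : ∫ s in (-Y)..(-X), Complex.exp (-b * (s : ℂ) ^ 2) =
      ∫ s in X..Y, Complex.exp (-b * (s : ℂ) ^ 2) := by
    rw [← intervalIntegral.integral_comp_neg]
    simp
  rw [h2]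
  have h3 := gauss_tail hb hX hY
  have h4 : ∀ u v : ℂ, u - (v + (u + v)) = -(2 * v) := fun u v => by ring
  rw [h4, norm_neg, norm_mul]
  have h5 : ‖(2 : ℂ)‖ = 2 := by simp
  rw [h5]
  have h6 : 2 / (‖b‖ * X) = 2 * (1 / (‖b‖ * X)) := by ring
  rw [h6]
  linarith

/-- Fresnel integral with explicit error -/
lemma fresnel {q X : ℝ} (hq : 0 < q) (hX : 0 < X) :
    ‖(∫ s in (-X)..X, e (q * s ^ 2 / 2)) - e (1 / 8) / (√q : ℝ)‖ ≤ 1 / (q * X) := by
  have hpi := Real.pi_gt_three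
  let b : ℝ → ℂ := fun ε => (ε : ℂ) - ((Real.pi * q : ℝ) : ℂ) * Complex.I
  have hbc : Continuous b := by fun_prop
  have hb0 : b 0 ≠ 0 := by
    intro h
    have := congrArg Complex.im h
    simp [b] at this
    rcases this with h | h
    linarith
  have hq' : (q : ℂ) ≠ 0 := by exact_mod_cast hq.ne'
  have hpi' : (Real.pi : ℂ) ≠ 0 := by exact_mod_cast Real.pi_ne_zero
  have hval : (Real.pi : ℂ) / b 0 = Complex.I / q := by
    rw [div_eq_div_iff hb0 hq']
    simp only [b]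
    push_cast
    linear_combination ((Real.pi : ℂ) * q) * Complex.I_sq
  have hsq : (0 : ℝ) < √q := Real.sqrt_pos.2 hq
  have hw : (Complex.I / q) ^ (1 / 2 : ℂ) = e (1 / 8) / (√q : ℝ) := by
    have h1 : (e (1 / 8) / (√q : ℝ)) ^ 2 = Complex.I / q := by
      rw [div_pow, ← e_nat_mul]
      congr 1
      · unfold e
        have : (((2 * Real.pi * (((2 : ℕ) : ℝ) * (1 / 8)) : ℝ) : ℂ)) = Real.pi / 2 := by
          push_cast; ring
        rw [this, Complex.exp_pi_div_two_mul_I]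
      · exact_mod_cast Real.sq_sqrt hq.le
    rw [← h1, one_div (2 : ℂ)]
    apply Complex.sq_cpow_two_inv
    rw [Complex.div_ofReal_re, e_re]
    have : 2 * Real.pi * (1 / 8) = Real.pi / 4 := by ring
    rw [this, Real.cos_pi_div_four]
    positivity
  have hc1 : Continuous fun ε : ℝ => ∫ s in (-X)..X, Complex.exp (-b ε * (s : ℂ) ^ 2) :=
    intervalIntegral.continuous_parametric_intervalIntegral_of_continuous' (by
      unfold Function.uncurry; fun_prop) _ _
  have hc2 : ContinuousAt (fun ε : ℝ => ((Real.pi : ℂ) / b ε) ^ (1 / 2 : ℂ)) 0 := by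
    refine ContinuousAt.cpow (continuousAt_const.div hbc.continuousAt hb0) continuousAt_const ?_
    rw [hval]
    right
    simp [Complex.div_ofReal_im, hq.ne']
  have h3 := ((hc1.continuousAt (x := 0)).sub hc2).norm.tendsto.mono_left
    (nhdsWithin_le_nhds (s := Ioi (0 : ℝ)))
  have h4 : ∫ s in (-X)..X, Complex.exp (-b 0 * (s : ℂ) ^ 2) = ∫ s in (-X)..X, e (q * s ^ 2 / 2) := by
    refine intervalIntegral.integral_congr fun s _ => ?_
    simp only [b, e]
    congr 1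
    push_cast
    ring
  simp only [Pi.sub_apply] at h3
  rw [h4, hval, hw] at h3
  refine le_of_tendsto h3 ?_
  filter_upwards [self_mem_nhdsWithin] with ε hε
  have hre : 0 < (b ε).re := by simpa [b] using hε
  refine (gauss_trunc hre hX).trans ?_
  have h5 : Real.pi * q ≤ ‖b ε‖ := by
    have := Complex.abs_im_le_norm (b ε)
    have h6 : (b ε).im = -(Real.pi * q) := by simp [b]
    rwa [h6, abs_neg, abs_of_pos (by positivity)] at this
  rw [div_le_div_iff₀ (mul_pos (lt_of_lt_of_le (by positivity) h5) hX) (by positivity)]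
  have h7 : 2 * q ≤ ‖b ε‖ := le_trans (by nlinarith) h5
  nlinarith

end Vale.Agent.P110.Osc
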