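import Vale.Agent.P110.Basic

namespace Vale.Agent.P110

open Finset MeasureTheory

namespace Sampling

lemma dvd_sub_iff {L a b : ℕ} (ha : a < L) (hb : b < L) : (L : ℤ) ∣ (a : ℤ) - b ↔ a = b := by
  constructor
  · intro h
    have := Int.eq_zero_of_abs_lt_dvd h (by rw [abs_lt]; constructor <;> omega)
    omega
  · rintro rfl
    simp

/-- Discrete Parseval identity. -/
lemma parseval (L n : ℕ) (hL : 0 < L) (hn : n ≤ L) (a : Fin n → ℂ) :
    ∑ r ∈ range L, ‖∑ k, a k * e ((k : ℕ) * ((r : ℝ) / L))‖ ^ 2 = L * ∑ k, ‖a k‖ ^ 2 := by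
  have key : ∑ r ∈ range L, ((‖∑ k, a k * e ((k : ℕ) * ((r : ℝ) / L))‖ ^ 2 : ℝ) : ℂ) =
      ((L * ∑ k, ‖a k‖ ^ 2 : ℝ) : ℂ) := by
    have h1 : ∀ r ∈ range L, ((‖∑ k, a k * e ((k : ℕ) * ((r : ℝ) / L))‖ ^ 2 : ℝ) : ℂ) =
        ∑ k, ∑ k', a k * (starRingEnd ℂ) (a k') * e (((((k : ℕ) : ℤ) - (k' : ℕ) : ℤ) : ℝ) * r / L) := by
      intro r _
      rw [← Complex.normSq_eq_norm_sq, ← Complex.mul_conj, map_sum, sum_mul_sum]
      refine sum_congr rfl fun k _ => sum_congr rfl fun k' _ => ?_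
      rw [map_mul, conj_e, mul_mul_mul_comm, ← e_add]
      congr 2
      push_cast
      ring
    rw [sum_congr rfl h1, sum_comm]
    push_cast
    rw [mul_sum]
    refine sum_congr rfl fun k _ => ?_
    rw [sum_comm]
    have h2 := fun k' : Fin n => sum_e_div L hL (((k : ℕ) : ℤ) - (k' : ℕ))
    push_cast at h2
    simp only [← mul_sum, h2]
    rw [Fintype.sum_eq_single k]
    · rw [if_pos (by simp), Complex.mul_conj, Complex.normSq_eq_norm_sq]
      push_cast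
      ring
    · intro k' hk'
      rw [if_neg, mul_zero]
      rw [dvd_sub_iff (lt_of_lt_of_le k.2 hn) (lt_of_lt_of_le k'.2 hn)]
      exact fun h => hk' (Fin.ext h.symm)
  exact_mod_cast key

/-- Dirichlet kernel. -/
noncomputable def D (n : ℕ) (s : ℝ) : ℂ := ∑ a : Fin n, e ((a : ℕ) * s)

lemma sum_D (L n : ℕ) (hL : 0 < L) (hn : n ≤ L) (t : ℝ) :
    ∑ r ∈ range L, ‖D n (t - r / L)‖ ^ 2 = L * n := by
  have h := parseval L n hL hn (fun a => e (-((a : ℕ) * t)))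
  simp only [norm_e, one_pow, sum_const, card_univ, Fintype.card_fin, nsmul_eq_mul, mul_one] at h
  rw [← h]
  refine sum_congr rfl fun r _ => ?_
  rw [← Complex.norm_conj, D, map_sum]
  congr 2
  refine sum_congr rfl fun a _ => ?_
  rw [conj_e, ← e_add]
  congr 1
  ring

lemma interp (N : ℕ) (hN : 0 < N) (k : Fin N) (t : ℝ) :
    ∑ r ∈ range (2 * N), e ((k : ℕ) * ((r : ℝ) / ((2 * N : ℕ) : ℝ))) *
      (D (2 * N) (t - r / ((2 * N : ℕ) : ℝ)) *
        (starRingEnd ℂ) (D N (t - r / ((2 * N : ℕ) : ℝ)))) =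
      (((2 * N : ℕ) : ℂ) * N) * e ((k : ℕ) * t) := by
  have h1 : ∀ r ∈ range (2 * N), e ((k : ℕ) * ((r : ℝ) / ((2 * N : ℕ) : ℝ))) *
      (D (2 * N) (t - r / ((2 * N : ℕ) : ℝ)) *
        (starRingEnd ℂ) (D N (t - r / ((2 * N : ℕ) : ℝ)))) =
      ∑ b : Fin N, ∑ a : Fin (2 * N), e ((((a : ℕ) : ℝ) - (b : ℕ)) * t) *
        e ((((((k : ℕ) + (b : ℕ) : ℕ) : ℤ) - (a : ℕ) : ℤ) : ℝ) * r / ((2 * N : ℕ) : ℝ)) := by
    intro r _
    rw [D, D, map_sum, sum_mul_sum, sum_comm, mul_sum]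
    refine sum_congr rfl fun b _ => ?_
    rw [mul_sum]
    refine sum_congr rfl fun a _ => ?_
    rw [conj_e, ← e_add, ← e_add, ← e_add]
    congr 1
    simp only [Int.cast_sub, Int.cast_add, Int.cast_natCast, Nat.cast_add]
    ring
  rw [sum_congr rfl h1, sum_comm]
  have h2 : ∀ b : Fin N, ∑ r ∈ range (2 * N), ∑ a : Fin (2 * N),
      e ((((a : ℕ) : ℝ) - (b : ℕ)) * t) *
        e ((((((k : ℕ) + (b : ℕ) : ℕ) : ℤ) - (a : ℕ) : ℤ) : ℝ) * r / ((2 * N : ℕ) : ℝ)) =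
      ((2 * N : ℕ) : ℂ) * e ((k : ℕ) * t) := by
    intro b
    have hkb : (k : ℕ) + (b : ℕ) < 2 * N := by have := k.2; have := b.2; omega
    rw [sum_comm]
    simp only [← mul_sum, sum_e_div (2 * N) (by omega)]
    rw [Fintype.sum_eq_single (⟨k + b, hkb⟩ : Fin (2 * N))]
    · rw [if_pos (by simp), mul_comm]
      congr 2
      push_cast
      ring
    · intro a ha
      rw [if_neg, mul_zero]
      rw [dvd_sub_iff hkb a.2]
      exact fun h => ha (Fin.ext h.symm)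
  simp only [h2, sum_const, card_univ, Fintype.card_fin, nsmul_eq_mul]
  ring

end Sampling

open Sampling in
theorem sampling (N : ℕ) (c : Fin N → ℂ) (M : ℝ)
    (h : ∀ r : Fin (2 * N), ‖∑ k, c k * e ((k : ℕ) * ((r : ℕ) / (2 * N : ℝ)))‖ ≤ M) (hM : 0 ≤ M)
    (t : ℝ) : ‖∑ k, c k * e ((k : ℕ) * t)‖ ≤ 2 * M := by
  rcases Nat.eq_zero_or_pos N with rfl | hN
  · simp [hM]
  have h1 : (((2 * N : ℕ) : ℂ) * N) * ∑ k, c k * e ((k : ℕ) * t) =
      ∑ r ∈ range (2 * N), (∑ k, c k * e ((k : ℕ) * ((r : ℝ) / ((2 * N : ℕ) : ℝ)))) *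
        (D (2 * N) (t - r / ((2 * N : ℕ) : ℝ)) *
          (starRingEnd ℂ) (D N (t - r / ((2 * N : ℕ) : ℝ)))) := by
    simp only [sum_mul]
    rw [sum_comm, mul_sum]
    refine sum_congr rfl fun k _ => ?_
    rw [mul_left_comm, ← interp N hN k t, mul_sum]
    exact sum_congr rfl fun r _ => by ring
  have h2 : ((2 * N : ℕ) : ℝ) * N * ‖∑ k, c k * e ((k : ℕ) * t)‖ ≤
      ∑ r ∈ range (2 * N), M * ((‖D (2 * N) (t - r / ((2 * N : ℕ) : ℝ))‖ ^ 2 +
        ‖D N (t - r / ((2 * N : ℕ) : ℝ))‖ ^ 2) / 2) := by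
    have := congrArg norm h1
    rw [norm_mul, norm_mul, Complex.norm_natCast, Complex.norm_natCast] at this
    rw [this]
    refine (norm_sum_le _ _).trans (sum_le_sum fun r hr => ?_)
    rw [norm_mul, norm_mul, Complex.norm_conj]
    refine mul_le_mul ?_ ?_ (by positivity) hM
    · have := h ⟨r, mem_range.1 hr⟩
      simpa only [Nat.cast_mul, Nat.cast_ofNat] using this
    · nlinarith [sq_nonneg (‖D (2 * N) (t - r / ((2 * N : ℕ) : ℝ))‖ -
        ‖D N (t - r / ((2 * N : ℕ) : ℝ))‖)]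
  rw [← mul_sum, ← sum_div, sum_add_distrib, sum_D _ _ (by omega) le_rfl,
    sum_D _ _ (by omega) (by omega)] at h2
  have hN' : (0 : ℝ) < N := by exact_mod_cast hN
  push_cast at h2
  have h3 : 0 < 2 * (N : ℝ) * N := by positivity
  refine le_of_mul_le_mul_left (h2.trans ?_) h3
  nlinarith

end Vale.Agent.P110
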